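/-
  The generic Heisenberg system: points, removed variables, links; atoms; the group action;
  the relations with a defect `κ`.
-/
import Crest.Prelude.Def_LinF3
import Mathlib

set_option autoImplicit false
set_option linter.unusedSectionVars false

noncomputable section
open Classical

namespace Crest.Agent.CPTL

/-- The field with three elements. -/
abbrev F3 := ZMod 3

theorem two_F3 : (2 : F3) = -1 := by decide

/-- A Heisenberg system. -/
structure HSys where
  Pt : Type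
  Rm : Type
  Lk : Type
  Inc : Type
  Lc : Type
  Nb : Type
  [fPt : Fintype Pt]
  [fRm : Fintype Rm]
  [fLk : Fintype Lk]
  [fInc : Fintype Inc]
  [fLc : Fintype Lc]
  [fNb : Fintype Nb]
  lkAt : Pt → Inc → Lk
  lkAt_inj : ∀ p, Function.Injective (lkAt p)
  loc : Pt → Lc → Rm
  loc_inj : ∀ p, Function.Injective (loc p)
  cc : Lk → F3
  aa : Lk → (Rm → F3) →ₗ[F3] F3
  bb : Lk → (Rm → F3) →ₗ[F3] F3
  aa_loc : ∀ p i (t : Rm → F3), (∀ j, t (loc p j) = 0) → aa (lkAt p i) t = 0
  bb_loc : ∀ p i (t : Rm → F3), (∀ j, t (loc p j) = 0) → bb (lkAt p i) t = 0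
  lagr : ∀ p (t t' : Rm → F3), ∑ i, cc (lkAt p i) *
    (aa (lkAt p i) t * bb (lkAt p i) t' - bb (lkAt p i) t * aa (lkAt p i) t') = 0
  /-- bipartite sign -/
  sg : Pt → F3
  sg_ne : ∀ p, sg p ≠ 0
  bip : ∀ f : Lk → F3, ∑ p, sg p * ∑ i, f (lkAt p i) = 0
  /-- locality of the symplectic form -/
  nb : Rm → Nb → Rm
  om_nb : ∀ (r : Rm) (t : Rm → F3), (∀ j, t (nb r j) = 0) → ∀ e,
    cc e * (aa e t * bb e (Pi.single r 1) - bb e t * aa e (Pi.single r 1)) = 0
  /-- elimination data -/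
  zeta : Lk → Lk → F3
  zeta_bal : ∀ e p, ∑ i, zeta e (lkAt p i) = 0
  rk : Rm ⊕ Lk → ℕ
  rk_inj : Function.Injective rk
  rk_lt : ∀ r e, rk (Sum.inl r) < rk (Sum.inr e)
  lk_has : ∀ e, ∃ p i, lkAt p i = e
  elim : ∀ e, (zeta e e = 1 ∧ ∀ e', rk (Sum.inr e') < rk (Sum.inr e) → zeta e e' = 0) ∨
    (∃ p i, lkAt p i = e ∧ ∀ j, j ≠ i → rk (Sum.inr (lkAt p j)) < rk (Sum.inr e))

attribute [instance] HSys.fPt HSys.fRm HSys.fLk HSys.fInc HSys.fLc HSys.fNb

variable (H : HSys)

namespace HSys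

/-- The symplectic form, link by link. -/
def Om (t t' : H.Rm → F3) (e : H.Lk) : F3 :=
  H.cc e * (H.aa e t * H.bb e t' - H.bb e t * H.aa e t')

/-- Balanced chains. -/
def Bal (χ : H.Lk → F3) : Prop := ∀ p, ∑ i, χ (H.lkAt p i) = 0

theorem Om_bal (t t' : H.Rm → F3) : H.Bal (H.Om t t') := fun p => H.lagr p t t'

theorem Om_anti (t t' : H.Rm → F3) : H.Om t t' = - H.Om t' t := by
  funext e; simp only [Om, Pi.neg_apply]; ring

theorem Om_add_left (t₁ t₂ t' : H.Rm → F3) : H.Om (t₁ + t₂) t' = H.Om t₁ t' + H.Om t₂ t' := by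
  funext e; simp only [Om, map_add, Pi.add_apply]; ring

theorem Om_add_right (t t₁ t₂ : H.Rm → F3) : H.Om t (t₁ + t₂) = H.Om t t₁ + H.Om t t₂ := by
  funext e; simp only [Om, map_add, Pi.add_apply]; ring

theorem Om_smul_left (s : F3) (t t' : H.Rm → F3) : H.Om (s • t) t' = s • H.Om t t' := by
  funext e; simp only [Om, map_smul, Pi.smul_apply, smul_eq_mul]; ring

theorem Om_smul_right (s : F3) (t t' : H.Rm → F3) : H.Om t (s • t') = s • H.Om t t' := by
  funext e; simp only [Om, map_smul, Pi.smul_apply, smul_eq_mul]; ring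

theorem Om_zero_left (t' : H.Rm → F3) : H.Om 0 t' = 0 := by
  funext e; simp [Om]

theorem Om_zero_right (t : H.Rm → F3) : H.Om t 0 = 0 := by
  funext e; simp [Om]

/-- Extension by zero of a local assignment. -/
def extT (p : H.Pt) (τ : H.Lc → F3) : H.Rm → F3 :=
  fun r => ∑ j, if H.loc p j = r then τ j else 0

theorem extT_loc (p : H.Pt) (τ : H.Lc → F3) (j : H.Lc) : H.extT p τ (H.loc p j) = τ j := by
  unfold extT
  rw [Finset.sum_eq_single j]
  · simp
  · intro b _ hb
    rw [if_neg]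
    exact fun h => hb (H.loc_inj p h)
  · simp

/-- The form `aa` of the `i`th link at `p`, on a local assignment. -/
def aL (p : H.Pt) (i : H.Inc) (τ : H.Lc → F3) : F3 := H.aa (H.lkAt p i) (H.extT p τ)

/-- The form `bb` of the `i`th link at `p`, on a local assignment. -/
def bL (p : H.Pt) (i : H.Inc) (τ : H.Lc → F3) : F3 := H.bb (H.lkAt p i) (H.extT p τ)

theorem aa_eq_of_loc (p : H.Pt) (i : H.Inc) {t t' : H.Rm → F3}
    (h : ∀ j, t (H.loc p j) = t' (H.loc p j)) : H.aa (H.lkAt p i) t = H.aa (H.lkAt p i) t' := by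
  have := H.aa_loc p i (t - t') (fun j => by simp [h j])
  rw [map_sub, sub_eq_zero] at this
  exact this

theorem bb_eq_of_loc (p : H.Pt) (i : H.Inc) {t t' : H.Rm → F3}
    (h : ∀ j, t (H.loc p j) = t' (H.loc p j)) : H.bb (H.lkAt p i) t = H.bb (H.lkAt p i) t' := by
  have := H.bb_loc p i (t - t') (fun j => by simp [h j])
  rw [map_sub, sub_eq_zero] at this
  exact this

theorem aL_comp (p : H.Pt) (i : H.Inc) (t : H.Rm → F3) :
    H.aL p i (fun j => t (H.loc p j)) = H.aa (H.lkAt p i) t :=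
  H.aa_eq_of_loc p i (fun j => H.extT_loc p _ j)

theorem bL_comp (p : H.Pt) (i : H.Inc) (t : H.Rm → F3) :
    H.bL p i (fun j => t (H.loc p j)) = H.bb (H.lkAt p i) t :=
  H.bb_eq_of_loc p i (fun j => H.extT_loc p _ j)

theorem aL_shift (p : H.Pt) (i : H.Inc) (τ : H.Lc → F3) (t : H.Rm → F3) :
    H.aL p i (fun j => τ j + t (H.loc p j)) = H.aL p i τ + H.aa (H.lkAt p i) t := by
  unfold aL
  rw [← map_add]
  exact H.aa_eq_of_loc p i (fun j => by simp [extT_loc])

theorem bL_shift (p : H.Pt) (i : H.Inc) (τ : H.Lc → F3) (t : H.Rm → F3) :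
    H.bL p i (fun j => τ j + t (H.loc p j)) = H.bL p i τ + H.bb (H.lkAt p i) t := by
  unfold bL
  rw [← map_add]
  exact H.bb_eq_of_loc p i (fun j => by simp [extT_loc])

theorem aL_zero (p : H.Pt) (i : H.Inc) : H.aL p i 0 = 0 := by
  have := H.aL_comp p i 0
  simp only [Pi.zero_apply, map_zero] at this
  exact this

theorem bL_zero (p : H.Pt) (i : H.Inc) : H.bL p i 0 = 0 := by
  have := H.bL_comp p i 0
  simp only [Pi.zero_apply, map_zero] at this
  exact this

/-- The Lagrangian identity for a local assignment. -/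
theorem lagr_loc (p : H.Pt) (t : H.Rm → F3) (τ : H.Lc → F3) :
    ∑ i, H.cc (H.lkAt p i) *
      (H.aa (H.lkAt p i) t * H.bL p i τ - H.aL p i τ * H.bb (H.lkAt p i) t) = 0 := by
  have := H.lagr p t (H.extT p τ)
  rw [← this]
  refine Finset.sum_congr rfl fun i _ => ?_
  unfold aL bL
  ring

end HSys

/-- The base atoms. -/
inductive Base (H : HSys) : Type
  | tau (r : H.Rm) (v : F3) : Base H
  | bag (e : H.Lk) (x y z : F3) : Base H
  | cfg (p : H.Pt) (τ : H.Lc → F3) (z : H.Inc → F3) : Base H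

namespace Base

variable {H}

/-- The sum decomposition of the base atoms. -/
def equivSum (H : HSys) : Base H ≃ (H.Rm × F3) ⊕ (H.Lk × F3 × F3 × F3) ⊕ (H.Pt × (H.Lc → F3) × (H.Inc → F3)) where
  toFun
    | tau r v => Sum.inl (r, v)
    | bag e x y z => Sum.inr (Sum.inl (e, x, y, z))
    | cfg p τ z => Sum.inr (Sum.inr (p, τ, z))
  invFun
    | Sum.inl (r, v) => tau r v
    | Sum.inr (Sum.inl (e, x, y, z)) => bag e x y z
    | Sum.inr (Sum.inr (p, τ, z)) => cfg p τ z
  left_inv := by rintro (_ | _ | _) <;> rfl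
  right_inv := by rintro (⟨_, _⟩ | ⟨_, _, _, _⟩ | ⟨_, _, _⟩) <;> rfl

instance instFintype : Fintype (Base H) := Fintype.ofEquiv _ (equivSum H).symm

theorem card_eq : Fintype.card (Base H) =
    Fintype.card H.Rm * 3 + (Fintype.card H.Lk * (3 * (3 * 3)) +
      Fintype.card H.Pt * (3 ^ Fintype.card H.Lc * 3 ^ Fintype.card H.Inc)) := by
  rw [Fintype.card_congr (equivSum H)]
  simp [Fintype.card_sum, Fintype.card_prod, Fintype.card_fun, ZMod.card]

/-- The action of `G(t)`. -/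
def gAct (t : H.Rm → F3) : Base H → Base H
  | tau r v => tau r (v + t r)
  | bag e x y z => bag e (x + H.aa e t) (y + H.bb e t) (z + 2 * H.cc e * (H.aa e t * y - x * H.bb e t))
  | cfg p τ z => cfg p (fun j => τ j + t (H.loc p j)) (fun i => z i + 2 * H.cc (H.lkAt p i) *
      (H.aa (H.lkAt p i) t * H.bL p i τ - H.aL p i τ * H.bb (H.lkAt p i) t))

/-- The shift action. -/
def sAct (χ : H.Lk → F3) (κ : H.Pt → H.Inc → F3) : Base H → Base H
  | tau r v => tau r v
  | bag e x y z => bag e x y (z + χ e)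
  | cfg p τ z => cfg p τ (fun i => z i + χ (H.lkAt p i) + κ p i)

theorem sAct_sAct (χ χ' : H.Lk → F3) (κ κ' : H.Pt → H.Inc → F3) (a : Base H) :
    sAct χ' κ' (sAct χ κ a) = sAct (χ + χ') (κ + κ') a := by
  cases a with
  | tau r v => rfl
  | bag e x y z =>
    simp only [sAct, Pi.add_apply, add_assoc]
  | cfg p τ z =>
    simp only [sAct, cfg.injEq, true_and]
    funext i
    simp only [Pi.add_apply]
    ring

theorem sAct_zero (a : Base H) : sAct (0 : H.Lk → F3) 0 a = a := by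
  cases a with
  | tau r v => rfl
  | bag e x y z => simp [sAct]
  | cfg p τ z => simp [sAct]

theorem gAct_zero (a : Base H) : gAct (0 : H.Rm → F3) a = a := by
  cases a with
  | tau r v => simp [gAct]
  | bag e x y z => simp [gAct]
  | cfg p τ z => simp [gAct]

theorem gAct_gAct (t t' : H.Rm → F3) (a : Base H) :
    gAct t' (gAct t a) = sAct (H.Om t t') 0 (gAct (t + t') a) := by
  have h3 : (3 : F3) = 0 := by decide
  cases a with
  | tau r v => simp [gAct, sAct, add_assoc]
  | bag e x y z =>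
    simp only [gAct, sAct, map_add, HSys.Om]
    congr 1
    · ring
    · ring
    · linear_combination (H.cc e * (H.aa e t' * H.bb e t - H.aa e t * H.bb e t')) * h3
  | cfg p τ z =>
    simp only [gAct, sAct, map_add, HSys.Om, HSys.aL_shift, HSys.bL_shift]
    congr 1
    · funext j; simp [add_assoc]
    · funext i
      simp only [Pi.zero_apply, map_add]
      linear_combination (H.cc (H.lkAt p i) *
        (H.aa (H.lkAt p i) t' * H.bb (H.lkAt p i) t - H.aa (H.lkAt p i) t * H.bb (H.lkAt p i) t')) * h3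

theorem gAct_sAct (t : H.Rm → F3) (χ : H.Lk → F3) (κ : H.Pt → H.Inc → F3) (a : Base H) :
    gAct t (sAct χ κ a) = sAct χ κ (gAct t a) := by
  cases a with
  | tau r v => rfl
  | bag e x y z =>
    simp only [gAct, sAct]
    congr 1
    ring
  | cfg p τ z =>
    simp only [gAct, sAct]
    congr 1
    funext i
    ring

/-- `G(t)` as a permutation. -/
def gPerm (t : H.Rm → F3) : Equiv.Perm (Base H) where
  toFun := gAct t
  invFun := gAct (-t)
  left_inv a := by
    rw [gAct_gAct]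
    have h : H.Om t (-t) = 0 := by
      funext e; simp only [HSys.Om, map_neg, Pi.zero_apply]; ring
    rw [h, add_neg_cancel, gAct_zero]
    exact sAct_zero a
  right_inv a := by
    rw [gAct_gAct]
    have h : H.Om (-t) t = 0 := by
      funext e; simp only [HSys.Om, map_neg, Pi.zero_apply]; ring
    rw [h, neg_add_cancel, gAct_zero]
    exact sAct_zero a

/-- `Shift(χ, κ)` as a permutation. -/
def sPerm (χ : H.Lk → F3) (κ : H.Pt → H.Inc → F3) : Equiv.Perm (Base H) where
  toFun := sAct χ κ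
  invFun := sAct (-χ) (-κ)
  left_inv a := by
    rw [sAct_sAct, add_neg_cancel, add_neg_cancel]; exact sAct_zero a
  right_inv a := by
    rw [sAct_sAct, neg_add_cancel, neg_add_cancel]; exact sAct_zero a

@[simp] theorem gPerm_apply (t : H.Rm → F3) (a : Base H) : gPerm t a = gAct t a := rfl
@[simp] theorem sPerm_apply (χ : H.Lk → F3) (κ : H.Pt → H.Inc → F3) (a : Base H) :
    sPerm χ κ a = sAct χ κ a := rfl

theorem sPerm_mul (χ χ' : H.Lk → F3) (κ κ' : H.Pt → H.Inc → F3) :
    sPerm χ' κ' * sPerm χ κ = sPerm (χ + χ') (κ + κ') := by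
  ext a
  exact sAct_sAct χ χ' κ κ' a

theorem sPerm_zero : sPerm (0 : H.Lk → F3) 0 = 1 := by
  ext a
  exact sAct_zero a

theorem sPerm_inv (χ : H.Lk → F3) (κ : H.Pt → H.Inc → F3) : (sPerm χ κ)⁻¹ = sPerm (-χ) (-κ) :=
  Equiv.ext fun _ => rfl

theorem sPerm_comm (χ χ' : H.Lk → F3) (κ κ' : H.Pt → H.Inc → F3) :
    sPerm χ' κ' * sPerm χ κ = sPerm χ κ * sPerm χ' κ' := by
  rw [sPerm_mul, sPerm_mul, add_comm χ, add_comm κ]

theorem gPerm_sPerm (t : H.Rm → F3) (χ : H.Lk → F3) (κ : H.Pt → H.Inc → F3) :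
    gPerm t * sPerm χ κ = sPerm χ κ * gPerm t := by
  ext a
  exact gAct_sAct t χ κ a

theorem gPerm_mul (t t' : H.Rm → F3) :
    gPerm t' * gPerm t = sPerm (H.Om t t') 0 * gPerm (t + t') := by
  ext a
  exact gAct_gAct t t' a

theorem gPerm_zero : gPerm (0 : H.Rm → F3) = 1 := by
  ext a
  exact gAct_zero a

theorem gPerm_inv (t : H.Rm → F3) : (gPerm t)⁻¹ = gPerm (-t) :=
  Equiv.ext fun _ => rfl

/-- Commutation relation. -/
theorem gPerm_conj (t u : H.Rm → F3) :
    gPerm t * gPerm u * (gPerm t)⁻¹ = gPerm u * sPerm (H.Om t u) 0 := by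
  have h1 : gPerm t * gPerm u = sPerm (H.Om u t) 0 * gPerm (u + t) := gPerm_mul u t
  have h2 : gPerm u * gPerm t = sPerm (H.Om t u) 0 * gPerm (t + u) := gPerm_mul t u
  have h3 : gPerm (u + t) = gPerm (t + u) := by rw [add_comm]
  -- in characteristic three `Ω(u,t) = Ω(t,u) + Ω(t,u)`
  have h4 : H.Om u t = H.Om t u + H.Om t u := by
    rw [H.Om_anti u t]
    funext e
    simp only [Pi.neg_apply, Pi.add_apply]
    have h3' : (3 : F3) = 0 := by decide
    linear_combination (- H.Om t u e) * h3'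
  rw [mul_inv_eq_iff_eq_mul]
  calc gPerm t * gPerm u = sPerm (H.Om u t) 0 * gPerm (u + t) := h1
    _ = sPerm (H.Om t u + H.Om t u) 0 * gPerm (t + u) := by rw [h4, h3]
    _ = sPerm (H.Om t u) 0 * (sPerm (H.Om t u) 0 * gPerm (t + u)) := by
      rw [← mul_assoc, sPerm_mul, add_zero]
    _ = sPerm (H.Om t u) 0 * (gPerm u * gPerm t) := by rw [h2]
    _ = gPerm u * sPerm (H.Om t u) 0 * gPerm t := by
      rw [← mul_assoc, ← gPerm_sPerm u]

/-- The commutator of two generators. -/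
theorem gPerm_comm (t u : H.Rm → F3) :
    gPerm t * gPerm u * (gPerm t)⁻¹ * (gPerm u)⁻¹ = sPerm (H.Om t u) 0 := by
  rw [gPerm_conj, gPerm_sPerm u]
  group

end Base

end Crest.Agent.CPTL
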