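/-
  The table extension: from a type `B` and a set `𝓜` of permutations of `B` build atoms
  `B ⊕ 𝓜 ⊕ pairs`; the normaliser of `𝓜` acts on them.
-/
import Crest.Agent.Lib.CPTL.Sys

set_option autoImplicit false
set_option linter.unusedSectionVars false

noncomputable section
open Classical

namespace Crest.Agent.CPTL

open Crest.LogicCS.LinF3

variable {B : Type} [Fintype B] (M : Set (Equiv.Perm B))

/-- The normaliser of a set of permutations. -/
def nGroup : Subgroup (Equiv.Perm B) where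
  carrier := {γ | ∀ μ, γ * μ * γ⁻¹ ∈ M ↔ μ ∈ M}
  mul_mem' := by
    intro γ δ hγ hδ μ
    have := hγ (δ * μ * δ⁻¹)
    rw [← hδ μ, ← this]
    have e : γ * δ * μ * (γ * δ)⁻¹ = γ * (δ * μ * δ⁻¹) * γ⁻¹ := by group
    rw [e]
  one_mem' := by intro μ; simp
  inv_mem' := by
    intro γ hγ μ
    have := hγ (γ⁻¹ * μ * γ⁻¹⁻¹)
    rw [← this]
    have e : γ * (γ⁻¹ * μ * γ⁻¹⁻¹) * γ⁻¹ = μ := by group
    rw [e]

theorem mem_nGroup {γ : Equiv.Perm B} : γ ∈ nGroup M ↔ ∀ μ, γ * μ * γ⁻¹ ∈ M ↔ μ ∈ M := Iff.rfl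

/-- `B` together with the moves. -/
abbrev XT := B ⊕ M

/-- The atoms of the table extension. -/
abbrev ExtT := XT M ⊕ (XT M × XT M)

variable {M}

/-- The action on `B ⊕ 𝓜`. -/
def actXfun (γ : nGroup M) : XT M → XT M
  | Sum.inl b => Sum.inl (γ.1 b)
  | Sum.inr μ => Sum.inr ⟨γ.1 * μ.1 * γ.1⁻¹, (γ.2 μ.1).2 μ.2⟩

theorem actXfun_mul (γ δ : nGroup M) (x : XT M) :
    actXfun (γ * δ) x = actXfun γ (actXfun δ x) := by
  rcases x with b | μ
  · rfl
  · simp only [actXfun, Sum.inr.injEq]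
    apply Subtype.ext
    show (γ.1 * δ.1) * μ.1 * (γ.1 * δ.1)⁻¹ = γ.1 * (δ.1 * μ.1 * δ.1⁻¹) * γ.1⁻¹
    group

theorem actXfun_one (x : XT M) : actXfun (1 : nGroup M) x = x := by
  rcases x with b | μ
  · rfl
  · simp only [actXfun, Sum.inr.injEq]
    apply Subtype.ext
    show (1 : Equiv.Perm B) * μ.1 * (1 : Equiv.Perm B)⁻¹ = μ.1
    group

/-- The action on `B ⊕ 𝓜` as a permutation. -/
def actX (γ : nGroup M) : Equiv.Perm (XT M) where
  toFun := actXfun γ
  invFun := actXfun γ⁻¹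
  left_inv x := by rw [← actXfun_mul, inv_mul_cancel, actXfun_one]
  right_inv x := by rw [← actXfun_mul, mul_inv_cancel, actXfun_one]

@[simp] theorem actX_inl (γ : nGroup M) (b : B) : actX γ (Sum.inl b) = Sum.inl (γ.1 b) := rfl

@[simp] theorem actX_inr (γ : nGroup M) (μ : M) :
    actX γ (Sum.inr μ) = Sum.inr ⟨γ.1 * μ.1 * γ.1⁻¹, (γ.2 μ.1).2 μ.2⟩ := rfl

theorem actX_mul (γ δ : nGroup M) : actX (γ * δ) = actX γ * actX δ :=
  Equiv.ext fun x => actXfun_mul γ δ x

theorem actX_one : actX (1 : nGroup M) = 1 :=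
  Equiv.ext fun x => actXfun_one x

/-- The action on the extended atoms. -/
def extFun (γ : nGroup M) : ExtT M → ExtT M
  | Sum.inl x => Sum.inl (actX γ x)
  | Sum.inr (x, y) => Sum.inr (actX γ x, actX γ y)

theorem extFun_mul (γ δ : nGroup M) (a : ExtT M) : extFun (γ * δ) a = extFun γ (extFun δ a) := by
  rcases a with x | ⟨x, y⟩ <;> simp [extFun, actX_mul]

theorem extFun_one (a : ExtT M) : extFun (1 : nGroup M) a = a := by
  rcases a with x | ⟨x, y⟩ <;> simp [extFun, actX_one]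

/-- The action on the extended atoms, as a permutation. -/
def extP (γ : nGroup M) : Equiv.Perm (ExtT M) where
  toFun := extFun γ
  invFun := extFun γ⁻¹
  left_inv x := by rw [← extFun_mul, inv_mul_cancel, extFun_one]
  right_inv x := by rw [← extFun_mul, mul_inv_cancel, extFun_one]

@[simp] theorem extP_inl_inl (γ : nGroup M) (b : B) :
    extP γ (Sum.inl (Sum.inl b)) = Sum.inl (Sum.inl (γ.1 b)) := rfl

@[simp] theorem extP_inl (γ : nGroup M) (x : XT M) : extP γ (Sum.inl x) = Sum.inl (actX γ x) := rfl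

@[simp] theorem extP_inr (γ : nGroup M) (x y : XT M) :
    extP γ (Sum.inr (x, y)) = Sum.inr (actX γ x, actX γ y) := rfl

theorem extP_mul (γ δ : nGroup M) : extP (γ * δ) = extP γ * extP δ :=
  Equiv.ext fun a => extFun_mul γ δ a

theorem extP_one : extP (1 : nGroup M) = 1 :=
  Equiv.ext fun a => extFun_one a

theorem extP_inv (γ : nGroup M) : extP γ⁻¹ = (extP γ)⁻¹ := by
  rw [eq_inv_iff_mul_eq_one, ← extP_mul, inv_mul_cancel, extP_one]

/-- `extP` is injective on base atoms. -/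
theorem extP_injective_base {γ δ : nGroup M} (h : extP γ = extP δ) : γ = δ := by
  apply Subtype.ext
  ext b
  have := congrArg (fun f : Equiv.Perm (ExtT M) => f (Sum.inl (Sum.inl b))) h
  simp only [extP_inl_inl, Sum.inl.injEq] at this
  rw [this]

/-- The relations of the table extension. -/
def extRel (BR : Sym → B → B → Prop) (r : Sym) : ExtT M → ExtT M → Prop
  | Sum.inl (Sum.inl u), Sum.inl (Sum.inl v) => BR r u v
  | Sum.inr (u, u'), Sum.inl x => (r = Sym.Z 0 ∧ x = u) ∨ (r = Sym.Z 1 ∧ x = u')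
  | Sum.inl (Sum.inr μ), Sum.inr (u, u') =>
      r = Sym.Z 2 ∧ ∃ h : μ.1 ∈ nGroup M, actX ⟨μ.1, h⟩ u = u'
  | _, _ => False

/-- Conjugation of the action. -/
theorem actX_conj (γ : nGroup M) (μ : Equiv.Perm B) (h : μ ∈ nGroup M)
    (h' : γ.1 * μ * γ.1⁻¹ ∈ nGroup M) :
    actX ⟨γ.1 * μ * γ.1⁻¹, h'⟩ = actX γ * actX ⟨μ, h⟩ * (actX γ)⁻¹ := by
  have e : (⟨γ.1 * μ * γ.1⁻¹, h'⟩ : nGroup M) = γ * ⟨μ, h⟩ * γ⁻¹ := by
    apply Subtype.ext; rfl
  have e2 : actX γ⁻¹ = (actX γ)⁻¹ := by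
    rw [eq_inv_iff_mul_eq_one, ← actX_mul, inv_mul_cancel, actX_one]
  rw [e, actX_mul, actX_mul, e2]

/-- Invariance of the table relations. -/
theorem extRel_extP {BR BR' : Sym → B → B → Prop} (γ : nGroup M)
    (hγ : ∀ r u v, BR' r (γ.1 u) (γ.1 v) ↔ BR r u v) (r : Sym) (a b : ExtT M) :
    extRel BR' r (extP γ a) (extP γ b) ↔ extRel BR r a b := by
  rcases a with (u | μ) | ⟨x, y⟩
  · rcases b with (v | ν) | ⟨x', y'⟩
    · exact hγ r u v
    · simp [extRel]
    · simp [extRel]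
  · rcases b with (v | ν) | ⟨x', y'⟩
    · simp [extRel]
    · simp [extRel]
    · simp only [extP_inl, extP_inr, actX_inr, extRel]
      refine and_congr_right fun _ => ?_
      have hinv : ∀ z : XT M, (actX γ)⁻¹ ((actX γ) z) = z := fun z => (actX γ).symm_apply_apply z
      constructor
      · rintro ⟨h, e⟩
        have hμ : μ.1 ∈ nGroup M := by
          have h2 : γ.1⁻¹ * (γ.1 * μ.1 * γ.1⁻¹) * γ.1 ∈ nGroup M :=
            (nGroup M).mul_mem ((nGroup M).mul_mem ((nGroup M).inv_mem γ.2) h) γ.2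
          have e2 : γ.1⁻¹ * (γ.1 * μ.1 * γ.1⁻¹) * γ.1 = μ.1 := by group
          rwa [e2] at h2
        refine ⟨hμ, ?_⟩
        rw [actX_conj γ μ.1 hμ h] at e
        simp only [Equiv.Perm.coe_mul, Function.comp_apply, hinv] at e
        exact (actX γ).injective e
      · rintro ⟨h, e⟩
        have h' : γ.1 * μ.1 * γ.1⁻¹ ∈ nGroup M :=
          (nGroup M).mul_mem ((nGroup M).mul_mem γ.2 h) ((nGroup M).inv_mem γ.2)
        refine ⟨h', ?_⟩
        rw [actX_conj γ μ.1 h h']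
        simp only [Equiv.Perm.coe_mul, Function.comp_apply, hinv]
        rw [e]
  · rcases b with x0 | ⟨x', y'⟩
    · simp only [extP_inl, extP_inr, extRel]
      refine or_congr (and_congr_right fun _ => ?_) (and_congr_right fun _ => ?_)
      · exact (actX γ).injective.eq_iff
      · exact (actX γ).injective.eq_iff
    · simp [extRel]

end Crest.Agent.CPTL
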