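/-
  The relations on the base atoms, their invariance, the family of moves, and the final structure.
-/
import Crest.Agent.Lib.CPTL.Table

set_option autoImplicit false
set_option linter.unusedSectionVars false

noncomputable section
open Classical

namespace Crest.Agent.CPTL

open Crest.LogicCS.LinF3

variable {H : HSys}

namespace Base

/-- The slot of a base atom. -/
def slotOf : Base H → Option (H.Rm ⊕ H.Lk)
  | tau r _ => some (Sum.inl r)
  | bag e _ _ _ => some (Sum.inr e)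
  | cfg _ _ _ => none

@[simp] theorem slotOf_gAct (t : H.Rm → F3) (a : Base H) : slotOf (gAct t a) = slotOf a := by
  cases a <;> rfl

@[simp] theorem slotOf_sAct (χ : H.Lk → F3) (κ : H.Pt → H.Inc → F3) (a : Base H) :
    slotOf (sAct χ κ a) = slotOf a := by
  cases a <;> rfl

/-- A valid configuration. -/
def ValidC : Base H → Prop
  | cfg _ _ z => ∑ i, z i = 0
  | _ => False

/-- The order of the slots. -/
def Ord (u v : Base H) : Prop :=
  ∃ s s', slotOf u = some s ∧ slotOf v = some s' ∧ H.rk s < H.rk s'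

/-- The relations on the base atoms, with defect `κ`. -/
def BRel (κ : H.Pt → H.Inc → F3) : Sym → Base H → Base H → Prop
  | .Ed, bag e x y z, bag e' x' y' z' => e = e' ∧ x = x' ∧ y = y' ∧ z = z'
  | .Cf, u, v => (u = v ∧ ValidC u) ∨ Ord u v
  | .EB, u, v => ∃ s, slotOf u = some s ∧ slotOf v = some s
  | .VB, cfg p _ z, cfg p' _ z' => p = p' ∧ ∑ i, z i = 0 ∧ ∑ i, z' i = 0
  | .I, cfg p τ z, bag e x y w =>
      ∑ i, z i = 0 ∧ ∃ i, H.lkAt p i = e ∧ x = H.aL p i τ ∧ y = H.bL p i τ ∧ w = z i + κ p i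
  | .I, cfg p τ z, tau r v => ∑ i, z i = 0 ∧ ∃ j, H.loc p j = r ∧ τ j = v
  | .Z δ, bag e x y z, bag e' x' y' z' => e = e' ∧ δ = z' - z + 2 * H.cc e * (x' * y - x * y')
  | _, _, _ => False

theorem gAct_sum (t : H.Rm → F3) (p : H.Pt) (τ : H.Lc → F3) (z : H.Inc → F3) :
    ∑ i, (z i + 2 * H.cc (H.lkAt p i) *
      (H.aa (H.lkAt p i) t * H.bL p i τ - H.aL p i τ * H.bb (H.lkAt p i) t)) = ∑ i, z i := by
  rw [Finset.sum_add_distrib]
  have : ∑ i, 2 * H.cc (H.lkAt p i) *
      (H.aa (H.lkAt p i) t * H.bL p i τ - H.aL p i τ * H.bb (H.lkAt p i) t) = 0 := by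
    have h := H.lagr_loc p t τ
    calc _ = 2 * ∑ i, H.cc (H.lkAt p i) *
        (H.aa (H.lkAt p i) t * H.bL p i τ - H.aL p i τ * H.bb (H.lkAt p i) t) := by
          rw [Finset.mul_sum]
          exact Finset.sum_congr rfl fun i _ => by ring
      _ = 0 := by rw [h, mul_zero]
  rw [this, add_zero]

theorem ValidC_gAct (t : H.Rm → F3) (a : Base H) : ValidC (gAct t a) ↔ ValidC a := by
  cases a with
  | tau r v => exact Iff.rfl
  | bag e x y z => exact Iff.rfl
  | cfg p τ z =>
    show ∑ i, (z i + 2 * H.cc (H.lkAt p i) *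
      (H.aa (H.lkAt p i) t * H.bL p i τ - H.aL p i τ * H.bb (H.lkAt p i) t)) = 0 ↔ ∑ i, z i = 0
    rw [gAct_sum]

theorem Ord_gAct (t : H.Rm → F3) (u v : Base H) : Ord (gAct t u) (gAct t v) ↔ Ord u v := by
  simp [Ord]

/-- All relations are preserved by `G(t)`. -/
theorem BRel_gAct (κ : H.Pt → H.Inc → F3) (t : H.Rm → F3) (r : Sym) (u v : Base H) :
    BRel κ r (gAct t u) (gAct t v) ↔ BRel κ r u v := by
  cases r with
  | Ed =>
    cases u with
    | tau _ _ => cases v <;> exact Iff.rfl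
    | cfg _ _ _ => cases v <;> exact Iff.rfl
    | bag e x y z =>
      cases v with
      | tau _ _ => exact Iff.rfl
      | cfg _ _ _ => exact Iff.rfl
      | bag e' x' y' z' =>
        simp only [BRel, gAct]
        constructor
        · rintro ⟨rfl, h1, h2, h3⟩
          have h1' : x = x' := add_right_cancel h1
          have h2' : y = y' := add_right_cancel h2
          subst h1' h2'
          exact ⟨rfl, rfl, rfl, add_right_cancel h3⟩
        · rintro ⟨rfl, rfl, rfl, rfl⟩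
          exact ⟨rfl, rfl, rfl, rfl⟩
  | Cf =>
    show (gAct t u = gAct t v ∧ ValidC (gAct t u)) ∨ Ord (gAct t u) (gAct t v) ↔
      (u = v ∧ ValidC u) ∨ Ord u v
    rw [ValidC_gAct, Ord_gAct]
    have : gAct t u = gAct t v ↔ u = v := (gPerm t).injective.eq_iff
    rw [this]
  | EB => simp [BRel]
  | VB =>
    cases u with
    | tau _ _ => cases v <;> exact Iff.rfl
    | bag _ _ _ _ => cases v <;> exact Iff.rfl
    | cfg p τ z =>
      cases v with
      | tau _ _ => exact Iff.rfl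
      | bag _ _ _ _ => exact Iff.rfl
      | cfg p' τ' z' =>
        simp only [BRel, gAct, gAct_sum]
  | I =>
    cases u with
    | tau _ _ => cases v <;> exact Iff.rfl
    | bag _ _ _ _ => cases v <;> exact Iff.rfl
    | cfg p τ z =>
      cases v with
      | cfg _ _ _ => exact Iff.rfl
      | tau r v =>
        simp only [BRel, gAct, gAct_sum]
        refine and_congr_right fun _ => ?_
        constructor
        · rintro ⟨j, rfl, h⟩
          exact ⟨j, rfl, add_right_cancel h⟩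
        · rintro ⟨j, rfl, rfl⟩
          exact ⟨j, rfl, rfl⟩
      | bag e x y w =>
        simp only [BRel, gAct, gAct_sum, HSys.aL_shift, HSys.bL_shift]
        refine and_congr_right fun _ => ?_
        constructor
        · rintro ⟨i, rfl, h1, h2, h3⟩
          have h1' : x = H.aL p i τ := add_right_cancel h1
          have h2' : y = H.bL p i τ := add_right_cancel h2
          subst h1' h2'
          refine ⟨i, rfl, rfl, rfl, ?_⟩
          have h4 : w + 2 * H.cc (H.lkAt p i) *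
              (H.aa (H.lkAt p i) t * H.bL p i τ - H.aL p i τ * H.bb (H.lkAt p i) t) =
              (z i + κ p i) + 2 * H.cc (H.lkAt p i) *
              (H.aa (H.lkAt p i) t * H.bL p i τ - H.aL p i τ * H.bb (H.lkAt p i) t) := by
            rw [h3]; ring
          exact add_right_cancel h4
        · rintro ⟨i, rfl, rfl, rfl, rfl⟩
          refine ⟨i, rfl, rfl, rfl, ?_⟩
          ring
  | Z δ =>
    cases u with
    | tau _ _ => cases v <;> exact Iff.rfl
    | cfg _ _ _ => cases v <;> exact Iff.rfl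
    | bag e x y z =>
      cases v with
      | tau _ _ => exact Iff.rfl
      | cfg _ _ _ => exact Iff.rfl
      | bag e' x' y' z' =>
        simp only [BRel, gAct]
        refine and_congr_right ?_
        rintro rfl
        have : (z' + 2 * H.cc e * (H.aa e t * y' - x' * H.bb e t) -
            (z + 2 * H.cc e * (H.aa e t * y - x * H.bb e t)) +
            2 * H.cc e * ((x' + H.aa e t) * (y + H.bb e t) - (x + H.aa e t) * (y' + H.bb e t))) =
            z' - z + 2 * H.cc e * (x' * y - x * y') := by ring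
        rw [this]

/-- Balance of a shift. -/
def Bal2 (χ : H.Lk → F3) (κ : H.Pt → H.Inc → F3) : Prop :=
  ∀ p, ∑ i, (χ (H.lkAt p i) + κ p i) = 0

theorem sAct_sum {χ : H.Lk → F3} {κ : H.Pt → H.Inc → F3} (hb : Bal2 χ κ) (p : H.Pt)
    (z : H.Inc → F3) : ∑ i, (z i + χ (H.lkAt p i) + κ p i) = ∑ i, z i := by
  have : ∀ i, z i + χ (H.lkAt p i) + κ p i = z i + (χ (H.lkAt p i) + κ p i) := fun i => by ring
  simp only [this]
  rw [Finset.sum_add_distrib, hb p, add_zero]

theorem ValidC_sAct {χ : H.Lk → F3} {κ : H.Pt → H.Inc → F3} (hb : Bal2 χ κ) (a : Base H) :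
    ValidC (sAct χ κ a) ↔ ValidC a := by
  cases a with
  | tau r v => exact Iff.rfl
  | bag e x y z => exact Iff.rfl
  | cfg p τ z =>
    show ∑ i, (z i + χ (H.lkAt p i) + κ p i) = 0 ↔ ∑ i, z i = 0
    rw [sAct_sum hb]

theorem Ord_sAct (χ : H.Lk → F3) (κ : H.Pt → H.Inc → F3) (u v : Base H) :
    Ord (sAct χ κ u) (sAct χ κ v) ↔ Ord u v := by
  simp [Ord]

/-- All relations are preserved by a balanced shift, up to changing the defect. -/
theorem BRel_sAct {χ : H.Lk → F3} {κ' : H.Pt → H.Inc → F3} (hb : Bal2 χ κ')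
    (κ : H.Pt → H.Inc → F3) (r : Sym) (u v : Base H) :
    BRel (κ - κ') r (sAct χ κ' u) (sAct χ κ' v) ↔ BRel κ r u v := by
  cases r with
  | Ed =>
    cases u with
    | tau _ _ => cases v <;> exact Iff.rfl
    | cfg _ _ _ => cases v <;> exact Iff.rfl
    | bag e x y z =>
      cases v with
      | tau _ _ => exact Iff.rfl
      | cfg _ _ _ => exact Iff.rfl
      | bag e' x' y' z' =>
        simp only [BRel, sAct]
        constructor
        · rintro ⟨rfl, rfl, rfl, h3⟩
          exact ⟨rfl, rfl, rfl, add_right_cancel h3⟩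
        · rintro ⟨rfl, rfl, rfl, rfl⟩
          exact ⟨rfl, rfl, rfl, rfl⟩
  | Cf =>
    show (sAct χ κ' u = sAct χ κ' v ∧ ValidC (sAct χ κ' u)) ∨ Ord (sAct χ κ' u) (sAct χ κ' v) ↔
      (u = v ∧ ValidC u) ∨ Ord u v
    rw [ValidC_sAct hb, Ord_sAct]
    have : sAct χ κ' u = sAct χ κ' v ↔ u = v := (sPerm χ κ').injective.eq_iff
    rw [this]
  | EB => simp [BRel]
  | VB =>
    cases u with
    | tau _ _ => cases v <;> exact Iff.rfl
    | bag _ _ _ _ => cases v <;> exact Iff.rfl
    | cfg p τ z =>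
      cases v with
      | tau _ _ => exact Iff.rfl
      | bag _ _ _ _ => exact Iff.rfl
      | cfg p' τ' z' =>
        simp only [BRel, sAct]
        rw [sAct_sum hb, sAct_sum hb]
  | I =>
    cases u with
    | tau _ _ => cases v <;> exact Iff.rfl
    | bag _ _ _ _ => cases v <;> exact Iff.rfl
    | cfg p τ z =>
      cases v with
      | cfg _ _ _ => exact Iff.rfl
      | tau r v =>
        simp only [BRel, sAct]
        rw [sAct_sum hb]
      | bag e x y w =>
        simp only [BRel, sAct]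
        rw [sAct_sum hb]
        refine and_congr_right fun _ => ?_
        constructor
        · rintro ⟨i, rfl, h1, h2, h3⟩
          refine ⟨i, rfl, h1, h2, ?_⟩
          have h4 : w + χ (H.lkAt p i) = (z i + κ p i) + χ (H.lkAt p i) := by
            rw [h3]; simp only [Pi.sub_apply]; ring
          exact add_right_cancel h4
        · rintro ⟨i, rfl, rfl, rfl, rfl⟩
          refine ⟨i, rfl, rfl, rfl, ?_⟩
          simp only [Pi.sub_apply]; ring
  | Z δ =>
    cases u with
    | tau _ _ => cases v <;> exact Iff.rfl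
    | cfg _ _ _ => cases v <;> exact Iff.rfl
    | bag e x y z =>
      cases v with
      | tau _ _ => exact Iff.rfl
      | cfg _ _ _ => exact Iff.rfl
      | bag e' x' y' z' =>
        simp only [BRel, sAct]
        refine and_congr_right ?_
        rintro rfl
        have : z' + χ e - (z + χ e) + 2 * H.cc e * (x' * y - x * y') =
            z' - z + 2 * H.cc e * (x' * y - x * y') := by ring
        rw [this]

/-- Two defects agreeing at the relevant incidences give the same `I`. -/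
theorem BRel_I_congr {κ κ' : H.Pt → H.Inc → F3} {p : H.Pt} {τ : H.Lc → F3} {z : H.Inc → F3}
    {u : Base H} (h : ∀ i e x y w, u = bag e x y w → H.lkAt p i = e → κ p i = κ' p i) :
    BRel κ .I (cfg p τ z) u ↔ BRel κ' .I (cfg p τ z) u := by
  cases u with
  | tau r v => exact Iff.rfl
  | cfg _ _ _ => exact Iff.rfl
  | bag e x y w =>
    simp only [BRel]
    refine and_congr_right fun _ => ?_
    constructor
    · rintro ⟨i, rfl, h1, h2, h3⟩
      exact ⟨i, rfl, h1, h2, by rw [h3, h i _ x y w rfl rfl]⟩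
    · rintro ⟨i, rfl, h1, h2, h3⟩
      exact ⟨i, rfl, h1, h2, by rw [h3, h i _ x y w rfl rfl]⟩

end Base

open Base

/-- A move: `G(s·1_r) · Sft(Ω(t, s·1_r) + k ζ_e)`. -/
def moveOf (r : H.Rm) (s : F3) (t : H.Rm → F3) (e : H.Lk) (k : F3) : Equiv.Perm (Base H) :=
  gPerm (Pi.single r s) * sPerm (H.Om t (Pi.single r s) + k • H.zeta e) 0

/-- The set of moves. -/
def moveSet (H : HSys) : Set (Equiv.Perm (Base H)) :=
  Set.range fun x : H.Rm × F3 × (H.Rm → F3) × H.Lk × F3 => moveOf x.1 x.2.1 x.2.2.1 x.2.2.2.1 x.2.2.2.2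

theorem moveOf_mem (r : H.Rm) (s : F3) (t : H.Rm → F3) (e : H.Lk) (k : F3) :
    moveOf r s t e k ∈ moveSet H := ⟨(r, s, t, e, k), rfl⟩

theorem sPerm_add_zero (χ χ' : H.Lk → F3) : sPerm χ' 0 * sPerm χ 0 = sPerm (χ + χ') (0 : H.Pt → H.Inc → F3) := by
  rw [sPerm_mul, add_zero]

theorem gConj_moveOf (t' : H.Rm → F3) (r : H.Rm) (s : F3) (t : H.Rm → F3) (e : H.Lk) (k : F3) :
    gPerm t' * moveOf r s t e k * (gPerm t')⁻¹ = moveOf r s (t' + t) e k := by
  unfold moveOf
  have h1 := gPerm_sPerm t' (H.Om t (Pi.single r s) + k • H.zeta e) 0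
  have h2 := gPerm_conj t' (Pi.single r s)
  calc gPerm t' * (gPerm (Pi.single r s) * sPerm (H.Om t (Pi.single r s) + k • H.zeta e) 0) * (gPerm t')⁻¹
      = gPerm t' * gPerm (Pi.single r s) * (sPerm (H.Om t (Pi.single r s) + k • H.zeta e) 0 * (gPerm t')⁻¹) := by
        group
    _ = gPerm t' * gPerm (Pi.single r s) * ((gPerm t')⁻¹ * sPerm (H.Om t (Pi.single r s) + k • H.zeta e) 0) := by
        congr 1
        rw [eq_inv_mul_iff_mul_eq, ← mul_assoc, h1]
        group
    _ = (gPerm t' * gPerm (Pi.single r s) * (gPerm t')⁻¹) * sPerm (H.Om t (Pi.single r s) + k • H.zeta e) 0 := by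
        group
    _ = gPerm (Pi.single r s) * sPerm (H.Om t' (Pi.single r s)) 0 * sPerm (H.Om t (Pi.single r s) + k • H.zeta e) 0 := by
        rw [h2]
    _ = gPerm (Pi.single r s) * sPerm (H.Om (t' + t) (Pi.single r s) + k • H.zeta e) 0 := by
        rw [mul_assoc, sPerm_mul, add_zero, H.Om_add_left]
        congr 2
        abel

theorem sConj_eq (χ : H.Lk → F3) (κ : H.Pt → H.Inc → F3) (r : H.Rm) (s : F3) (t : H.Rm → F3)
    (e : H.Lk) (k : F3) :
    sPerm χ κ * moveOf r s t e k * (sPerm χ κ)⁻¹ = moveOf r s t e k := by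
  unfold moveOf
  rw [mul_inv_eq_iff_eq_mul, mul_assoc, ← sPerm_comm, ← mul_assoc, ← gPerm_sPerm, mul_assoc]

theorem gPerm_mem_nGroup (t : H.Rm → F3) : gPerm t ∈ nGroup (moveSet H) := by
  have key : ∀ t' : H.Rm → F3, ∀ μ, μ ∈ moveSet H → gPerm t' * μ * (gPerm t')⁻¹ ∈ moveSet H := by
    rintro t' _ ⟨⟨r, s, t0, e, k⟩, rfl⟩
    simp only
    rw [gConj_moveOf]
    exact moveOf_mem _ _ _ _ _
  intro μ
  refine ⟨fun h => ?_, key t μ⟩
  have := key (-t) _ h
  rw [← gPerm_inv] at this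
  have e : (gPerm t)⁻¹ * (gPerm t * μ * (gPerm t)⁻¹) * (gPerm t)⁻¹⁻¹ = μ := by group
  rwa [e] at this

theorem sPerm_mem_nGroup (χ : H.Lk → F3) (κ : H.Pt → H.Inc → F3) : sPerm χ κ ∈ nGroup (moveSet H) := by
  have key : ∀ μ, μ ∈ moveSet H → sPerm χ κ * μ * (sPerm χ κ)⁻¹ = μ := by
    rintro _ ⟨⟨r, s, t0, e, k⟩, rfl⟩
    exact sConj_eq χ κ _ _ _ _ _
  intro μ
  refine ⟨fun h => ?_, fun h => by rwa [key μ h]⟩
  have hq : sPerm χ κ * μ * (sPerm χ κ)⁻¹ ∈ moveSet H := h
  obtain ⟨⟨r, s, t0, e, k⟩, hx⟩ := hq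
  simp only at hx
  have e2 : μ = (sPerm χ κ)⁻¹ * moveOf r s t0 e k * (sPerm χ κ)⁻¹⁻¹ := by
    rw [hx]; group
  rw [sPerm_inv, sConj_eq] at e2
  rw [e2]
  exact moveOf_mem _ _ _ _ _

theorem moveOf_mem_nGroup (r : H.Rm) (s : F3) (t : H.Rm → F3) (e : H.Lk) (k : F3) :
    moveOf r s t e k ∈ nGroup (moveSet H) :=
  (nGroup (moveSet H)).mul_mem (gPerm_mem_nGroup _) (sPerm_mem_nGroup _ _)

theorem moveSet_le_nGroup {μ : Equiv.Perm (Base H)} (h : μ ∈ moveSet H) : μ ∈ nGroup (moveSet H) := by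
  obtain ⟨⟨r, s, t0, e, k⟩, rfl⟩ := h
  exact moveOf_mem_nGroup _ _ _ _ _

/-- `G(t)` in the normaliser. -/
def gN (t : H.Rm → F3) : nGroup (moveSet H) := ⟨gPerm t, gPerm_mem_nGroup t⟩

/-- A shift in the normaliser. -/
def sN (χ : H.Lk → F3) (κ : H.Pt → H.Inc → F3) : nGroup (moveSet H) := ⟨sPerm χ κ, sPerm_mem_nGroup χ κ⟩

/-- The atoms of the final structure. -/
abbrev AtomT (H : HSys) := ExtT (moveSet H)

/-- The final structure with defect `κ`. -/
def RS (κ : H.Pt → H.Inc → F3) (r : Sym) (a b : AtomT H) : Bool :=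
  decide (extRel (BRel κ) r a b)

/-- The action of `G(t)` on the final structure. -/
def gE (t : H.Rm → F3) : Equiv.Perm (AtomT H) := extP (gN t)

/-- The action of a shift on the final structure. -/
def sE (χ : H.Lk → F3) (κ : H.Pt → H.Inc → F3) : Equiv.Perm (AtomT H) := extP (sN χ κ)

theorem gE_aut (κ : H.Pt → H.Inc → F3) (t : H.Rm → F3) (r : Sym) (a b : AtomT H) :
    RS κ r (gE t a) (gE t b) = RS κ r a b := by
  unfold RS gE
  rw [decide_eq_decide]
  exact extRel_extP (gN t) (fun r u v => BRel_gAct κ t r u v) r a b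

theorem sE_iso {χ : H.Lk → F3} {κ' : H.Pt → H.Inc → F3} (hb : Bal2 χ κ') (κ : H.Pt → H.Inc → F3)
    (r : Sym) (a b : AtomT H) : RS (κ - κ') r (sE χ κ' a) (sE χ κ' b) = RS κ r a b := by
  unfold RS sE
  rw [decide_eq_decide]
  exact extRel_extP (sN χ κ') (fun r u v => BRel_sAct hb κ r u v) r a b

theorem sE_mul (χ χ' : H.Lk → F3) (κ κ' : H.Pt → H.Inc → F3) :
    sE χ' κ' * sE χ κ = sE (χ + χ') (κ + κ') := by
  unfold sE
  rw [← extP_mul]
  congr 1
  exact Subtype.ext (sPerm_mul χ χ' κ κ')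

theorem sE_zero : sE (0 : H.Lk → F3) (0 : H.Pt → H.Inc → F3) = 1 := by
  unfold sE
  rw [← extP_one]
  congr 1
  exact Subtype.ext sPerm_zero

theorem sE_inv (χ : H.Lk → F3) (κ : H.Pt → H.Inc → F3) : (sE χ κ)⁻¹ = sE (-χ) (-κ) := by
  rw [inv_eq_iff_mul_eq_one, sE_mul]
  simp [sE_zero]

theorem sE_comm (χ χ' : H.Lk → F3) (κ κ' : H.Pt → H.Inc → F3) :
    sE χ' κ' * sE χ κ = sE χ κ * sE χ' κ' := by
  rw [sE_mul, sE_mul, add_comm χ, add_comm κ]

theorem gE_sE_comm (t : H.Rm → F3) (χ : H.Lk → F3) (κ : H.Pt → H.Inc → F3) :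
    gE t * sE χ κ = sE χ κ * gE t := by
  unfold gE sE
  rw [← extP_mul, ← extP_mul]
  congr 1
  exact Subtype.ext (gPerm_sPerm t χ κ)

/-- Commutator of two `G`s on the final structure. -/
theorem gE_comm (t u : H.Rm → F3) :
    gE t * gE u * (gE t)⁻¹ * (gE u)⁻¹ = sE (H.Om t u) 0 := by
  unfold gE sE
  rw [← extP_inv, ← extP_inv, ← extP_mul, ← extP_mul, ← extP_mul]
  congr 1
  exact Subtype.ext (gPerm_comm t u)

end Crest.Agent.CPTL
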