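/-
  The linear system on the final structure: consistent without defect, inconsistent with a nonzero
  total defect.
-/
import Crest.Agent.Lib.CPTL.Struct

set_option autoImplicit false
set_option linter.unusedSectionVars false

noncomputable section
open Classical

namespace Crest.Agent.CPTL

open Crest.LogicCS.LinF3
open Base

variable {H : HSys}

/-- Base atoms inside the final structure. -/
def iota (u : Base H) : AtomT H := Sum.inl (Sum.inl u)

theorem iota_injective : Function.Injective (iota : Base H → AtomT H) := by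
  intro u v h
  simpa [iota] using h

theorem RS_iota (κ : H.Pt → H.Inc → F3) (r : Sym) (u v : Base H) :
    RS κ r (iota u) (iota v) = true ↔ BRel κ r u v := by
  simp [RS, iota, extRel]

theorem RS_true {κ : H.Pt → H.Inc → F3} {r : Sym} {a b : AtomT H} :
    RS κ r a b = true ↔ extRel (BRel κ) r a b := by
  simp [RS]

theorem not_Ord_self (u : Base H) : ¬ Ord u u := by
  rintro ⟨s, s', h1, h2, h3⟩
  rw [h1] at h2
  cases h2
  exact lt_irrefl _ h3

theorem Cf_diag {κ : H.Pt → H.Inc → F3} {a : AtomT H} :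
    RS κ .Cf a a = true ↔ ∃ p τ z, a = iota (cfg p τ z) ∧ ∑ i, z i = 0 := by
  rw [RS_true]
  rcases a with (u | μ) | ⟨x, y⟩
  · constructor
    · intro h
      have h' : (u = u ∧ ValidC u) ∨ Ord u u := h
      rcases h' with ⟨_, hv⟩ | ho
      · cases u with
        | tau _ _ => exact hv.elim
        | bag _ _ _ _ => exact hv.elim
        | cfg p τ z => exact ⟨p, τ, z, rfl, hv⟩
      · exact (not_Ord_self u ho).elim
    · rintro ⟨p, τ, z, h, hz⟩
      have := iota_injective h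
      subst this
      exact Or.inl ⟨rfl, hz⟩
  · simp [extRel, iota]
  · simp [extRel, iota]

theorem Ed_diag {κ : H.Pt → H.Inc → F3} {a : AtomT H} :
    RS κ .Ed a a = true ↔ ∃ e x y z, a = iota (bag e x y z) := by
  rw [RS_true]
  rcases a with (u | μ) | ⟨x, y⟩
  · constructor
    · intro h
      have h' : BRel κ .Ed u u := h
      cases u with
      | tau _ _ => exact h'.elim
      | cfg _ _ _ => exact h'.elim
      | bag e x y z => exact ⟨e, x, y, z, rfl⟩
    · rintro ⟨e, x, y, z, h⟩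
      have := iota_injective h
      subst this
      exact ⟨rfl, rfl, rfl, rfl⟩
  · simp [extRel, iota]
  · simp [extRel, iota]

/-- the value of a configuration on a link -/
def valB (κ : H.Pt → H.Inc → F3) (p : H.Pt) (τ : H.Lc → F3) (z : H.Inc → F3) (i : H.Inc) : Base H :=
  bag (H.lkAt p i) (H.aL p i τ) (H.bL p i τ) (z i + κ p i)

/-- The coefficient at a link of the configuration's point. -/
theorem coeff_eq (κ : H.Pt → H.Inc → F3) (p : H.Pt) (τ : H.Lc → F3) (z : H.Inc → F3)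
    (hz : ∑ i, z i = 0) (i : H.Inc) (x0 y0 w0 : F3) :
    coeff (RS κ) (iota (bag (H.lkAt p i) x0 y0 w0)) (iota (cfg p τ z)) =
      (z i + κ p i) - w0 + 2 * H.cc (H.lkAt p i) * (H.aL p i τ * y0 - x0 * H.bL p i τ) := by
  unfold coeff
  have hmem : iota (valB κ p τ z i) ∈ Finset.univ.filter
      (fun x => RS κ .Ed x x = true ∧ RS κ .I (iota (cfg p τ z)) x = true) := by
    refine Finset.mem_filter.2 ⟨Finset.mem_univ _, Ed_diag.2 ⟨_, _, _, _, rfl⟩, ?_⟩
    rw [RS_iota]
    exact ⟨hz, i, rfl, rfl, rfl, rfl⟩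
  rw [Finset.sum_eq_single_of_mem _ hmem]
  · -- the inner sum
    have : ∀ δ : ZMod 3, (RS κ (.Z δ) (iota (bag (H.lkAt p i) x0 y0 w0)) (iota (valB κ p τ z i)) = true) ↔
        δ = (z i + κ p i) - w0 + 2 * H.cc (H.lkAt p i) * (H.aL p i τ * y0 - x0 * H.bL p i τ) := by
      intro δ
      rw [RS_iota]
      simp only [valB, BRel, true_and]
    simp only [this]
    rw [Finset.sum_ite_eq' Finset.univ]
    simp
  · intro x hx hne
    obtain ⟨_, hx1, hx2⟩ := Finset.mem_filter.1 hx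
    obtain ⟨e, x', y', w', rfl⟩ := Ed_diag.1 hx1
    rw [RS_iota] at hx2
    obtain ⟨_, i', rfl, rfl, rfl, rfl⟩ := hx2
    refine Finset.sum_eq_zero fun δ _ => ?_
    rw [if_neg]
    rw [RS_iota]
    rintro ⟨he, _⟩
    have hi : i = i' := H.lkAt_inj p he
    subst hi
    exact hne rfl

/-- The zero configuration. -/
def zeroC (p : H.Pt) : AtomT H := iota (cfg p 0 0)

theorem mem_fiber_zero (κ : H.Pt → H.Inc → F3) {p : H.Pt} {τ : H.Lc → F3} {z : H.Inc → F3}
    (hz : ∑ i, z i = 0) : zeroC p ∈ fiber (RS κ) (iota (cfg p τ z)) := by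
  unfold fiber zeroC
  refine Finset.mem_filter.2 ⟨Finset.mem_univ _, Cf_diag.2 ⟨p, 0, 0, rfl, by simp⟩, ?_⟩
  rw [RS_iota]
  exact ⟨rfl, hz, by simp⟩

theorem mem_fiber_iff {κ : H.Pt → H.Inc → F3} {p : H.Pt} {τ : H.Lc → F3} {z : H.Inc → F3}
    (hz : ∑ i, z i = 0) {a : AtomT H} :
    a ∈ fiber (RS κ) (iota (cfg p τ z)) ↔ ∃ τ' z', a = iota (cfg p τ' z') ∧ ∑ i, z' i = 0 := by
  unfold fiber
  rw [Finset.mem_filter]
  constructor
  · rintro ⟨_, h1, h2⟩
    obtain ⟨p', τ', z', rfl, hz'⟩ := Cf_diag.1 h1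
    rw [RS_iota] at h2
    obtain ⟨rfl, _, _⟩ := h2
    exact ⟨τ', z', rfl, hz'⟩
  · rintro ⟨τ', z', rfl, hz'⟩
    refine ⟨Finset.mem_univ _, Cf_diag.2 ⟨p, τ', z', rfl, hz'⟩, ?_⟩
    rw [RS_iota]
    exact ⟨rfl, hz, hz'⟩

/-- Without defect the system is consistent. -/
theorem consistent_zero : Consistent (RS (0 : H.Pt → H.Inc → F3)) := by
  let lam : AtomT H → ZMod 3 := fun a => if ∃ p, a = zeroC p then 1 else 0
  let mu : AtomT H → ZMod 3 := fun y => match y with
    | Sum.inl (Sum.inl (bag _ _ _ w)) => - w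
    | _ => 0
  have hsum : ∀ p τ z, ∑ i, z i = 0 → ∀ f : AtomT H → ZMod 3,
      ∑ a ∈ fiber (RS (0 : H.Pt → H.Inc → F3)) (iota (cfg p τ z)), lam a * f a = f (zeroC p) := by
    intro p τ z hz f
    rw [Finset.sum_eq_single_of_mem _ (mem_fiber_zero 0 hz)]
    · have : lam (zeroC p) = 1 := if_pos ⟨p, rfl⟩
      rw [this, one_mul]
    · intro a ha hne
      obtain ⟨τ', z', rfl, _⟩ := (mem_fiber_iff hz).1 ha
      have : lam (iota (cfg p τ' z')) = 0 := by
        apply if_neg
        rintro ⟨q, hq⟩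
        have h2 := iota_injective hq
        cases h2
        exact hne rfl
      rw [this, zero_mul]
  refine ⟨lam, mu, ?_, ?_⟩
  · intro t ht
    obtain ⟨p, τ, z, rfl, hz⟩ := Cf_diag.1 ht
    have := hsum p τ z hz (fun _ => 1)
    simpa using this
  · intro t y ht hy hrow
    obtain ⟨p, τ, z, rfl, hz⟩ := Cf_diag.1 ht
    obtain ⟨e, x0, y0, w0, rfl⟩ := Ed_diag.1 hy
    rw [hsum p τ z hz]
    -- the link of `y` is at `p`
    obtain ⟨a, ha, x, hx1, hx2, hx3⟩ := hrow
    obtain ⟨τ', z', rfl, hz'⟩ := (mem_fiber_iff hz).1 ha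
    obtain ⟨e', x', y', w', rfl⟩ := Ed_diag.1 hx1
    rw [RS_iota] at hx2 hx3
    obtain ⟨_, i, rfl, _, _, _⟩ := hx2
    obtain ⟨s, h1, h2⟩ := hx3
    have he : e = H.lkAt p i := by
      simp only [slotOf, Option.some.injEq] at h1 h2
      rw [← h2] at h1
      exact Sum.inr.inj h1
    subst he
    unfold zeroC
    rw [coeff_eq 0 p 0 0 (by simp) i]
    simp only [H.aL_zero, H.bL_zero]
    show - w0 = _
    simp

/-- A consistent system has zero total defect. -/
theorem total_defect_zero {κ : H.Pt → H.Inc → F3} (h : Consistent (RS κ)) :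
    ∑ p, H.sg p * ∑ i, κ p i = 0 := by
  obtain ⟨lam, mu, h1, h2⟩ := h
  have key : ∀ p, ∑ i, mu (iota (bag (H.lkAt p i) 0 0 0)) = ∑ i, κ p i := by
    intro p
    have hz0 : ∑ i, (0 : H.Inc → F3) i = 0 := by simp
    have hval : RS κ .Cf (iota (cfg p 0 0)) (iota (cfg p 0 0)) = true :=
      Cf_diag.2 ⟨p, 0, 0, rfl, hz0⟩
    have h3 : ∀ i, mu (iota (bag (H.lkAt p i) 0 0 0)) =
        ∑ a ∈ fiber (RS κ) (iota (cfg p 0 0)), lam a * coeff (RS κ) (iota (bag (H.lkAt p i) 0 0 0)) a := by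
      intro i
      refine h2 _ _ hval (Ed_diag.2 ⟨_, _, _, _, rfl⟩) ?_
      refine ⟨zeroC p, mem_fiber_zero κ hz0, iota (valB κ p 0 0 i), Ed_diag.2 ⟨_, _, _, _, rfl⟩, ?_, ?_⟩
      · unfold zeroC
        rw [RS_iota]
        exact ⟨hz0, i, rfl, rfl, rfl, rfl⟩
      · rw [RS_iota]
        exact ⟨Sum.inr (H.lkAt p i), rfl, rfl⟩
    simp only [h3]
    rw [Finset.sum_comm]
    have h4 : ∀ a ∈ fiber (RS κ) (iota (cfg p 0 0)),
        ∑ i, lam a * coeff (RS κ) (iota (bag (H.lkAt p i) 0 0 0)) a = lam a * ∑ i, κ p i := by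
      intro a ha
      obtain ⟨τ', z', rfl, hz'⟩ := (mem_fiber_iff hz0).1 ha
      rw [← Finset.mul_sum]
      congr 1
      have h5 : ∀ i, coeff (RS κ) (iota (bag (H.lkAt p i) 0 0 0)) (iota (cfg p τ' z')) = z' i + κ p i := by
        intro i
        rw [coeff_eq κ p τ' z' hz' i]
        ring
      simp only [h5]
      rw [Finset.sum_add_distrib, hz', zero_add]
    rw [Finset.sum_congr rfl h4, ← Finset.sum_mul, h1 _ hval, one_mul]
  have := H.bip (fun e => mu (iota (bag e 0 0 0)))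
  simp only [key] at this
  exact this

end Crest.Agent.CPTL
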