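/-
  Core API for the hereditarily finite objects of `Crest.Prelude.Def_HF`:
  extensionality, members of atoms/ofFinset, well-foundedness, rename, transitive closure.
-/
import Crest.Prelude.Def_HF

set_option autoImplicit false

noncomputable section
open Classical

namespace Crest.Agent.CPTL

open Crest.LogicCS.HFSet

variable {A : Type}

/-! ### Trees -/

/-- children classes of a tree -/
def chld (l : Lists A) : Finset (HF A) := (l.toList.map mk).toFinset

theorem mem_chld {l : Lists A} {u : HF A} : u ∈ chld l ↔ ∃ a ∈ l.toList, mk a = u := by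
  simp [chld]

theorem mk_eq_iff {l₁ l₂ : Lists A} : mk l₁ = mk l₂ ↔ Lists.Equiv l₁ l₂ := by
  constructor
  · intro h; exact Quotient.exact h
  · intro h; exact Quotient.sound h

theorem mk_out (x : HF A) : mk (Quotient.out x) = x := Quotient.out_eq x

theorem out_mk_equiv (l : Lists A) : Lists.Equiv (Quotient.out (mk l)) l :=
  mk_eq_iff.1 (mk_out (mk l))

theorem chld_of_equiv {l₁ l₂ : Lists A} (h : Lists.Equiv l₁ l₂) : chld l₁ = chld l₂ := by
  have key : ∀ {l₁ l₂ : Lists' A true}, Lists'.Subset l₁ l₂ →
      chld (Lists.of' l₁) ⊆ chld (Lists.of' l₂) := by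
    intro l₁ l₂ hs u hu
    obtain ⟨a, ha, rfl⟩ := mem_chld.1 hu
    obtain ⟨a', ha', e⟩ := Lists'.mem_of_subset' hs ha
    exact mem_chld.2 ⟨a', ha', (mk_eq_iff.2 e).symm⟩
  cases h with
  | refl => rfl
  | antisymm h₁ h₂ => exact Finset.Subset.antisymm (key h₁) (key h₂)

theorem members_mk (l : Lists A) : members (mk l) = chld l :=
  chld_of_equiv (out_mk_equiv l)

@[simp] theorem members_atom (a : A) : members (atom a) = ∅ := by
  have h : members (mk (Lists.atom a)) = chld (Lists.atom a) := members_mk _
  have h2 : chld (Lists.atom a) = ∅ := rfl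
  rw [h2] at h
  exact h

@[simp] theorem members_ofFinset (s : Finset (HF A)) : members (ofFinset s) = s := by
  unfold ofFinset
  rw [members_mk]
  ext u
  rw [mem_chld]
  simp only [Lists.ofList, Lists.of', Lists.toList, Lists'.to_ofList, List.mem_map]
  constructor
  · rintro ⟨a, ⟨v, hv, rfl⟩, rfl⟩
    rw [mk_out]
    exact Finset.mem_toList.1 hv
  · intro hu
    exact ⟨_, ⟨u, Finset.mem_toList.2 hu, rfl⟩, mk_out u⟩

theorem atom_injective : Function.Injective (atom : A → HF A) := by
  intro a b h
  have := Lists.equiv_atom.1 (mk_eq_iff.1 h)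
  have h2 : (⟨false, Lists'.atom a⟩ : Lists A) = ⟨false, Lists'.atom b⟩ := this
  simp only [Sigma.mk.injEq, heq_eq_eq, true_and] at h2
  injection h2

@[simp] theorem atom_inj {a b : A} : (atom a : HF A) = atom b ↔ a = b := atom_injective.eq_iff

theorem mk_proper_ne_atom (l : Lists' A true) (a : A) : mk (Lists.of' l) ≠ atom a := by
  intro h
  have := Lists.equiv_atom.1 (mk_eq_iff.1 h.symm)
  have h2 : (false : Bool) = true := congrArg Sigma.fst this
  exact Bool.false_ne_true h2

@[simp] theorem ofFinset_ne_atom (s : Finset (HF A)) (a : A) : ofFinset s ≠ atom a :=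
  mk_proper_ne_atom _ a

@[simp] theorem atom_ne_ofFinset (s : Finset (HF A)) (a : A) : atom a ≠ ofFinset s :=
  (ofFinset_ne_atom s a).symm

theorem mk_proper_of_chld (l : Lists' A true) :
    mk (Lists.of' l) = ofFinset (chld (Lists.of' l)) := by
  refine mk_eq_iff.2 (Lists.Equiv.antisymm ?_ ?_)
  · refine Lists'.subset_def.2 fun a ha => ?_
    have hmem : mk a ∈ members (ofFinset (chld (Lists.of' l))) := by
      rw [members_ofFinset]; exact mem_chld.2 ⟨a, ha, rfl⟩
    unfold ofFinset at hmem
    rw [members_mk] at hmem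
    obtain ⟨a', ha', e⟩ := mem_chld.1 hmem
    exact ⟨a', ha', (mk_eq_iff.1 e).symm⟩
  · refine Lists'.subset_def.2 fun a ha => ?_
    have h1 : mk a ∈ members (ofFinset (chld (Lists.of' l))) := by
      unfold ofFinset
      rw [members_mk]
      exact mem_chld.2 ⟨a, ha, rfl⟩
    rw [members_ofFinset] at h1
    obtain ⟨a', ha', e⟩ := mem_chld.1 h1
    exact ⟨a', ha', (mk_eq_iff.1 e).symm⟩

/-- every object is an atom or the set of its members -/
theorem atom_or_ofFinset (x : HF A) : (∃ a, x = atom a) ∨ x = ofFinset (members x) := by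
  rcases h : Quotient.out x with ⟨b, l⟩
  cases l with
  | atom a =>
    left; refine ⟨a, ?_⟩
    have := mk_out x
    rw [h] at this
    exact this.symm
  | nil =>
    right
    have hx := mk_out x
    rw [h] at hx
    have := mk_proper_of_chld (A := A) Lists'.nil
    rw [← members_mk] at this
    change mk ⟨true, Lists'.nil⟩ = ofFinset (members (mk ⟨true, Lists'.nil⟩)) at this
    rw [hx] at this
    exact this
  | cons' t l =>
    right
    have hx := mk_out x
    rw [h] at hx
    have := mk_proper_of_chld (A := A) (Lists'.cons' t l)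
    rw [← members_mk] at this
    change mk ⟨true, Lists'.cons' t l⟩ = ofFinset (members (mk ⟨true, Lists'.cons' t l⟩)) at this
    rw [hx] at this
    exact this

theorem isAtom_iff (x : HF A) : IsAtom x ↔ ∃ a, x = atom a := Iff.rfl

@[simp] theorem isAtom_atom (a : A) : IsAtom (atom a) := ⟨a, rfl⟩

@[simp] theorem not_isAtom_ofFinset (s : Finset (HF A)) : ¬ IsAtom (ofFinset s) := by
  rintro ⟨a, h⟩; exact ofFinset_ne_atom s a h

theorem eq_ofFinset_of_not_isAtom {x : HF A} (h : ¬ IsAtom x) : x = ofFinset (members x) :=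
  (atom_or_ofFinset x).resolve_left h

/-- induction-friendly case analysis -/
theorem hf_cases {P : HF A → Prop} (h₁ : ∀ a, P (atom a)) (h₂ : ∀ s, P (ofFinset s)) (x : HF A) :
    P x := by
  rcases atom_or_ofFinset x with ⟨a, rfl⟩ | h
  · exact h₁ a
  · rw [h]; exact h₂ _

/-- extensionality for non-atoms -/
theorem hf_ext {x y : HF A} (hx : ¬ IsAtom x) (hy : ¬ IsAtom y) (h : members x = members y) :
    x = y := by
  rw [eq_ofFinset_of_not_isAtom hx, eq_ofFinset_of_not_isAtom hy, h]

theorem ofFinset_injective : Function.Injective (ofFinset : Finset (HF A) → HF A) := by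
  intro s t h
  have := congrArg members h
  simpa using this

@[simp] theorem ofFinset_inj {s t : Finset (HF A)} : ofFinset s = ofFinset t ↔ s = t :=
  ofFinset_injective.eq_iff

theorem members_empty : members (empty : HF A) = ∅ := by simp [empty]

@[simp] theorem not_isAtom_empty : ¬ IsAtom (empty : HF A) := by
  simp [empty]

/-! ### Well-foundedness -/

/-- the membership relation of objects -/
def memRel (u v : HF A) : Prop := u ∈ members v

theorem acc_mk (l : Lists A) : Acc (memRel (A := A)) (mk l) := by
  suffices h : PProd (∀ l : Lists A, Acc (memRel (A := A)) (mk l))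
      (∀ l : Lists' A true, ∀ a ∈ l.toList, Acc (memRel (A := A)) (mk a)) from h.1 l
  refine Lists.inductionMut _ _ ?_ ?_ ?_ ?_
  · intro a
    refine Acc.intro _ fun u hu => ?_
    have : u ∈ members (atom a) := hu
    simp at this
  · intro l IH
    refine Acc.intro _ fun u hu => ?_
    have hu' : u ∈ members (mk (Lists.of' l)) := hu
    rw [members_mk] at hu'
    obtain ⟨a, ha, rfl⟩ := mem_chld.1 hu'
    exact IH a ha
  · intro a ha; simp at ha
  · intro a l h1 h2 b hb
    simp only [Lists'.toList_cons, List.mem_cons] at hb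
    rcases hb with rfl | hb
    · exact h1
    · exact h2 b hb

theorem wf_memRel : WellFounded (memRel (A := A)) :=
  ⟨fun x => by
    have := acc_mk (Quotient.out x)
    rwa [mk_out] at this⟩

/-- Induction on the membership relation. -/
theorem hf_induction {P : HF A → Prop} (h : ∀ x, (∀ u ∈ members x, P u) → P x) (x : HF A) : P x :=
  wf_memRel.induction x fun y ih => h y fun u hu => ih u hu

/-- Induction: atoms and sets. -/
theorem hf_rec {P : HF A → Prop} (h₁ : ∀ a, P (atom a))
    (h₂ : ∀ s, (∀ u ∈ s, P u) → P (ofFinset s)) (x : HF A) : P x := by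
  refine hf_induction (fun x ih => ?_) x
  rcases atom_or_ofFinset x with ⟨a, rfl⟩ | hx
  · exact h₁ a
  · rw [hx]; exact h₂ _ ih

/-! ### Rename -/

/-- renaming at tree level -/
def rT (f : A → A) (l : Lists A) : Lists A := ⟨l.1, renameTree f l.2⟩

theorem rT_toList (f : A → A) (l : Lists A) : (rT f l).toList = l.toList.map (rT f) := by
  rcases l with ⟨b, l⟩
  induction l with
  | atom a => rfl
  | nil => rfl
  | cons' t l ih1 ih2 =>
    have h2 : (Lists'.toList (renameTree f l)) = (Lists'.toList l).map (rT f) := ih2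
    show Lists'.toList (Lists'.cons' (renameTree f t) (renameTree f l)) = _
    simp only [Lists'.toList, Lists.toList, List.map_cons]
    rw [h2]
    rfl

theorem rT_subset (f : A → A) {l₁ l₂ : Lists' A true} (IH : ∀ a ∈ l₁.toList, ∀ a', Lists.Equiv a a' →
      Lists.Equiv (rT f a) (rT f a'))
    (h : Lists'.Subset l₁ l₂) : Lists'.Subset (renameTree f l₁) (renameTree f l₂) := by
  refine Lists'.subset_def.2 fun a ha => ?_
  have hta : (Lists'.toList (renameTree f l₁)) = (Lists'.toList l₁).map (rT f) :=
    rT_toList f (Lists.of' l₁)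
  rw [hta] at ha
  obtain ⟨b, hb, rfl⟩ := List.mem_map.1 ha
  obtain ⟨b', hb', e⟩ := Lists'.mem_of_subset' h hb
  refine ⟨rT f b', ?_, IH b hb _ e⟩
  have htb : (Lists'.toList (renameTree f l₂)) = (Lists'.toList l₂).map (rT f) :=
    rT_toList f (Lists.of' l₂)
  rw [htb]
  exact List.mem_map.2 ⟨b', hb', rfl⟩

theorem rT_equiv (f : A → A) {l₁ l₂ : Lists A} (h : Lists.Equiv l₁ l₂) :
    Lists.Equiv (rT f l₁) (rT f l₂) := by
  suffices H : PProd (∀ l : Lists A, ∀ l', Lists.Equiv l l' → Lists.Equiv (rT f l) (rT f l'))
      (∀ l : Lists' A true, ∀ a ∈ l.toList, ∀ a', Lists.Equiv a a' →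
        Lists.Equiv (rT f a) (rT f a')) from H.1 l₁ l₂ h
  refine Lists.inductionMut _ _ ?_ ?_ ?_ ?_
  · intro a l' h
    have := Lists.equiv_atom.1 h
    subst this
    exact Lists.Equiv.refl _
  · intro l IH l' h
    cases h with
    | refl => exact Lists.Equiv.refl _
    | antisymm h₁ h₂ =>
      refine Lists.Equiv.antisymm (rT_subset f IH h₁) ?_
      refine Lists'.subset_def.2 fun a ha => ?_
      rename_i l₂
      have hta : (Lists'.toList (renameTree f l₂)) = (Lists'.toList l₂).map (rT f) :=
        rT_toList f (Lists.of' l₂)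
      rw [hta] at ha
      obtain ⟨b, hb, rfl⟩ := List.mem_map.1 ha
      obtain ⟨b', hb', e⟩ := Lists'.mem_of_subset' h₂ hb
      refine ⟨rT f b', ?_, (IH b' hb' _ e.symm).symm⟩
      have htb : (Lists'.toList (renameTree f l)) = (Lists'.toList l).map (rT f) :=
        rT_toList f (Lists.of' l)
      show rT f b' ∈ (Lists'.toList (renameTree f l))
      rw [htb]
      exact List.mem_map.2 ⟨b', hb', rfl⟩
  · intro a ha; simp at ha
  · intro a l h1 h2 b hb
    simp only [Lists'.toList_cons, List.mem_cons] at hb
    rcases hb with rfl | hb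
    · exact h1
    · exact h2 b hb

theorem rename_mk (f : A → A) (l : Lists A) : rename f (mk l) = mk (rT f l) :=
  mk_eq_iff.2 (rT_equiv f (out_mk_equiv l))

@[simp] theorem rename_atom (f : A → A) (a : A) : rename f (atom a) = atom (f a) :=
  rename_mk f (Lists.atom a)

theorem members_rename (f : A → A) (x : HF A) : members (rename f x) = (members x).image (rename f) := by
  conv_lhs => rw [← mk_out x]
  rw [rename_mk, members_mk]
  conv_rhs => rw [← mk_out x]
  rw [members_mk]
  ext u
  simp only [mem_chld, Finset.mem_image, rT_toList, List.mem_map]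
  constructor
  · rintro ⟨_, ⟨a, ha, rfl⟩, rfl⟩
    exact ⟨mk a, ⟨a, ha, rfl⟩, rename_mk f a⟩
  · rintro ⟨_, ⟨a, ha, rfl⟩, rfl⟩
    exact ⟨rT f a, ⟨a, ha, rfl⟩, (rename_mk f a).symm⟩

theorem rename_not_isAtom (f : A → A) {x : HF A} (h : ¬ IsAtom x) : ¬ IsAtom (rename f x) := by
  rintro ⟨a, ha⟩
  apply h
  rcases hl : Quotient.out x with ⟨b, l⟩
  cases l with
  | atom c =>
    refine ⟨c, ?_⟩
    have := mk_out x
    rw [hl] at this
    exact this.symm
  | nil =>
    exfalso
    have hx := mk_out x
    rw [hl] at hx
    rw [← hx, rename_mk] at ha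
    exact mk_proper_ne_atom _ a ha
  | cons' t l =>
    exfalso
    have hx := mk_out x
    rw [hl] at hx
    rw [← hx, rename_mk] at ha
    exact mk_proper_ne_atom _ a ha

@[simp] theorem rename_ofFinset (f : A → A) (s : Finset (HF A)) :
    rename f (ofFinset s) = ofFinset (s.image (rename f)) := by
  refine hf_ext (rename_not_isAtom f (not_isAtom_ofFinset s)) (not_isAtom_ofFinset _) ?_
  rw [members_rename, members_ofFinset, members_ofFinset]

theorem rename_id (x : HF A) : rename id x = x := by
  refine hf_rec (P := fun x => rename id x = x) (fun a => by simp) (fun s ih => ?_) x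
  rw [rename_ofFinset]
  congr 1
  ext u
  simp only [Finset.mem_image]
  constructor
  · rintro ⟨v, hv, rfl⟩; rwa [ih v hv]
  · intro hu; exact ⟨u, hu, ih u hu⟩

theorem rename_rename (f g : A → A) (x : HF A) : rename f (rename g x) = rename (f ∘ g) x := by
  refine hf_rec (P := fun x => rename f (rename g x) = rename (f ∘ g) x)
    (fun a => by simp) (fun s ih => ?_) x
  simp only [rename_ofFinset, Finset.image_image]
  congr 1
  refine Finset.image_congr fun u hu => ?_
  exact ih u hu

theorem rename_congr {f g : A → A} {x : HF A}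
    (h : ∀ a, atom a = x ∨ True → f a = g a) : rename f x = rename g x := by
  have : f = g := funext fun a => h a (Or.inr trivial)
  rw [this]

theorem rename_isAtom_iff {f : A → A} {x : HF A} : IsAtom (rename f x) ↔ IsAtom x := by
  constructor
  · intro h; by_contra hx; exact rename_not_isAtom f hx h
  · rintro ⟨a, rfl⟩; simp

/-- action of a permutation -/
theorem rename_perm_mul (g h : Equiv.Perm A) (x : HF A) :
    rename ⇑(g * h) x = rename ⇑g (rename ⇑h x) := by
  rw [rename_rename]; rfl

theorem rename_one (x : HF A) : rename ⇑(1 : Equiv.Perm A) x = x := rename_id x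

theorem rename_perm_inv_cancel (g : Equiv.Perm A) (x : HF A) :
    rename ⇑g (rename ⇑(g⁻¹) x) = x := by
  rw [← rename_perm_mul, mul_inv_cancel]; exact rename_one x

theorem rename_perm_inv_cancel' (g : Equiv.Perm A) (x : HF A) :
    rename ⇑(g⁻¹) (rename ⇑g x) = x := by
  rw [← rename_perm_mul, inv_mul_cancel]; exact rename_one x

theorem rename_perm_injective (g : Equiv.Perm A) : Function.Injective (rename ⇑g : HF A → HF A) :=
  Function.LeftInverse.injective (rename_perm_inv_cancel' g)

@[simp] theorem rename_perm_inj (g : Equiv.Perm A) {x y : HF A} :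
    rename ⇑g x = rename ⇑g y ↔ x = y := (rename_perm_injective g).eq_iff

theorem mem_members_rename (g : Equiv.Perm A) {x u : HF A} :
    rename ⇑g u ∈ members (rename ⇑g x) ↔ u ∈ members x := by
  rw [members_rename, Finset.mem_image]
  constructor
  · rintro ⟨v, hv, e⟩
    rwa [← rename_perm_injective g e]
  · intro h; exact ⟨u, h, rfl⟩

theorem rename_empty (f : A → A) : rename f (empty : HF A) = empty := by
  simp [empty]

/-! ### Transitive closure -/

/-- The set of objects strictly below `x`. -/
def tcF (x : HF A) : Finset (HF A) :=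
  wf_memRel.fix (C := fun _ => Finset (HF A))
    (fun x ih => members x ∪ (members x).attach.biUnion fun u => ih u.1 u.2) x

theorem tcF_eq (x : HF A) : tcF x = members x ∪ (members x).biUnion tcF := by
  unfold tcF
  rw [WellFounded.fix_eq]
  congr 1
  ext y
  simp only [Finset.mem_biUnion, Finset.mem_attach, true_and, Subtype.exists]
  constructor
  · rintro ⟨u, hu, h⟩; exact ⟨u, hu, h⟩
  · rintro ⟨u, hu, h⟩; exact ⟨u, hu, h⟩

theorem mem_tcF {x y : HF A} : y ∈ tcF x ↔ y ∈ members x ∨ ∃ u ∈ members x, y ∈ tcF u := by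
  rw [tcF_eq]; simp

theorem mem_tcF_of_mem {x y : HF A} (h : y ∈ members x) : y ∈ tcF x := mem_tcF.2 (Or.inl h)

theorem tcF_trans {x y z : HF A} (h₁ : y ∈ tcF x) (h₂ : z ∈ tcF y) : z ∈ tcF x := by
  induction x using hf_induction with
  | h x ih =>
    rcases mem_tcF.1 h₁ with h | ⟨u, hu, h⟩
    · exact mem_tcF.2 (Or.inr ⟨y, h, h₂⟩)
    · exact mem_tcF.2 (Or.inr ⟨u, hu, ih u hu h⟩)

theorem mem_tcF_iff_transGen {x y : HF A} :
    y ∈ tcF x ↔ Relation.TransGen (fun u v : HF A => u ∈ v) y x := by
  constructor
  · induction x using hf_induction with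
    | h x ih =>
      intro h
      rcases mem_tcF.1 h with h | ⟨u, hu, h⟩
      · exact Relation.TransGen.single h
      · exact Relation.TransGen.tail (ih u hu h) hu
  · intro h
    induction h with
    | single h => exact mem_tcF_of_mem h
    | tail _ h ih => exact mem_tcF.2 (Or.inr ⟨_, h, ih⟩)

theorem tcSize_eq (x : HF A) : tcSize x = (tcF x).card := by
  unfold tcSize
  have : {y : HF A // Relation.TransGen (fun u v : HF A => u ∈ v) y x} =
      {y : HF A // y ∈ tcF x} := by
    congr 1
    ext y
    rw [mem_tcF_iff_transGen]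
  rw [this]
  simp

theorem tcSize_atom (a : A) : tcSize (atom a) = 0 := by
  rw [tcSize_eq, tcF_eq]; simp

theorem tcSize_empty : tcSize (empty : HF A) = 0 := by
  rw [tcSize_eq, tcF_eq]; simp [empty]

theorem tcF_mono {x u : HF A} (h : u ∈ members x) : tcF u ⊆ tcF x := by
  intro y hy
  exact mem_tcF.2 (Or.inr ⟨u, h, hy⟩)

theorem tcSize_lt_of_mem {x u : HF A} (h : u ∈ members x) : tcSize u < tcSize x := by
  rw [tcSize_eq, tcSize_eq]
  refine Finset.card_lt_card ⟨tcF_mono h, fun hsub => ?_⟩
  have hu := hsub (mem_tcF_of_mem h)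
  -- `u ∈ tcF u` contradicts well-foundedness
  have irr : ∀ z : HF A, z ∉ tcF z := by
    intro z
    induction z using hf_induction with
    | h z ih =>
      intro hz
      rcases mem_tcF.1 hz with h | ⟨v, hv, h⟩
      · exact ih z h (mem_tcF_of_mem h) |>.elim
      · exact ih v hv (tcF_trans (mem_tcF_of_mem hv |> fun h' => h) (mem_tcF_of_mem hv))
  exact irr u hu

theorem card_members_le_tcSize (x : HF A) : (members x).card ≤ tcSize x := by
  rw [tcSize_eq]
  exact Finset.card_le_card fun u hu => mem_tcF_of_mem hu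

theorem tcF_rename (g : Equiv.Perm A) (x : HF A) :
    tcF (rename ⇑g x) = (tcF x).image (rename ⇑g) := by
  induction x using hf_induction with
  | h x ih =>
    rw [tcF_eq, tcF_eq x, members_rename, Finset.image_union, Finset.image_biUnion,
      Finset.biUnion_image]
    congr 1
    exact Finset.biUnion_congr rfl (fun u hu => ih u hu)

theorem tcSize_rename (g : Equiv.Perm A) (x : HF A) : tcSize (rename ⇑g x) = tcSize x := by
  rw [tcSize_eq, tcSize_eq, tcF_rename, Finset.card_image_of_injective _ (rename_perm_injective g)]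

theorem rename_ofFinset_image (g : Equiv.Perm A) (s : Finset (HF A)) :
    members (rename ⇑g (ofFinset s)) = s.image (rename ⇑g) := by
  simp

/-! ### Ordinals -/

theorem members_ordinal_succ (n : ℕ) :
    members (ordinal n.succ : HF A) = insert (ordinal n) (members (ordinal n)) := by
  simp [ordinal]

theorem not_isAtom_ordinal (n : ℕ) : ¬ IsAtom (ordinal n : HF A) := by
  cases n with
  | zero => simp [ordinal]
  | succ n => simp [ordinal]

theorem rename_ordinal (f : A → A) (n : ℕ) : rename f (ordinal n : HF A) = ordinal n := by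
  induction n with
  | zero => exact rename_empty f
  | succ n ih =>
    refine hf_ext (rename_not_isAtom f (not_isAtom_ordinal _)) (not_isAtom_ordinal _) ?_
    rw [members_rename, members_ordinal_succ, Finset.image_insert, ih]
    have h2 : (members (ordinal n : HF A)).image (rename f) = members (ordinal n) := by
      rw [← members_rename, ih]
    rw [h2]

theorem mem_members_ordinal {n : ℕ} {u : HF A} :
    u ∈ members (ordinal n : HF A) ↔ ∃ m < n, u = ordinal m := by
  induction n with
  | zero => simp [ordinal, empty]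
  | succ n ih =>
    rw [members_ordinal_succ, Finset.mem_insert, ih]
    constructor
    · rintro (rfl | ⟨m, hm, rfl⟩)
      · exact ⟨n, Nat.lt_succ_self n, rfl⟩
      · exact ⟨m, Nat.lt_succ_of_lt hm, rfl⟩
    · rintro ⟨m, hm, rfl⟩
      rcases Nat.lt_succ_iff_lt_or_eq.1 hm with h | rfl
      · exact Or.inr ⟨m, h, rfl⟩
      · exact Or.inl rfl

theorem ordinal_injective : Function.Injective (ordinal : ℕ → HF A) := by
  have key : ∀ n m : ℕ, n < m → (ordinal n : HF A) ≠ ordinal m := by
    intro n m h e
    have h1 : (ordinal n : HF A) ∈ members (ordinal m : HF A) :=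
      mem_members_ordinal.2 ⟨n, h, rfl⟩
    rw [← e] at h1
    exact (Nat.lt_irrefl _ (tcSize_lt_of_mem h1))
  intro n m e
  rcases lt_trichotomy n m with h | h | h
  · exact absurd e (key n m h)
  · exact h
  · exact absurd e.symm (key m n h)

theorem card_members_ordinal (n : ℕ) : (members (ordinal n : HF A)).card = n := by
  induction n with
  | zero => simp [ordinal, empty]
  | succ n ih =>
    rw [members_ordinal_succ, Finset.card_insert_of_notMem, ih]
    intro h
    exact Nat.lt_irrefl _ (tcSize_lt_of_mem h)

theorem tcF_ordinal (n : ℕ) : tcF (ordinal n : HF A) = members (ordinal n) := by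
  induction n using Nat.strong_induction_on with
  | _ n ih =>
    refine Finset.Subset.antisymm (fun u hu => ?_) (fun u hu => mem_tcF_of_mem hu)
    rcases mem_tcF.1 hu with h | ⟨v, hv, h⟩
    · exact h
    · obtain ⟨m, hm, rfl⟩ := mem_members_ordinal.1 hv
      rw [ih m hm] at h
      obtain ⟨k, hk, rfl⟩ := mem_members_ordinal.1 h
      exact mem_members_ordinal.2 ⟨k, hk.trans hm, rfl⟩

theorem tcSize_ordinal (n : ℕ) : tcSize (ordinal n : HF A) = n := by
  rw [tcSize_eq, tcF_ordinal, card_members_ordinal]

/-! ### Kuratowski pairs and permutation graphs -/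

theorem kpair_injective {x y x' y' : HF A} (h : kpair x y = kpair x' y') : x = x' ∧ y = y' := by
  have hm := congrArg members h
  simp only [kpair, members_ofFinset] at hm
  have h1 : ofFinset {x} ∈ ({ofFinset {x'}, ofFinset {x', y'}} : Finset (HF A)) := by
    rw [← hm]; simp
  have hxx' : x = x' := by
    simp only [Finset.mem_insert, Finset.mem_singleton, ofFinset_inj] at h1
    rcases h1 with h1 | h1
    · exact Finset.singleton_injective h1
    · have : x' ∈ ({x} : Finset (HF A)) := by rw [h1]; simp
      exact (Finset.mem_singleton.1 this).symm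
  subst hxx'
  refine ⟨rfl, ?_⟩
  have h2 : ofFinset {x, y} ∈ ({ofFinset {x}, ofFinset {x, y'}} : Finset (HF A)) := by
    rw [← hm]; simp
  have h3 : ofFinset {x, y'} ∈ ({ofFinset {x}, ofFinset {x, y}} : Finset (HF A)) := by
    rw [hm]; simp
  simp only [Finset.mem_insert, Finset.mem_singleton, ofFinset_inj] at h2 h3
  have hy : y = x ∨ y = y' := by
    rcases h2 with h2 | h2
    · left
      have : y ∈ ({x} : Finset (HF A)) := by rw [← h2]; simp
      exact Finset.mem_singleton.1 this
    · have : y ∈ ({x, y'} : Finset (HF A)) := by rw [← h2]; simp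
      simpa using this
  have hy' : y' = x ∨ y' = y := by
    rcases h3 with h3 | h3
    · left
      have : y' ∈ ({x} : Finset (HF A)) := by rw [← h3]; simp
      exact Finset.mem_singleton.1 this
    · have : y' ∈ ({x, y} : Finset (HF A)) := by rw [← h3]; simp
      simpa using this
  rcases hy with rfl | h
  · rcases hy' with rfl | h'
    · rfl
    · exact h'.symm
  · exact h

theorem rename_kpair (f : A → A) (x y : HF A) :
    rename f (kpair x y) = kpair (rename f x) (rename f y) := by
  simp [kpair, Finset.image_insert]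

theorem mem_permGraph [Fintype A] {g : Equiv.Perm A} {u : HF A} :
    u ∈ members (permGraph g) ↔ ∃ a : A, u = kpair (atom a) (atom (g a)) := by
  unfold permGraph
  simp [eq_comm]

theorem kpair_mem_permGraph [Fintype A] {g : Equiv.Perm A} {a b : A} :
    kpair (atom a) (atom b) ∈ members (permGraph g) ↔ g a = b := by
  rw [mem_permGraph]
  constructor
  · rintro ⟨c, hc⟩
    obtain ⟨h1, h2⟩ := kpair_injective hc
    have h1' : a = c := atom_injective h1
    have h2' : b = g c := atom_injective h2
    rw [h1', h2']
  · rintro rfl; exact ⟨a, rfl⟩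

end Crest.Agent.CPTL
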