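/-
  Abstract transfer data and the map `T` on hereditarily finite objects.
-/
import Crest.Agent.Lib.CPTL.HF
import Crest.Prelude.Def_CPT

set_option autoImplicit false
set_option linter.unusedSectionVars false

noncomputable section
open Classical

namespace Crest.Agent.CPTL

open Crest.LogicCS.HFSet Crest.LogicCS.CPT

variable {σ A : Type}

/-- Elements of `Z` fixing every object in `E`. -/
def SS (Z : Subgroup (Equiv.Perm A)) (E : Set (HF A)) : Subgroup (Equiv.Perm A) where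
  carrier := {z | z ∈ Z ∧ ∀ y ∈ E, rename ⇑z y = y}
  mul_mem' := by
    rintro a b ⟨ha, ha'⟩ ⟨hb, hb'⟩
    refine ⟨Z.mul_mem ha hb, fun y hy => ?_⟩
    rw [rename_perm_mul, hb' y hy, ha' y hy]
  one_mem' := ⟨Z.one_mem, fun y _ => rename_one y⟩
  inv_mem' := by
    rintro a ⟨ha, ha'⟩
    refine ⟨Z.inv_mem ha, fun y hy => ?_⟩
    conv_lhs => rw [← ha' y hy]
    exact rename_perm_inv_cancel' a y

theorem mem_SS {Z : Subgroup (Equiv.Perm A)} {E : Set (HF A)} {z : Equiv.Perm A} :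
    z ∈ SS Z E ↔ z ∈ Z ∧ ∀ y ∈ E, rename ⇑z y = y := Iff.rfl

theorem SS_anti {Z : Subgroup (Equiv.Perm A)} {E E' : Set (HF A)} (h : E ⊆ E') :
    SS Z E' ≤ SS Z E := fun _ hz => ⟨hz.1, fun y hy => hz.2 y (h hy)⟩

theorem SS_le (Z : Subgroup (Equiv.Perm A)) (E : Set (HF A)) : SS Z E ≤ Z := fun _ hz => hz.1

variable [Fintype A]

/-- Abstract data of the transfer theorem between the inputs `R0`, `R1` on the same atoms. -/
structure TData (R0 R1 : σ → A → A → Bool) where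
  Z : Subgroup (Equiv.Perm A)
  Z_comm : ∀ z ∈ Z, ∀ z' ∈ Z, z * z' = z' * z
  Z_aut : ∀ z ∈ Z, IsAut R0 z
  Pos : Type
  posF : Fintype Pos
  Mv : Pos → Pos → Equiv.Perm A
  Mv_comm : ∀ p q p' q', Mv p q * Mv p' q' = Mv p' q' * Mv p q
  Mv_Z : ∀ p q, ∀ z ∈ Z, Mv p q * z = z * Mv p q
  Mv_self : ∀ p, Mv p p = 1
  C : Subgroup (Equiv.Perm A) → Set Pos
  C_mono : ∀ {S S' : Subgroup (Equiv.Perm A)}, S ≤ S' → C S ⊆ C S'
  cocycle : ∀ (S : Subgroup (Equiv.Perm A)) (p q r : Pos), p ∈ C S → q ∈ C S → r ∈ C S →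
    Mv p q * Mv q r * (Mv p r)⁻¹ ∈ S
  mv_atom : ∀ (a : A) (p q : Pos), p ∈ C (SS Z {atom a}) → q ∈ C (SS Z {atom a}) → Mv p q a = a
  Val : Equiv.Perm A → Pos → Prop
  Val_mv : ∀ ψ q q', Val ψ q → Val (ψ * Mv q q') q'
  Val_Z : ∀ ψ q z, Val ψ q → z ∈ Z → Val (ψ * z) q
  Val_comm : ∀ ψ q z, Val ψ q → z ∈ Z → ψ * z = z * ψ
  Val_rel : ∀ ψ q (a b : A) (r : σ), Val ψ q → q ∈ C (SS Z {atom a}) → q ∈ C (SS Z {atom b}) →
    R1 r (ψ a) (ψ b) = R0 r a b

namespace TData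

variable {R0 R1 : σ → A → A → Bool} (D : TData R0 R1)

/-- Stabilizer in `Z` of one object. -/
def St (x : HF A) : Subgroup (Equiv.Perm A) := SS D.Z {x}

theorem mem_St {x : HF A} {z : Equiv.Perm A} : z ∈ D.St x ↔ z ∈ D.Z ∧ rename ⇑z x = x := by
  simp [St, mem_SS]

theorem St_le (x : HF A) : D.St x ≤ D.Z := SS_le _ _

theorem SS_le_St {E : Set (HF A)} {x : HF A} (h : x ∈ E) : SS D.Z E ≤ D.St x :=
  SS_anti (Set.singleton_subset_iff.2 h)

instance instFintypePos : Fintype D.Pos := D.posF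

/-- The set of positions that are clean for both `S` and `S'`.  -/
def CC (S S' : Subgroup (Equiv.Perm A)) : Set D.Pos := D.C S ∩ D.C S'

/-- One unfolding of `T`, given `T` on the members. -/
def TStep (x : HF A) (ih : ∀ u, memRel u x → Equiv.Perm A → D.Pos → HF A)
    (ψ : Equiv.Perm A) (q : D.Pos) : HF A :=
  if h : ∃ a, x = atom a then atom (ψ h.choose)
  else ofFinset ((members x).attach.biUnion fun u =>
    (Finset.univ.filter fun q' : D.Pos => q' ∈ D.C (D.St x) ∧ q' ∈ D.C (D.St u.1)).biUnion fun q' =>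
      (Finset.univ.filter fun s : Equiv.Perm A => s ∈ D.St x).image fun s =>
        ih u.1 u.2 (ψ * D.Mv q q' * s) q')

/-- The transfer map: `T ψ q x` is the image of `x` under the local isomorphism `ψ` at position `q`,
correcting the position member by member. -/
def T (ψ : Equiv.Perm A) (q : D.Pos) (x : HF A) : HF A :=
  wf_memRel.fix (C := fun _ => Equiv.Perm A → D.Pos → HF A) D.TStep x ψ q

theorem T_eq (ψ : Equiv.Perm A) (q : D.Pos) (x : HF A) :
    D.T ψ q x = D.TStep x (fun u _ ψ' q' => D.T ψ' q' u) ψ q := by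
  unfold T
  rw [WellFounded.fix_eq]

@[simp] theorem T_atom (ψ : Equiv.Perm A) (q : D.Pos) (a : A) :
    D.T ψ q (atom a) = atom (ψ a) := by
  rw [T_eq, TStep, dif_pos ⟨a, rfl⟩]
  have h : (⟨a, rfl⟩ : ∃ b, (atom a : HF A) = atom b).choose = a :=
    (atom_injective (⟨a, rfl⟩ : ∃ b, (atom a : HF A) = atom b).choose_spec).symm
  rw [h]

theorem T_not_atom (ψ : Equiv.Perm A) (q : D.Pos) {x : HF A} (hx : ¬ IsAtom x) :
    ¬ IsAtom (D.T ψ q x) := by
  have hna : ¬ ∃ a, x = atom a := hx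
  rw [T_eq, TStep, dif_neg hna]
  simp

theorem mem_T {ψ : Equiv.Perm A} {q : D.Pos} {x w : HF A} :
    w ∈ members (D.T ψ q x) ↔ ∃ u ∈ members x, ∃ q' : D.Pos, q' ∈ D.C (D.St x) ∧
      q' ∈ D.C (D.St u) ∧ ∃ s ∈ D.St x, w = D.T (ψ * D.Mv q q' * s) q' u := by
  rcases atom_or_ofFinset x with ⟨a, rfl⟩ | hx
  · simp
  · have hna : ¬ ∃ a, x = atom a := by
      rw [hx]; rintro ⟨a, h⟩; exact ofFinset_ne_atom _ a h
    rw [T_eq, TStep, dif_neg hna, members_ofFinset]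
    simp only [Finset.mem_biUnion, Finset.mem_attach, true_and, Finset.mem_image,
      Finset.mem_filter, Finset.mem_univ, Subtype.exists]
    constructor
    · rintro ⟨u, hu, q', ⟨h1, h2⟩, s, hs, rfl⟩
      exact ⟨u, hu, q', h1, h2, s, hs, rfl⟩
    · rintro ⟨u, hu, q', h1, h2, s, hs, rfl⟩
      exact ⟨u, hu, q', ⟨h1, h2⟩, s, hs, rfl⟩

/-! ### Stabilizers under the action of `Z` -/

theorem St_rename {z : Equiv.Perm A} (hz : z ∈ D.Z) (x : HF A) :
    D.St (rename ⇑z x) = D.St x := by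
  ext y
  rw [mem_St, mem_St]
  refine and_congr_right fun hy => ?_
  rw [← rename_perm_mul, D.Z_comm y hy z hz, rename_perm_mul]
  exact rename_perm_inj z

/-- `T (ψ z) = T ψ ∘ z`. -/
theorem T_mul_Z (x : HF A) : ∀ (ψ : Equiv.Perm A) (q : D.Pos) {z : Equiv.Perm A}, z ∈ D.Z →
    D.T (ψ * z) q x = D.T ψ q (rename ⇑z x) := by
  induction x using hf_induction with
  | h x ih =>
    intro ψ q z hz
    rcases atom_or_ofFinset x with ⟨a, rfl⟩ | hx
    · simp
    · have hna : ¬ IsAtom x := by rw [hx]; exact not_isAtom_ofFinset _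
      refine hf_ext (D.T_not_atom _ _ hna) (D.T_not_atom _ _ (rename_not_isAtom _ hna)) ?_
      ext w
      rw [mem_T, mem_T]
      constructor
      · rintro ⟨u, hu, q', h1, h2, s, hs, rfl⟩
        refine ⟨rename ⇑z u, (mem_members_rename z).2 hu, q', ?_, ?_, s, ?_, ?_⟩
        · rwa [D.St_rename hz]
        · rwa [D.St_rename hz]
        · rwa [D.St_rename hz]
        · rw [← ih u hu _ _ hz]
          congr 1
          have h3 := D.Mv_Z q q' z hz
          have h4 := D.Z_comm s (D.St_le x hs) z hz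
          calc ψ * z * D.Mv q q' * s = ψ * (z * D.Mv q q') * s := by group
            _ = ψ * (D.Mv q q' * z) * s := by rw [h3]
            _ = ψ * D.Mv q q' * (z * s) := by group
            _ = ψ * D.Mv q q' * (s * z) := by rw [h4]
            _ = ψ * D.Mv q q' * s * z := by group
      · rintro ⟨u', hu', q', h1, h2, s, hs, rfl⟩
        rw [members_rename, Finset.mem_image] at hu'
        obtain ⟨u, hu, rfl⟩ := hu'
        rw [D.St_rename hz] at h1 h2 hs
        refine ⟨u, hu, q', h1, h2, s, hs, ?_⟩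
        rw [← ih u hu _ _ hz]
        congr 1
        have h3 := D.Mv_Z q q' z hz
        have h4 := D.Z_comm s (D.St_le x hs) z hz
        symm
        calc ψ * z * D.Mv q q' * s = ψ * (z * D.Mv q q') * s := by group
          _ = ψ * (D.Mv q q' * z) * s := by rw [h3]
          _ = ψ * D.Mv q q' * (z * s) := by group
          _ = ψ * D.Mv q q' * (s * z) := by rw [h4]
          _ = ψ * D.Mv q q' * s * z := by group

/-- `T` commutes with `Z`. -/
theorem rename_T (x : HF A) : ∀ (ψ : Equiv.Perm A) (q : D.Pos) {z : Equiv.Perm A}, D.Val ψ q →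
    z ∈ D.Z → rename ⇑z (D.T ψ q x) = D.T ψ q (rename ⇑z x) := by
  induction x using hf_induction with
  | h x ih =>
    intro ψ q z hψ hz
    rcases atom_or_ofFinset x with ⟨a, rfl⟩ | hx
    · simp only [T_atom, rename_atom]
      have := D.Val_comm ψ q z hψ hz
      congr 1
      exact (congrArg (fun f : Equiv.Perm A => f a) this).symm
    · have hna : ¬ IsAtom x := by rw [hx]; exact not_isAtom_ofFinset _
      refine hf_ext (rename_not_isAtom _ (D.T_not_atom _ _ hna))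
        (D.T_not_atom _ _ (rename_not_isAtom _ hna)) ?_
      ext w
      rw [members_rename, Finset.mem_image, mem_T]
      have hval : ∀ q' s, s ∈ D.St x → D.Val (ψ * D.Mv q q' * s) q' := fun q' s hs =>
        D.Val_Z _ _ _ (D.Val_mv _ _ _ hψ) (D.St_le x hs)
      constructor
      · rintro ⟨v, hv, rfl⟩
        rw [mem_T] at hv
        obtain ⟨u, hu, q', h1, h2, s, hs, rfl⟩ := hv
        refine ⟨rename ⇑z u, (mem_members_rename z).2 hu, q', ?_, ?_, s, ?_, ?_⟩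
        · rwa [D.St_rename hz]
        · rwa [D.St_rename hz]
        · rwa [D.St_rename hz]
        · exact ih u hu _ _ (hval q' s hs) hz
      · rintro ⟨u', hu', q', h1, h2, s, hs, rfl⟩
        rw [members_rename, Finset.mem_image] at hu'
        obtain ⟨u, hu, rfl⟩ := hu'
        rw [D.St_rename hz] at h1 h2 hs
        refine ⟨D.T (ψ * D.Mv q q' * s) q' u, D.mem_T.2 ⟨u, hu, q', h1, h2, s, hs, rfl⟩, ?_⟩
        exact ih u hu _ _ (hval q' s hs) hz

/-- Position change inside the clean set. -/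
theorem T_mv (ψ : Equiv.Perm A) {q q' : D.Pos} {x : HF A} (h : q ∈ D.C (D.St x))
    (h' : q' ∈ D.C (D.St x)) : D.T (ψ * D.Mv q q') q' x = D.T ψ q x := by
  rcases atom_or_ofFinset x with ⟨a, rfl⟩ | hx
  · simp only [T_atom, Equiv.Perm.coe_mul, Function.comp_apply]
    rw [D.mv_atom a q q' h h']
  · have hna : ¬ IsAtom x := by rw [hx]; exact not_isAtom_ofFinset _
    refine hf_ext (D.T_not_atom _ _ hna) (D.T_not_atom _ _ hna) ?_
    ext w
    rw [mem_T, mem_T]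
    have key : ∀ q'', q'' ∈ D.C (D.St x) →
        ∃ c ∈ D.St x, D.Mv q q' * D.Mv q' q'' = D.Mv q q'' * c := by
      intro q'' hq''
      refine ⟨_, D.cocycle _ q q' q'' h h' hq'', ?_⟩
      have hcz := D.St_le x (D.cocycle _ q q' q'' h h' hq'')
      rw [D.Mv_Z q q'' _ hcz]
      group
    constructor
    · rintro ⟨u, hu, q'', h1, h2, s, hs, rfl⟩
      obtain ⟨c, hc, e⟩ := key q'' h1
      refine ⟨u, hu, q'', h1, h2, c * s, (D.St x).mul_mem hc hs, ?_⟩
      congr 1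
      calc ψ * D.Mv q q' * D.Mv q' q'' * s = ψ * (D.Mv q q' * D.Mv q' q'') * s := by group
        _ = ψ * (D.Mv q q'' * c) * s := by rw [e]
        _ = ψ * D.Mv q q'' * (c * s) := by group
    · rintro ⟨u, hu, q'', h1, h2, s, hs, rfl⟩
      obtain ⟨c, hc, e⟩ := key q'' h1
      refine ⟨u, hu, q'', h1, h2, c⁻¹ * s, (D.St x).mul_mem ((D.St x).inv_mem hc) hs, ?_⟩
      congr 1
      calc ψ * D.Mv q q'' * s = ψ * (D.Mv q q'' * c) * (c⁻¹ * s) := by group
        _ = ψ * (D.Mv q q' * D.Mv q' q'') * (c⁻¹ * s) := by rw [e]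
        _ = ψ * D.Mv q q' * D.Mv q' q'' * (c⁻¹ * s) := by group

theorem T_stab (ψ : Equiv.Perm A) (q : D.Pos) {x : HF A} {s : Equiv.Perm A} (hs : s ∈ D.St x) :
    D.T (ψ * s) q x = D.T ψ q x := by
  rw [D.T_mul_Z x ψ q (D.St_le x hs), ((D.mem_St).1 hs).2]

/-- Rebasing. -/
theorem rebase (S : Subgroup (Equiv.Perm A)) (hS : S ≤ D.Z) (ψ : Equiv.Perm A) {q q' q3 : D.Pos}
    {u : HF A} {s : Equiv.Perm A} (hq : q ∈ D.C S) (hq' : q' ∈ D.C S) (hq3 : q3 ∈ D.C S)
    (hu' : q' ∈ D.C (D.St u)) (hu3 : q3 ∈ D.C (D.St u)) (hs : s ∈ S) :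
    ∃ c ∈ S, D.T (ψ * D.Mv q q' * s) q' u = D.T (ψ * D.Mv q q3) q3 (rename ⇑c u) := by
  have hc1 := D.cocycle S q q' q3 hq hq' hq3
  refine ⟨_, S.mul_mem hc1 hs, ?_⟩
  rw [← D.T_mul_Z u _ _ (hS (S.mul_mem hc1 hs)), ← D.T_mv (ψ * D.Mv q q' * s) hu' hu3]
  congr 1
  have hz : s ∈ D.Z := hS hs
  have hcz := hS hc1
  have h1 : s * D.Mv q' q3 = D.Mv q' q3 * s := (D.Mv_Z q' q3 s hz).symm
  have h2 : D.Mv q q3 * (D.Mv q q' * D.Mv q' q3 * (D.Mv q q3)⁻¹) = D.Mv q q' * D.Mv q' q3 := by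
    rw [D.Mv_Z q q3 _ hcz]; group
  calc ψ * D.Mv q q' * s * D.Mv q' q3 = ψ * D.Mv q q' * (s * D.Mv q' q3) := by group
    _ = ψ * D.Mv q q' * (D.Mv q' q3 * s) := by rw [h1]
    _ = ψ * (D.Mv q q' * D.Mv q' q3) * s := by group
    _ = ψ * (D.Mv q q3 * (D.Mv q q' * D.Mv q' q3 * (D.Mv q q3)⁻¹)) * s := by rw [h2]
    _ = _ := by group

/-- A member at a clean position for `S ≤ St x`. -/
theorem mem_T_of {ψ : Equiv.Perm A} {q q3 : D.Pos} {x u : HF A} {S : Subgroup (Equiv.Perm A)}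
    (hS : S ≤ D.St x) (hu : u ∈ members x) (h3 : q3 ∈ D.C S) (h3u : q3 ∈ D.C (D.St u)) :
    D.T (ψ * D.Mv q q3) q3 u ∈ members (D.T ψ q x) := by
  refine D.mem_T.2 ⟨u, hu, q3, D.C_mono hS h3, h3u, 1, (D.St x).one_mem, ?_⟩
  rw [mul_one]

/-- A member, rebased at a position chosen from the stabilizer class of the member. -/
theorem mem_T_elim {ψ : Equiv.Perm A} {q : D.Pos} {x w : HF A} {S : Subgroup (Equiv.Perm A)}
    (hS : S ≤ D.St x) (hq : q ∈ D.C S) (hw : w ∈ members (D.T ψ q x))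
    (pick : HF A → D.Pos)
    (hp : ∀ u ∈ members x, pick u ∈ D.C S ∧ pick u ∈ D.C (D.St u)) :
    ∃ u ∈ members x, ∃ u₀ ∈ members x, D.St u = D.St u₀ ∧
      w = D.T (ψ * D.Mv q (pick u₀)) (pick u₀) u := by
  obtain ⟨u, hu, q', h1, h2, s, hs, rfl⟩ := D.mem_T.1 hw
  obtain ⟨h3, h4⟩ := hp u hu
  obtain ⟨c, hc, e⟩ := D.rebase (D.St x) (D.St_le x) ψ (D.C_mono hS hq) h1 (D.C_mono hS h3) h2 h4 hs
  refine ⟨rename ⇑c u, ?_, u, hu, D.St_rename (D.St_le x hc) u, e⟩
  have hcx := ((D.mem_St).1 hc).2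
  rw [← hcx]
  exact (mem_members_rename c).2 hu

end TData

end Crest.Agent.CPTL
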