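/-
  The bounded-orbit class `Ok`, largeness, and injectivity of the transfer map `T`.
-/
import Crest.Agent.Lib.CPTL.TData

set_option autoImplicit false
set_option linter.unusedSectionVars false

noncomputable section
open Classical

namespace Crest.Agent.CPTL

open Crest.LogicCS.HFSet Crest.LogicCS.CPT

variable {σ A : Type} [Fintype A]

/-- The orbit of an object under the automorphisms of `R`. -/
def orbOf (R : σ → A → A → Bool) (y : HF A) : Finset (HF A) :=
  (Finset.univ.filter fun g : Equiv.Perm A => IsAut R g).image fun g : Equiv.Perm A => rename ⇑g y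

/-- Orbit size. -/
def orb (R : σ → A → A → Bool) (y : HF A) : ℕ := (orbOf R y).card

/-- Bounded size and hereditarily bounded orbits. -/
def Ok (R : σ → A → A → Bool) (B : ℕ) (x : HF A) : Prop :=
  tcSize x ≤ B ∧ orb R x ≤ B ∧ ∀ y ∈ tcF x, orb R y ≤ B

theorem Ok.mono {R : σ → A → A → Bool} {B B' : ℕ} {x : HF A} (h : Ok R B x) (hB : B ≤ B') :
    Ok R B' x :=
  ⟨h.1.trans hB, h.2.1.trans hB, fun y hy => (h.2.2 y hy).trans hB⟩

theorem Ok.of_tc {R : σ → A → A → Bool} {B : ℕ} {x y : HF A} (h : Ok R B x) (hy : y ∈ tcF x) :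
    Ok R B y := by
  refine ⟨?_, h.2.2 y hy, fun z hz => h.2.2 z (tcF_trans hy hz)⟩
  refine le_trans ?_ h.1
  rw [tcSize_eq, tcSize_eq]
  exact Finset.card_le_card fun z hz => tcF_trans hy hz

theorem Ok.of_mem {R : σ → A → A → Bool} {B : ℕ} {x u : HF A} (h : Ok R B x) (hu : u ∈ members x) :
    Ok R B u := h.of_tc (mem_tcF_of_mem hu)

theorem isAut_one (R : σ → A → A → Bool) : IsAut R (1 : Equiv.Perm A) := fun _ _ _ => rfl

theorem isAut_mul {R : σ → A → A → Bool} {g h : Equiv.Perm A} (hg : IsAut R g) (hh : IsAut R h) :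
    IsAut R (g * h) := fun r a b => by
  simp only [Equiv.Perm.coe_mul, Function.comp_apply]
  rw [hg r, hh r]

theorem isAut_inv {R : σ → A → A → Bool} {g : Equiv.Perm A} (hg : IsAut R g) :
    IsAut R g⁻¹ := fun r a b => by
  have := hg r (g⁻¹ a) (g⁻¹ b)
  simpa using this.symm

theorem orbOf_rename {R : σ → A → A → Bool} {g : Equiv.Perm A} (hg : IsAut R g) (x : HF A) :
    orbOf R (rename ⇑g x) = orbOf R x := by
  ext y
  simp only [orbOf, Finset.mem_image, Finset.mem_filter, Finset.mem_univ, true_and]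
  constructor
  · rintro ⟨h, hh, rfl⟩
    exact ⟨h * g, isAut_mul hh hg, rename_perm_mul h g x⟩
  · rintro ⟨h, hh, rfl⟩
    refine ⟨h * g⁻¹, isAut_mul hh (isAut_inv hg), ?_⟩
    rw [rename_perm_mul, rename_perm_inv_cancel']

theorem orb_rename {R : σ → A → A → Bool} {g : Equiv.Perm A} (hg : IsAut R g) (x : HF A) :
    orb R (rename ⇑g x) = orb R x := by
  unfold orb; rw [orbOf_rename hg]

theorem Ok.rename {R : σ → A → A → Bool} {B : ℕ} {x : HF A} (h : Ok R B x) {g : Equiv.Perm A}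
    (hg : IsAut R g) : Ok R B (rename ⇑g x) := by
  refine ⟨by rw [tcSize_rename]; exact h.1, by rw [orb_rename hg]; exact h.2.1, fun y hy => ?_⟩
  rw [tcF_rename, Finset.mem_image] at hy
  obtain ⟨z, hz, rfl⟩ := hy
  rw [orb_rename hg]
  exact h.2.2 z hz

namespace TData

variable {R0 R1 : σ → A → A → Bool} (D : TData R0 R1)

/-- Any `K` objects of the class `Ok B` have a common clean position. -/
def Large (B K : ℕ) : Prop :=
  ∀ E : Finset (HF A), E.card ≤ K → (∀ y ∈ E, Ok R0 B y) → (D.C (SS D.Z (E : Set (HF A)))).Nonempty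

theorem Large.mono {D : TData R0 R1} {B B' K K' : ℕ} (h : D.Large B' K') (hB : B ≤ B') (hK : K ≤ K') :
    D.Large B K :=
  fun E hE hy => h E (hE.trans hK) fun y hyE => (hy y hyE).mono hB

theorem Ok_rename_Z {B : ℕ} {x : HF A} (h : Ok R0 B x) {z : Equiv.Perm A} (hz : z ∈ D.Z) :
    Ok R0 B (rename ⇑z x) := h.rename (D.Z_aut z hz)

/-- Common clean position for two, three or four objects. -/
theorem Large.pos2 {D : TData R0 R1} {B K : ℕ} (h : D.Large B K) (hK : 2 ≤ K) {x y : HF A}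
    (hx : Ok R0 B x) (hy : Ok R0 B y) :
    ∃ q, q ∈ D.C (D.St x) ∧ q ∈ D.C (D.St y) := by
  obtain ⟨q, hq⟩ := h {x, y} ((Finset.card_le_two).trans hK) (by
    intro u hu
    simp only [Finset.mem_insert, Finset.mem_singleton] at hu
    rcases hu with rfl | rfl <;> assumption)
  exact ⟨q, D.C_mono (D.SS_le_St (by simp)) hq, D.C_mono (D.SS_le_St (by simp)) hq⟩

theorem Large.pos4 {D : TData R0 R1} {B K : ℕ} (h : D.Large B K) (hK : 4 ≤ K) {x y u v : HF A}
    (hx : Ok R0 B x) (hy : Ok R0 B y) (hu : Ok R0 B u) (hv : Ok R0 B v) :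
    ∃ q, q ∈ D.C (D.St x) ∧ q ∈ D.C (D.St y) ∧ q ∈ D.C (D.St u) ∧ q ∈ D.C (D.St v) := by
  obtain ⟨q, hq⟩ := h {x, y, u, v} ((Finset.card_le_four).trans hK) (by
    intro w hw
    simp only [Finset.mem_insert, Finset.mem_singleton] at hw
    rcases hw with rfl | rfl | rfl | rfl <;> assumption)
  exact ⟨q, D.C_mono (D.SS_le_St (by simp)) hq, D.C_mono (D.SS_le_St (by simp)) hq,
    D.C_mono (D.SS_le_St (by simp)) hq, D.C_mono (D.SS_le_St (by simp)) hq⟩

/-- The key step of injectivity: equal stabilizers. -/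
theorem inj_step {B K : ℕ} (hL : D.Large B K) (hK : 4 ≤ K) (n : ℕ)
    (IH : ∀ y y', tcSize y < n → tcSize y' < n → Ok R0 B y → Ok R0 B y' →
      ∀ ψ q, D.Val ψ q → q ∈ D.C (D.St y) → q ∈ D.C (D.St y') → D.T ψ q y = D.T ψ q y' → y = y')
    {x x' : HF A} (hx : tcSize x ≤ n) (hx' : tcSize x' ≤ n) (okx : Ok R0 B x) (okx' : Ok R0 B x')
    (hSt : D.St x = D.St x') {ψ : Equiv.Perm A} {q : D.Pos} (hψ : D.Val ψ q)
    (hq : q ∈ D.C (D.St x)) (hT : D.T ψ q x = D.T ψ q x') : members x ⊆ members x' := by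
  intro u hu
  have oku : Ok R0 B u := okx.of_mem hu
  obtain ⟨q2, h2x, h2u⟩ := hL.pos2 (by omega) okx oku
  have hw := D.mem_T_of (ψ := ψ) (q := q) (S := D.St x) le_rfl hu h2x h2u
  rw [hT] at hw
  obtain ⟨u', hu', q', h1', h2', s', hs', e'⟩ := D.mem_T.1 hw
  have oku' : Ok R0 B u' := okx'.of_mem hu'
  obtain ⟨q3, h3x, h3x', h3u, h3u'⟩ := hL.pos4 hK okx okx' oku oku'
  have hq' : q ∈ D.C (D.St x') := hSt ▸ hq
  -- rebase both sides at q3
  obtain ⟨c, hc, e1⟩ := D.rebase (D.St x) (D.St_le x) ψ (s := 1) hq h2x h3x h2u h3u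
    (D.St x).one_mem
  rw [mul_one] at e1
  obtain ⟨c', hc', e2⟩ := D.rebase (D.St x') (D.St_le x') ψ (s := s') hq' h1' h3x' h2' h3u' hs'
  have hval : D.Val (ψ * D.Mv q q3) q3 := D.Val_mv _ _ _ hψ
  have hcZ := D.St_le x hc
  have hc'Z := D.St_le x' hc'
  have htc : tcSize (rename ⇑c u) < n := by
    rw [tcSize_rename]; exact lt_of_lt_of_le (tcSize_lt_of_mem hu) hx
  have htc' : tcSize (rename ⇑c' u') < n := by
    rw [tcSize_rename]; exact lt_of_lt_of_le (tcSize_lt_of_mem hu') hx'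
  have heq := IH _ _ htc htc' (D.Ok_rename_Z oku hcZ) (D.Ok_rename_Z oku' hc'Z) _ _ hval
    (by rw [D.St_rename hcZ]; exact h3u) (by rw [D.St_rename hc'Z]; exact h3u')
    (by rw [← e1, e', e2])
  -- u = c⁻¹ c' u'
  have hc1 : c ∈ D.St x' := hSt ▸ hc
  have hfix : rename ⇑(c⁻¹ * c') x' = x' := ((D.mem_St).1 ((D.St x').mul_mem ((D.St x').inv_mem hc1) hc')).2
  have hu2 : u = rename ⇑(c⁻¹ * c') u' := by
    rw [rename_perm_mul, ← heq, rename_perm_inv_cancel']
  rw [hu2, ← hfix]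
  exact (mem_members_rename _).2 hu'

/-- Injectivity of `T` in the bounded class. -/
theorem T_inj_aux {B K : ℕ} (hL : D.Large B K) (hK : 4 ≤ K) (n : ℕ) :
    ∀ x x', tcSize x < n → tcSize x' < n → Ok R0 B x → Ok R0 B x' →
      ∀ ψ q, D.Val ψ q → q ∈ D.C (D.St x) → q ∈ D.C (D.St x') → D.T ψ q x = D.T ψ q x' → x = x' := by
  induction n with
  | zero => intro x x' h; omega
  | succ n IH =>
    intro x x' hx hx' okx okx' ψ q hψ hq hq' hT
    have hxn : tcSize x ≤ n := by omega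
    have hxn' : tcSize x' ≤ n := by omega
    -- equal stabilizers: members agree
    have Eq : ∀ y y' : HF A, tcSize y ≤ n → tcSize y' ≤ n → Ok R0 B y → Ok R0 B y' →
        D.St y = D.St y' → q ∈ D.C (D.St y) → D.T ψ q y = D.T ψ q y' → y = y' := by
      intro y y' hy hy' oky oky' hS hqy hTy
      rcases atom_or_ofFinset y with ⟨a, rfl⟩ | h1
      · rcases atom_or_ofFinset y' with ⟨b, rfl⟩ | h2
        · simp only [T_atom, atom_inj] at hTy
          rw [ψ.injective hTy]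
        · exfalso
          have hna : ¬ IsAtom y' := by rw [h2]; exact not_isAtom_ofFinset _
          apply D.T_not_atom ψ q hna
          rw [← hTy]; simp
      · have hna : ¬ IsAtom y := by rw [h1]; exact not_isAtom_ofFinset _
        rcases atom_or_ofFinset y' with ⟨b, rfl⟩ | h2
        · exfalso
          apply D.T_not_atom ψ q hna
          rw [hTy]; simp
        · have hna' : ¬ IsAtom y' := by rw [h2]; exact not_isAtom_ofFinset _
          refine hf_ext hna hna' (Finset.Subset.antisymm ?_ ?_)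
          · exact D.inj_step hL hK n IH hy hy' oky oky' hS hψ hqy hTy
          · exact D.inj_step hL hK n IH hy' hy oky' oky hS.symm hψ (hS ▸ hqy) hTy.symm
    have hSt : D.St x = D.St x' := by
      have half : ∀ y y' : HF A, tcSize y ≤ n → tcSize y' ≤ n → Ok R0 B y → Ok R0 B y' →
          q ∈ D.C (D.St y) → q ∈ D.C (D.St y') → D.T ψ q y = D.T ψ q y' → D.St y ≤ D.St y' := by
        intro y y' hy hy' oky oky' hqy hqy' hTy z hz
        have hzZ := D.St_le y hz
        have hzy := ((D.mem_St).1 hz).2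
        have h1 : D.T ψ q (rename ⇑z y') = D.T ψ q y' := by
          rw [← D.rename_T y' ψ q hψ hzZ, ← hTy, D.rename_T y ψ q hψ hzZ, hzy]
        have h2 : rename ⇑z y' = y' :=
          Eq _ _ (by rw [tcSize_rename]; exact hy') hy' (D.Ok_rename_Z oky' hzZ) oky'
            (D.St_rename hzZ y') (by rw [D.St_rename hzZ]; exact hqy') h1
        exact (D.mem_St).2 ⟨hzZ, h2⟩
      exact le_antisymm (half x x' hxn hxn' okx okx' hq hq' hT)
        (half x' x hxn' hxn okx' okx hq' hq hT.symm)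
    exact Eq x x' hxn hxn' okx okx' hSt hq hT

theorem T_inj {B K : ℕ} (hL : D.Large B K) (hK : 4 ≤ K) {x x' : HF A} (okx : Ok R0 B x)
    (okx' : Ok R0 B x') {ψ : Equiv.Perm A} {q : D.Pos} (hψ : D.Val ψ q) (hq : q ∈ D.C (D.St x))
    (hq' : q ∈ D.C (D.St x')) (hT : D.T ψ q x = D.T ψ q x') : x = x' :=
  D.T_inj_aux hL hK (max (tcSize x) (tcSize x') + 1) x x' (by omega) (by omega) okx okx' ψ q hψ hq hq' hT

/-- A member of `T ψ q x`, rebased into `C S`. -/
theorem mem_T_rep {ψ : Equiv.Perm A} {q : D.Pos} {x w : HF A} {S : Subgroup (Equiv.Perm A)}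
    (hS : S ≤ D.St x) (hq : q ∈ D.C S) (hw : w ∈ members (D.T ψ q x))
    (hp : ∀ u ∈ members x, ∃ q3, q3 ∈ D.C S ∧ q3 ∈ D.C (D.St u)) :
    ∃ v ∈ members x, ∃ q3, q3 ∈ D.C S ∧ q3 ∈ D.C (D.St v) ∧ w = D.T (ψ * D.Mv q q3) q3 v := by
  obtain ⟨u, hu, q', h1, h2, s, hs, rfl⟩ := D.mem_T.1 hw
  obtain ⟨q3, h3, h4⟩ := hp u hu
  obtain ⟨c, hc, e⟩ := D.rebase (D.St x) (D.St_le x) ψ (D.C_mono hS hq) h1 (D.C_mono hS h3) h2 h4 hs
  refine ⟨rename ⇑c u, ?_, q3, h3, ?_, e⟩
  · have hcx := ((D.mem_St).1 hc).2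
    rw [← hcx]
    exact (mem_members_rename c).2 hu
  · rw [D.St_rename (D.St_le x hc)]; exact h4

/-- Moving between two clean positions for `S ≤ Z`. -/
theorem T_move {S : Subgroup (Equiv.Perm A)} (hS : S ≤ D.Z) (ψ : Equiv.Perm A) {q q3 q4 : D.Pos}
    {v : HF A} (hq : q ∈ D.C S) (h3 : q3 ∈ D.C S) (h4 : q4 ∈ D.C S) (h3v : q3 ∈ D.C (D.St v))
    (h4v : q4 ∈ D.C (D.St v)) :
    ∃ c ∈ S, D.T (ψ * D.Mv q q3) q3 v = D.T (ψ * D.Mv q q4) q4 (rename ⇑c v) := by
  obtain ⟨c, hc, e⟩ := D.rebase S hS ψ (s := 1) hq h3 h4 h3v h4v S.one_mem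
  rw [mul_one] at e
  exact ⟨c, hc, e⟩

/-- If all members are fixed by `S`, `T` acts member by member. -/
theorem members_T_of_def {ψ : Equiv.Perm A} {q : D.Pos} {x : HF A} {S : Subgroup (Equiv.Perm A)}
    (hS : S ≤ D.St x) (hq : q ∈ D.C S) (hu : ∀ u ∈ members x, S ≤ D.St u) :
    members (D.T ψ q x) = (members x).image (D.T ψ q) := by
  ext w
  rw [Finset.mem_image]
  constructor
  · intro hw
    obtain ⟨v, hv, q3, h3, h3v, rfl⟩ :=
      D.mem_T_rep hS hq hw (fun u hu' => ⟨q, hq, D.C_mono (hu u hu') hq⟩)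
    exact ⟨v, hv, (D.T_mv ψ (D.C_mono (hu v hv) hq) h3v).symm⟩
  · rintro ⟨u, hu', rfl⟩
    have := D.mem_T_of (ψ := ψ) (q := q) hS hu' hq (D.C_mono (hu u hu') hq)
    rwa [D.Mv_self, mul_one] at this

/-- `T` of an ordinal. -/
theorem T_ordinal {ψ : Equiv.Perm A} {q : D.Pos} (hq : q ∈ D.C D.Z) (n : ℕ) :
    D.T ψ q (ordinal n) = ordinal n := by
  have hfix : ∀ m : ℕ, D.Z ≤ D.St (ordinal m : HF A) := fun m z hz =>
    (D.mem_St).2 ⟨hz, rename_ordinal _ m⟩
  induction n using Nat.strong_induction_on with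
  | _ n ih =>
    refine hf_ext (D.T_not_atom _ _ (not_isAtom_ordinal n)) (not_isAtom_ordinal n) ?_
    rw [D.members_T_of_def (S := D.Z) (hfix n) hq (fun u hu => by
      obtain ⟨m, _, rfl⟩ := mem_members_ordinal.1 hu; exact hfix m)]
    ext w
    simp only [Finset.mem_image]
    constructor
    · rintro ⟨u, hu, rfl⟩
      obtain ⟨m, hm, rfl⟩ := mem_members_ordinal.1 hu
      rw [ih m hm]; exact hu
    · intro hw
      obtain ⟨m, hm, rfl⟩ := mem_members_ordinal.1 hw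
      exact ⟨_, hw, ih m hm⟩

theorem T_empty {ψ : Equiv.Perm A} {q : D.Pos} (hq : q ∈ D.C D.Z) : D.T ψ q empty = empty :=
  D.T_ordinal hq 0

/-! ### The normal form and cardinalities -/

/-- a chosen position -/
def pick (S : Subgroup (Equiv.Perm A)) (q : D.Pos) (W : Subgroup (Equiv.Perm A)) : D.Pos :=
  if h : (D.C (S ⊓ W)).Nonempty then h.some else q

/-- The canonical image of `u`. -/
def BB (S : Subgroup (Equiv.Perm A)) (ψ : Equiv.Perm A) (q : D.Pos) (u : HF A) : HF A :=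
  D.T (ψ * D.Mv q (D.pick S q (D.St u))) (D.pick S q (D.St u)) u

theorem SS_insert (E : Set (HF A)) (u : HF A) : SS D.Z (insert u E) = SS D.Z E ⊓ D.St u := by
  ext z
  simp only [Subgroup.mem_inf, mem_SS, mem_St, Set.mem_insert_iff, forall_eq_or_imp]
  tauto

/-- Largeness, for an extra object on top of a finite set. -/
theorem Large.pick_spec {D : TData R0 R1} {B K : ℕ} (hL : D.Large B K) {E : Finset (HF A)} {u : HF A}
    (hE : E.card + 1 ≤ K) (okE : ∀ y ∈ E, Ok R0 B y) (oku : Ok R0 B u) (q : D.Pos) :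
    D.pick (SS D.Z (E : Set (HF A))) q (D.St u) ∈ D.C (SS D.Z (E : Set (HF A))) ∧
    D.pick (SS D.Z (E : Set (HF A))) q (D.St u) ∈ D.C (D.St u) := by
  have h := hL (insert u E) ((Finset.card_insert_le _ _).trans hE) (by
    intro y hy
    rcases Finset.mem_insert.1 hy with rfl | hy
    · exact oku
    · exact okE y hy)
  rw [Finset.coe_insert, D.SS_insert] at h
  unfold pick
  rw [dif_pos h]
  have hs := h.some_mem
  exact ⟨D.C_mono inf_le_left hs, D.C_mono inf_le_right hs⟩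

theorem Large.pos_insert {D : TData R0 R1} {B K : ℕ} (hL : D.Large B K) {E : Finset (HF A)} {u : HF A}
    (hE : E.card + 1 ≤ K) (okE : ∀ y ∈ E, Ok R0 B y) (oku : Ok R0 B u) :
    ∃ q, q ∈ D.C (SS D.Z (insert u (E : Set (HF A)))) := by
  have h := hL (insert u E) ((Finset.card_insert_le _ _).trans hE) (by
    intro y hy
    rcases Finset.mem_insert.1 hy with rfl | hy
    · exact oku
    · exact okE y hy)
  rw [Finset.coe_insert] at h
  exact h

/-- Injectivity of the canonical image on any set of `Ok` objects. -/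
theorem BB_injOn {B K : ℕ} (hL : D.Large B K) (hK : 4 ≤ K) {E : Finset (HF A)} (hE : E.card + 2 ≤ K)
    (okE : ∀ y ∈ E, Ok R0 B y) {ψ : Equiv.Perm A} {q : D.Pos} (hψ : D.Val ψ q)
    (hq : q ∈ D.C (SS D.Z (E : Set (HF A)))) {u u' : HF A} (oku : Ok R0 B u) (oku' : Ok R0 B u')
    (h : D.BB (SS D.Z (E : Set (HF A))) ψ q u = D.BB (SS D.Z (E : Set (HF A))) ψ q u') : u = u' := by
  set S := SS D.Z (E : Set (HF A)) with hSdef
  have hSZ : S ≤ D.Z := SS_le _ _
  obtain ⟨p1, p2⟩ := hL.pick_spec (E := E) (u := u) (by omega) okE oku q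
  obtain ⟨p1', p2'⟩ := hL.pick_spec (E := E) (u := u') (by omega) okE oku' q
  -- a common position
  have hL2 := hL (insert u (insert u' E)) (by
    refine (Finset.card_insert_le _ _).trans ?_
    have := Finset.card_insert_le u' E
    omega) (by
    intro y hy
    simp only [Finset.mem_insert] at hy
    rcases hy with rfl | rfl | hy
    · exact oku
    · exact oku'
    · exact okE y hy)
  obtain ⟨q4, hq4⟩ := hL2
  have h4S : q4 ∈ D.C S := D.C_mono (SS_anti (by intro y hy; simp [Finset.mem_coe.1 hy])) hq4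
  have h4u : q4 ∈ D.C (D.St u) := D.C_mono (D.SS_le_St (by simp)) hq4
  have h4u' : q4 ∈ D.C (D.St u') := D.C_mono (D.SS_le_St (by simp)) hq4
  obtain ⟨c, hc, e1⟩ := D.T_move hSZ ψ hq p1 h4S p2 h4u
  obtain ⟨c', hc', e2⟩ := D.T_move hSZ ψ hq p1' h4S p2' h4u'
  have hcZ := hSZ hc
  have hc'Z := hSZ hc'
  have heq := D.T_inj hL hK (D.Ok_rename_Z oku hcZ) (D.Ok_rename_Z oku' hc'Z)
    (D.Val_mv ψ q q4 hψ) (by rw [D.St_rename hcZ]; exact h4u) (by rw [D.St_rename hc'Z]; exact h4u')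
    (by rw [← e1, ← e2]; exact h)
  -- so the stabilizers agree and the picks agree
  have hSt : D.St u = D.St u' := by
    rw [← D.St_rename hcZ u, heq, D.St_rename hc'Z]
  unfold BB at h
  rw [hSt] at h
  exact D.T_inj hL hK oku oku' (D.Val_mv ψ q _ hψ) (by rw [hSt]; exact p2') p2' h

/-- Normal form of `T` on a set. -/
theorem members_T_eq_image {B K : ℕ} (hL : D.Large B K) {E : Finset (HF A)} (hE : E.card + 1 ≤ K)
    (okE : ∀ y ∈ E, Ok R0 B y) {ψ : Equiv.Perm A} {q : D.Pos}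
    (hq : q ∈ D.C (SS D.Z (E : Set (HF A)))) {x : HF A} (okx : Ok R0 B x)
    (hS : SS D.Z (E : Set (HF A)) ≤ D.St x) :
    members (D.T ψ q x) = (members x).image (D.BB (SS D.Z (E : Set (HF A))) ψ q) := by
  set S := SS D.Z (E : Set (HF A)) with hSdef
  have hSZ : S ≤ D.Z := SS_le _ _
  ext w
  rw [Finset.mem_image]
  constructor
  · intro hw
    have hp : ∀ u ∈ members x, ∃ q3, q3 ∈ D.C S ∧ q3 ∈ D.C (D.St u) := fun u hu =>
      ⟨_, (hL.pick_spec hE okE (okx.of_mem hu) q).1, (hL.pick_spec hE okE (okx.of_mem hu) q).2⟩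
    -- rebase to the canonical position of the member
    obtain ⟨u, hu, q', h1, h2, s, hs, rfl⟩ := D.mem_T.1 hw
    obtain ⟨p1, p2⟩ := hL.pick_spec hE okE (okx.of_mem hu) q
    obtain ⟨c, hc, e⟩ := D.rebase (D.St x) (D.St_le x) ψ (D.C_mono hS hq) h1 (D.C_mono hS p1) h2 p2 hs
    refine ⟨rename ⇑c u, ?_, ?_⟩
    · have hcx := ((D.mem_St).1 hc).2
      rw [← hcx]
      exact (mem_members_rename c).2 hu
    · unfold BB
      rw [D.St_rename (D.St_le x hc)]
      exact e.symm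
  · rintro ⟨u, hu, rfl⟩
    obtain ⟨p1, p2⟩ := hL.pick_spec hE okE (okx.of_mem hu) q
    exact D.mem_T_of hS hu p1 p2

theorem card_members_T {B K : ℕ} (hL : D.Large B K) (hK : 4 ≤ K) {E : Finset (HF A)}
    (hE : E.card + 2 ≤ K) (okE : ∀ y ∈ E, Ok R0 B y) {ψ : Equiv.Perm A} {q : D.Pos} (hψ : D.Val ψ q)
    (hq : q ∈ D.C (SS D.Z (E : Set (HF A)))) {x : HF A} (okx : Ok R0 B x)
    (hS : SS D.Z (E : Set (HF A)) ≤ D.St x) :
    (members (D.T ψ q x)).card = (members x).card := by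
  rw [D.members_T_eq_image hL (by omega) okE hq okx hS]
  refine Finset.card_image_of_injOn fun u hu u' hu' h => ?_
  exact D.BB_injOn hL hK hE okE hψ hq (okx.of_mem hu) (okx.of_mem hu') h

/-- All atoms are mapped to all atoms. -/
theorem T_allAtoms {B K : ℕ} (hL : D.Large B K) (hK : 4 ≤ K) {E : Finset (HF A)}
    (hE : E.card + 2 ≤ K) (okE : ∀ y ∈ E, Ok R0 B y) {ψ : Equiv.Perm A} {q : D.Pos} (hψ : D.Val ψ q)
    (hq : q ∈ D.C (SS D.Z (E : Set (HF A))))
    (okx : Ok R0 B (ofFinset (Finset.univ.image (atom : A → HF A)))) :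
    D.T ψ q (ofFinset (Finset.univ.image (atom : A → HF A))) =
      ofFinset (Finset.univ.image (atom : A → HF A)) := by
  set x : HF A := ofFinset (Finset.univ.image (atom : A → HF A)) with hx
  have hna : ¬ IsAtom x := not_isAtom_ofFinset _
  have hfix : ∀ z : Equiv.Perm A, rename ⇑z x = x := by
    intro z
    rw [hx, rename_ofFinset, Finset.image_image]
    congr 1
    ext u
    simp only [Finset.mem_image, Finset.mem_univ, true_and, Function.comp_apply, rename_atom]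
    constructor
    · rintro ⟨a, rfl⟩; exact ⟨z a, rfl⟩
    · rintro ⟨a, rfl⟩; exact ⟨z⁻¹ a, by simp⟩
  have hS : SS D.Z (E : Set (HF A)) ≤ D.St x := fun z hz => (D.mem_St).2 ⟨hz.1, hfix z⟩
  refine hf_ext (D.T_not_atom _ _ hna) hna ?_
  refine Finset.eq_of_subset_of_card_le ?_ ?_
  · intro w hw
    have hm := D.mem_T.1 hw
    obtain ⟨u, hu, q', _, _, s, _, rfl⟩ := hm
    rw [hx, members_ofFinset, Finset.mem_image] at hu
    obtain ⟨a, _, rfl⟩ := hu
    rw [hx, members_ofFinset, T_atom]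
    simp
  · rw [D.card_members_T hL hK hE okE hψ hq okx hS]

/-- A member of `T ψ q x`, rebased at a position with an extra property. -/
theorem mem_T_rep2 {ψ : Equiv.Perm A} {q : D.Pos} {x w : HF A} (P : D.Pos → Prop)
    (hq : q ∈ D.C (D.St x)) (hw : w ∈ members (D.T ψ q x))
    (hp : ∀ u ∈ members x, ∃ q3, P q3 ∧ q3 ∈ D.C (D.St x) ∧ q3 ∈ D.C (D.St u)) :
    ∃ v ∈ members x, ∃ q3, P q3 ∧ q3 ∈ D.C (D.St x) ∧ q3 ∈ D.C (D.St v) ∧
      w = D.T (ψ * D.Mv q q3) q3 v := by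
  obtain ⟨u, hu, q', h1, h2, s, hs, rfl⟩ := D.mem_T.1 hw
  obtain ⟨q3, h0, h3, h4⟩ := hp u hu
  obtain ⟨c, hc, e⟩ := D.rebase (D.St x) (D.St_le x) ψ hq h1 h3 h2 h4 hs
  refine ⟨rename ⇑c u, ?_, q3, h0, h3, ?_, e⟩
  · have hcx := ((D.mem_St).1 hc).2
    rw [← hcx]
    exact (mem_members_rename c).2 hu
  · rw [D.St_rename (D.St_le x hc)]; exact h4

theorem mem_tcF_rename_of_fix {x y : HF A} (g : Equiv.Perm A) (hg : rename ⇑g x = x)
    (hy : y ∈ tcF x) : rename ⇑g y ∈ tcF x := by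
  have := tcF_rename g x
  rw [hg] at this
  rw [this]
  exact Finset.mem_image_of_mem _ hy

/-- Elements of the transitive closure of `T ψ q x` from those of `x`. -/
theorem tc_T_of {B K : ℕ} (hL : D.Large B K) {E : Finset (HF A)} (hE : E.card + 2 ≤ K)
    (okE : ∀ y ∈ E, Ok R0 B y) {ψ : Equiv.Perm A} {q : D.Pos}
    (hq : q ∈ D.C (SS D.Z (E : Set (HF A)))) {x : HF A} (okx : Ok R0 B x)
    (hS : SS D.Z (E : Set (HF A)) ≤ D.St x) {y : HF A} (hy : y ∈ tcF x) :
    ∀ c ∈ SS D.Z (E : Set (HF A)), ∀ q3, q3 ∈ D.C (SS D.Z (E : Set (HF A))) → q3 ∈ D.C (D.St y) →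
      D.T (ψ * D.Mv q q3) q3 (rename ⇑c y) ∈ tcF (D.T ψ q x) := by
  set S := SS D.Z (E : Set (HF A)) with hSdef
  have hSZ : S ≤ D.Z := SS_le _ _
  have hy' := mem_tcF_iff_transGen.1 hy
  refine Relation.TransGen.head_induction_on
    (motive := fun y _ => ∀ c ∈ S, ∀ q3, q3 ∈ D.C S → q3 ∈ D.C (D.St y) →
      D.T (ψ * D.Mv q q3) q3 (rename ⇑c y) ∈ tcF (D.T ψ q x)) hy' ?_ ?_
  · intro a ha c hc q3 h3 h3a
    have ha' : a ∈ members x := ha
    refine mem_tcF_of_mem (D.mem_T_of hS ?_ h3 ?_)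
    · have hcx := ((D.mem_St).1 (hS hc)).2
      rw [← hcx]
      exact (mem_members_rename c).2 ha'
    · rwa [D.St_rename (hSZ hc)]
  · intro a u ha hu ih c hc q3 h3 h3a
    have ha' : a ∈ members u := ha
    have hu' : u ∈ tcF x := mem_tcF_iff_transGen.2 hu
    have oku : Ok R0 B u := okx.of_tc hu'
    have oka : Ok R0 B a := oku.of_mem ha'
    have hL2 := hL (insert a (insert u E)) (by
      refine (Finset.card_insert_le _ _).trans ?_
      have := Finset.card_insert_le u E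
      omega) (by
      intro y hy
      simp only [Finset.mem_insert] at hy
      rcases hy with rfl | rfl | hy
      · exact oka
      · exact oku
      · exact okE y hy)
    obtain ⟨q4, hq4⟩ := hL2
    have h4S : q4 ∈ D.C S := D.C_mono (SS_anti (by intro y hy; simp [Finset.mem_coe.1 hy])) hq4
    have h4u : q4 ∈ D.C (D.St u) := D.C_mono (D.SS_le_St (by simp)) hq4
    have h4a : q4 ∈ D.C (D.St a) := D.C_mono (D.SS_le_St (by simp)) hq4
    have hcZ := hSZ hc
    obtain ⟨c', hc', e⟩ := D.T_move hSZ ψ hq h3 h4S (by rwa [D.St_rename hcZ])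
      (by rwa [D.St_rename hcZ] : q4 ∈ D.C (D.St (rename ⇑c a)))
    rw [e, ← rename_perm_mul]
    have hcc : c' * c ∈ S := S.mul_mem hc' hc
    have h1 := ih (c' * c) hcc q4 h4S h4u
    refine tcF_trans h1 (mem_tcF_of_mem ?_)
    have h2 := D.mem_T_of (ψ := ψ * D.Mv q q4) (q := q4) (q3 := q4)
      (x := rename ⇑(c' * c) u) (u := rename ⇑(c' * c) a) (S := D.St (rename ⇑(c' * c) u)) le_rfl
      ((mem_members_rename _).2 ha')
      (by rwa [D.St_rename (hSZ hcc)]) (by rwa [D.St_rename (hSZ hcc)])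
    rwa [D.Mv_self, mul_one] at h2

/-- Elements of the transitive closure of `T ψ q x` come from those of `x`. -/
theorem tc_T_elim {B K : ℕ} (hL : D.Large B K) {E : Finset (HF A)} (hE : E.card + 2 ≤ K)
    (okE : ∀ y ∈ E, Ok R0 B y) {ψ : Equiv.Perm A} {q : D.Pos}
    (hq : q ∈ D.C (SS D.Z (E : Set (HF A)))) {x : HF A} (okx : Ok R0 B x)
    (hS : SS D.Z (E : Set (HF A)) ≤ D.St x) {w : HF A} (hw : w ∈ tcF (D.T ψ q x)) :
    ∃ y ∈ tcF x, ∃ q3, q3 ∈ D.C (SS D.Z (E : Set (HF A))) ∧ q3 ∈ D.C (D.St y) ∧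
      w = D.T (ψ * D.Mv q q3) q3 y := by
  set S := SS D.Z (E : Set (HF A)) with hSdef
  have hSZ : S ≤ D.Z := SS_le _ _
  have hw' := mem_tcF_iff_transGen.1 hw
  refine Relation.TransGen.head_induction_on
    (motive := fun w _ => ∃ y ∈ tcF x, ∃ q3, q3 ∈ D.C S ∧ q3 ∈ D.C (D.St y) ∧
      w = D.T (ψ * D.Mv q q3) q3 y) hw' ?_ ?_
  · intro a ha
    have ha' : a ∈ members (D.T ψ q x) := ha
    obtain ⟨v, hv, q3, h3, h3v, e⟩ := D.mem_T_rep hS hq ha' (fun u hu =>
      ⟨_, (hL.pick_spec (by omega) okE (okx.of_mem hu) q).1,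
        (hL.pick_spec (by omega) okE (okx.of_mem hu) q).2⟩)
    exact ⟨v, mem_tcF_of_mem hv, q3, h3, h3v, e⟩
  · intro a b ha _ ih
    obtain ⟨y, hy, q3, h3, h3y, rfl⟩ := ih
    have ha' : a ∈ members (D.T (ψ * D.Mv q q3) q3 y) := ha
    have oky := okx.of_tc hy
    obtain ⟨v, hv, q5, h5, h5y, h5v, e⟩ := D.mem_T_rep2 (fun q5 => q5 ∈ D.C S) h3y ha' (by
      intro u hu
      have oku := oky.of_mem hu
      have hL2 := hL (insert u (insert y E)) (by
        refine (Finset.card_insert_le _ _).trans ?_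
        have := Finset.card_insert_le y E
        omega) (by
        intro z hz
        simp only [Finset.mem_insert] at hz
        rcases hz with rfl | rfl | hz
        · exact oku
        · exact oky
        · exact okE z hz)
      obtain ⟨q4, hq4⟩ := hL2
      exact ⟨q4, D.C_mono (SS_anti (by intro y hy; simp [Finset.mem_coe.1 hy])) hq4,
        D.C_mono (D.SS_le_St (by simp)) hq4, D.C_mono (D.SS_le_St (by simp)) hq4⟩)
    have hc := D.cocycle S q q3 q5 hq h3 h5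
    have hcZ := hSZ hc
    refine ⟨rename ⇑(D.Mv q q3 * D.Mv q3 q5 * (D.Mv q q5)⁻¹) v, ?_, q5, h5, ?_, ?_⟩
    · apply mem_tcF_rename_of_fix _ ((D.mem_St).1 (hS hc)).2
      exact tcF_trans hy (mem_tcF_of_mem hv)
    · rwa [D.St_rename hcZ]
    · rw [e, ← D.T_mul_Z v _ _ hcZ]
      congr 1
      have h2 : D.Mv q q5 * (D.Mv q q3 * D.Mv q3 q5 * (D.Mv q q5)⁻¹) = D.Mv q q3 * D.Mv q3 q5 := by
        rw [D.Mv_Z q q5 _ hcZ]; group
      calc ψ * D.Mv q q3 * D.Mv q3 q5 = ψ * (D.Mv q q3 * D.Mv q3 q5) := by group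
        _ = ψ * (D.Mv q q5 * (D.Mv q q3 * D.Mv q3 q5 * (D.Mv q q5)⁻¹)) := by rw [h2]
        _ = _ := by group

/-- `T` preserves the size of the transitive closure. -/
theorem tcSize_T {B K : ℕ} (hL : D.Large B K) (hK : 4 ≤ K) {E : Finset (HF A)}
    (hE : E.card + 2 ≤ K) (okE : ∀ y ∈ E, Ok R0 B y) {ψ : Equiv.Perm A} {q : D.Pos} (hψ : D.Val ψ q)
    (hq : q ∈ D.C (SS D.Z (E : Set (HF A)))) {x : HF A} (okx : Ok R0 B x)
    (hS : SS D.Z (E : Set (HF A)) ≤ D.St x) : tcSize (D.T ψ q x) = tcSize x := by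
  set S := SS D.Z (E : Set (HF A)) with hSdef
  have hSZ : S ≤ D.Z := SS_le _ _
  have himg : tcF (D.T ψ q x) = (tcF x).image (D.BB S ψ q) := by
    ext w
    rw [Finset.mem_image]
    constructor
    · intro hw
      obtain ⟨y, hy, q3, h3, h3y, rfl⟩ := D.tc_T_elim hL hE okE hq okx hS hw
      obtain ⟨p1, p2⟩ := hL.pick_spec (E := E) (u := y) (by omega) okE (okx.of_tc hy) q
      obtain ⟨c, hc, e⟩ := D.T_move hSZ ψ hq h3 p1 h3y p2
      refine ⟨rename ⇑c y, mem_tcF_rename_of_fix c ((D.mem_St).1 (hS hc)).2 hy, ?_⟩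
      unfold BB
      rw [D.St_rename (hSZ hc)]
      exact e.symm
    · rintro ⟨y, hy, rfl⟩
      obtain ⟨p1, p2⟩ := hL.pick_spec (E := E) (u := y) (by omega) okE (okx.of_tc hy) q
      have := D.tc_T_of (ψ := ψ) hL hE okE hq okx hS hy 1 S.one_mem _ p1 p2
      rwa [show rename ⇑(1 : Equiv.Perm A) y = y from rename_one y] at this
  rw [tcSize_eq, tcSize_eq, himg]
  refine Finset.card_image_of_injOn fun u hu u' hu' h => ?_
  exact D.BB_injOn hL hK hE okE hψ hq (okx.of_tc hu) (okx.of_tc hu') h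

end TData

end Crest.Agent.CPTL
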