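/-
  Basic facts on the evaluation of plain terms: unfolding, equivariance, definability in the
  environment, orbit bounds.
-/
import Crest.Agent.Lib.CPTL.TInj

set_option autoImplicit false
set_option linter.unusedSectionVars false

noncomputable section
open Classical

namespace Crest.Agent.CPTL

open Crest.LogicCS.HFSet Crest.LogicCS.CPT

variable {σ A : Type} [Fintype A]

/-! ### theOnly -/

/-- Value of `theOnly`. -/
def theOnlyV (x : HF A) : HF A := if h : ∃ y, members x = {y} then Classical.choose h else empty

theorem theOnlyV_of {x y : HF A} (h : members x = {y}) : theOnlyV x = y := by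
  have hh : ∃ y, members x = {y} := ⟨y, h⟩
  unfold theOnlyV
  rw [dif_pos hh]
  have := Classical.choose_spec hh
  exact Finset.singleton_injective (this.symm.trans h)

theorem theOnlyV_neg {x : HF A} (h : ¬ ∃ y, members x = {y}) : theOnlyV x = empty := by
  unfold theOnlyV
  rw [dif_neg h]

theorem theOnlyV_rename (g : Equiv.Perm A) (x : HF A) :
    theOnlyV (rename ⇑g x) = rename ⇑g (theOnlyV x) := by
  by_cases h : ∃ y, members x = {y}
  · obtain ⟨y, hy⟩ := h
    rw [theOnlyV_of hy, theOnlyV_of (y := rename ⇑g y)]
    rw [members_rename, hy, Finset.image_singleton]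
  · rw [theOnlyV_neg h, theOnlyV_neg, rename_empty]
    rintro ⟨y, hy⟩
    apply h
    refine ⟨rename ⇑(g⁻¹) y, ?_⟩
    have : x = rename ⇑(g⁻¹) (rename ⇑g x) := (rename_perm_inv_cancel' g x).symm
    rw [this, members_rename, hy, Finset.image_singleton]

/-- all atoms -/
def allAtoms (A : Type) [Fintype A] : HF A := ofFinset (Finset.univ.image (atom : A → HF A))

theorem rename_allAtoms (g : Equiv.Perm A) : rename ⇑g (allAtoms A) = allAtoms A := by
  unfold allAtoms
  rw [rename_ofFinset, Finset.image_image]
  congr 1
  ext u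
  simp only [Finset.mem_image, Finset.mem_univ, true_and, Function.comp_apply, rename_atom]
  constructor
  · rintro ⟨a, rfl⟩; exact ⟨g a, rfl⟩
  · rintro ⟨a, rfl⟩; exact ⟨g⁻¹ a, by simp⟩

theorem mem_allAtoms {u : HF A} : u ∈ members (allAtoms A) ↔ ∃ a, u = atom a := by
  unfold allAtoms
  simp [eq_comm]

/-! ### Unfolding the evaluation -/

section Unfold
variable (R : σ → A → A → Bool) (p : ℕ) {n : ℕ} (e : Fin n → HF A)

@[simp] theorem eval_var (i : Fin n) : (Term.var i : Term σ n).eval R p e = some (e i) := by
  simp [Term.eval]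

@[simp] theorem eval_empty : (Term.empty : Term σ n).eval R p e = some empty := by
  simp [Term.eval]

@[simp] theorem eval_atoms : (Term.atoms : Term σ n).eval R p e = some (allAtoms A) := by
  simp [Term.eval, allAtoms]

theorem eval_pair (s t : Term σ n) : (Term.pair s t).eval R p e =
    (s.eval R p e).bind fun x => (t.eval R p e).map fun y => ofFinset {x, y} := by
  simp [Term.eval]

theorem eval_union (t : Term σ n) : (Term.union t).eval R p e =
    (t.eval R p e).map fun x => ofFinset ((members x).biUnion members) := by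
  simp [Term.eval]

theorem eval_theOnly (t : Term σ n) : (Term.theOnly t).eval R p e =
    (t.eval R p e).map theOnlyV := by
  simp [Term.eval]; rfl

theorem eval_card (t : Term σ n) : (Term.card t).eval R p e =
    (t.eval R p e).map fun x => ordinal (members x).card := by
  simp [Term.eval]

theorem eval_compr (r : Term σ n) (g : Formula σ (n + 1)) (b : Term σ (n + 1)) :
    (Term.compr r g b).eval R p e = (r.eval R p e).bind fun x =>
      comprValue x (fun u => g.eval R p (Fin.cons u e)) (fun u => b.eval R p (Fin.cons u e)) := by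
  simp [Term.eval]

theorem eval_iter (s : Term σ (n + 1)) : (Term.iter s).eval R p e =
    iterValue p fun x => s.eval R p (Fin.cons x e) := by
  simp [Term.eval]

theorem eval_eq (s t : Term σ n) : (Formula.eq s t).eval R p e =
    (s.eval R p e).bind fun x => (t.eval R p e).map fun y => decide (x = y) := by
  simp [Formula.eval]

theorem eval_rel (r : σ) (s t : Term σ n) : (Formula.rel r s t).eval R p e =
    (s.eval R p e).bind fun x => (t.eval R p e).map fun y => decide (RelHolds R r x y) := by
  simp [Formula.eval]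

theorem eval_not (φ : Formula σ n) : (Formula.not φ).eval R p e = (φ.eval R p e).map fun a => !a := by
  simp [Formula.eval]

theorem eval_and (φ ψ : Formula σ n) : (Formula.and φ ψ).eval R p e =
    (φ.eval R p e).bind fun a => (ψ.eval R p e).map fun b => a && b := by
  simp [Formula.eval]

theorem eval_or (φ ψ : Formula σ n) : (Formula.or φ ψ).eval R p e =
    (φ.eval R p e).bind fun a => (ψ.eval R p e).map fun b => a || b := by
  simp [Formula.eval]

end Unfold

/-- The value of a comprehension when nothing fails. -/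
theorem comprValue_of_some {x : HF A} {guard : HF A → Option Bool} {body : HF A → Option (HF A)}
    (gv : HF A → Bool) (bv : HF A → HF A)
    (hg : ∀ u ∈ members x, guard u = some (gv u))
    (hb : ∀ u ∈ members x, gv u = true → body u = some (bv u)) :
    comprValue x guard body =
      some (ofFinset (((members x).filter fun u => gv u = true).image bv)) := by
  unfold comprValue
  rw [if_neg]
  · congr 2
    ext w
    simp only [Finset.mem_image, Finset.mem_filter]
    constructor
    · rintro ⟨u, ⟨hu, h1⟩, rfl⟩
      rw [hg u hu] at h1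
      have h1' : gv u = true := by simpa using h1
      exact ⟨u, ⟨hu, h1'⟩, by rw [hb u hu h1']; rfl⟩
    · rintro ⟨u, ⟨hu, h1⟩, rfl⟩
      exact ⟨u, ⟨hu, by rw [hg u hu, h1]⟩, by rw [hb u hu h1]; rfl⟩
  · rintro ⟨u, hu, h | ⟨h1, h2⟩⟩
    · rw [hg u hu] at h; simp at h
    · rw [hg u hu] at h1
      have h1' : gv u = true := by simpa using h1
      rw [hb u hu h1'] at h2; simp at h2

/-! ### Equivariance -/

theorem RelHolds_rename {R : σ → A → A → Bool} {g : Equiv.Perm A} (hg : IsAut R g) (r : σ)
    (x y : HF A) : RelHolds R r (rename ⇑g x) (rename ⇑g y) ↔ RelHolds R r x y := by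
  constructor
  · rintro ⟨a, b, hx, hy, h⟩
    have hx' : IsAtom x := rename_isAtom_iff.1 ⟨a, hx⟩
    have hy' : IsAtom y := rename_isAtom_iff.1 ⟨b, hy⟩
    obtain ⟨a', rfl⟩ := hx'
    obtain ⟨b', rfl⟩ := hy'
    simp only [rename_atom, atom_inj] at hx hy
    subst hx hy
    exact ⟨a', b', rfl, rfl, by rw [← hg r]; exact h⟩
  · rintro ⟨a, b, rfl, rfl, h⟩
    exact ⟨g a, g b, by simp, by simp, by rw [hg r]; exact h⟩

theorem comprValue_rename (g : Equiv.Perm A) (x : HF A) (guard guard' : HF A → Option Bool)
    (body body' : HF A → Option (HF A)) (hg : ∀ u, guard' (rename ⇑g u) = guard u)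
    (hb : ∀ u, body' (rename ⇑g u) = (body u).map (rename ⇑g)) :
    comprValue (rename ⇑g x) guard' body' = (comprValue x guard body).map (rename ⇑g) := by
  unfold comprValue
  by_cases h : ∃ u ∈ members x, guard u = none ∨ (guard u = some true ∧ body u = none)
  · rw [if_pos h, if_pos]
    · rfl
    · obtain ⟨u, hu, h1⟩ := h
      refine ⟨rename ⇑g u, (mem_members_rename g).2 hu, ?_⟩
      rw [hg, hb]
      rcases h1 with h1 | ⟨h1, h2⟩
      · exact Or.inl h1
      · exact Or.inr ⟨h1, by rw [h2]; rfl⟩
  · rw [if_neg h, if_neg]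
    · simp only [Option.map_some, rename_ofFinset, Option.some.injEq]
      congr 1
      ext w
      simp only [Finset.mem_image, Finset.mem_filter]
      constructor
      · rintro ⟨v, ⟨hv, h1⟩, rfl⟩
        rw [members_rename, Finset.mem_image] at hv
        obtain ⟨u, hu, rfl⟩ := hv
        rw [hg] at h1
        refine ⟨(body u).getD empty, ⟨u, ⟨hu, h1⟩, rfl⟩, ?_⟩
        rw [hb]
        have hne : body u ≠ none := fun h2 => h ⟨u, hu, Or.inr ⟨h1, h2⟩⟩
        obtain ⟨b, hb'⟩ := Option.ne_none_iff_exists'.1 hne
        rw [hb']; rfl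
      · rintro ⟨_, ⟨u, ⟨hu, h1⟩, rfl⟩, rfl⟩
        refine ⟨rename ⇑g u, ⟨(mem_members_rename g).2 hu, by rw [hg]; exact h1⟩, ?_⟩
        rw [hb]
        have hne : body u ≠ none := fun h2 => h ⟨u, hu, Or.inr ⟨h1, h2⟩⟩
        obtain ⟨b, hb'⟩ := Option.ne_none_iff_exists'.1 hne
        rw [hb']; rfl
    · rintro ⟨v, hv, h1⟩
      rw [members_rename, Finset.mem_image] at hv
      obtain ⟨u, hu, rfl⟩ := hv
      rw [hg, hb] at h1
      apply h
      refine ⟨u, hu, ?_⟩
      rcases h1 with h1 | ⟨h1, h2⟩
      · exact Or.inl h1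
      · refine Or.inr ⟨h1, ?_⟩
        simpa using h2

theorem iterFrom_rename (p : ℕ) (g : Equiv.Perm A) (step step' : HF A → Option (HF A))
    (h : ∀ x, step' (rename ⇑g x) = (step x).map (rename ⇑g)) (k : ℕ) (x : HF A) :
    iterFrom p step' k (rename ⇑g x) = (iterFrom p step k x).map (rename ⇑g) := by
  induction k generalizing x with
  | zero => simp [iterFrom, rename_empty]
  | succ k ih =>
    unfold iterFrom
    rw [tcSize_rename]
    by_cases hx : tcSize x ≤ p
    · rw [if_pos hx, if_pos hx, h]
      cases hs : step x with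
      | none => simp
      | some y =>
        simp only [Option.map_some, Option.bind_some, rename_perm_inj]
        by_cases hy : y = x
        · simp [hy]
        · simp only [hy, if_false]
          exact ih y
    · rw [if_neg hx, if_neg hx]
      simp [rename_empty]

theorem cons_rename {n : ℕ} (g : Equiv.Perm A) (u : HF A) (e : Fin n → HF A) :
    (Fin.cons (rename ⇑g u) (fun i => rename ⇑g (e i)) : Fin (n + 1) → HF A) =
      fun j => rename ⇑g ((Fin.cons u e : Fin (n + 1) → HF A) j) := by
  funext j
  refine Fin.cases ?_ (fun i => ?_) j <;> simp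

section Equivariance

variable {R : σ → A → A → Bool} (p : ℕ) {g : Equiv.Perm A}

/-- Motive of equivariance for terms. -/
def EqvT (R : σ → A → A → Bool) (p : ℕ) (g : Equiv.Perm A) {n : ℕ} (t : Term σ n) : Prop :=
  t.wscCount = 0 → ∀ e : Fin n → HF A,
    t.eval R p (fun i => rename ⇑g (e i)) = (t.eval R p e).map (rename ⇑g)

/-- Motive of equivariance for formulas. -/
def EqvF (R : σ → A → A → Bool) (p : ℕ) (g : Equiv.Perm A) {n : ℕ} (φ : Formula σ n) : Prop :=
  φ.wscCount = 0 → ∀ e : Fin n → HF A,
    φ.eval R p (fun i => rename ⇑g (e i)) = φ.eval R p e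

theorem eqv_all (hg : IsAut R g) :
    (∀ (n : ℕ) (t : Term σ n), EqvT R p g t) ∧ (∀ (n : ℕ) (φ : Formula σ n), EqvF R p g φ) := by
  have hvar : ∀ {n : ℕ} (i : Fin n), EqvT R p g (Term.var i : Term σ n) := by
    intro n i _ e; simp
  have hemp : ∀ {n : ℕ}, EqvT R p g (Term.empty : Term σ n) := by
    intro n _ e; simp [rename_empty]
  have hato : ∀ {n : ℕ}, EqvT R p g (Term.atoms : Term σ n) := by
    intro n _ e; simp [rename_allAtoms]
  have hpair : ∀ {n : ℕ} (s t : Term σ n), EqvT R p g s → EqvT R p g t → EqvT R p g (Term.pair s t) := by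
    intro n s t hs ht h e
    have h1 : s.wscCount = 0 := by simp only [Term.wscCount] at h; omega
    have h2 : t.wscCount = 0 := by simp only [Term.wscCount] at h; omega
    rw [eval_pair, eval_pair, hs h1, ht h2]
    cases s.eval R p e with
    | none => simp
    | some a =>
      cases t.eval R p e with
      | none => simp
      | some b => simp [Finset.image_insert]
  have hunion : ∀ {n : ℕ} (t : Term σ n), EqvT R p g t → EqvT R p g (Term.union t) := by
    intro n t ht h e
    have h1 : t.wscCount = 0 := by simpa only [Term.wscCount] using h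
    rw [eval_union, eval_union, ht h1]
    cases t.eval R p e with
    | none => simp
    | some x =>
      simp only [Option.map_some, rename_ofFinset, Option.some.injEq, ofFinset_inj, members_rename,
        Finset.image_biUnion, Finset.biUnion_image]
  have hthe : ∀ {n : ℕ} (t : Term σ n), EqvT R p g t → EqvT R p g (Term.theOnly t) := by
    intro n t ht h e
    have h1 : t.wscCount = 0 := by simpa only [Term.wscCount] using h
    rw [eval_theOnly, eval_theOnly, ht h1]
    cases t.eval R p e with
    | none => simp
    | some x => simp [theOnlyV_rename]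
  have hcard : ∀ {n : ℕ} (t : Term σ n), EqvT R p g t → EqvT R p g (Term.card t) := by
    intro n t ht h e
    have h1 : t.wscCount = 0 := by simpa only [Term.wscCount] using h
    rw [eval_card, eval_card, ht h1]
    cases t.eval R p e with
    | none => simp
    | some x =>
      simp only [Option.map_some, members_rename, rename_ordinal]
      rw [Finset.card_image_of_injective _ (rename_perm_injective g)]
  have hcompr : ∀ {n : ℕ} (r : Term σ n) (gd : Formula σ (n + 1)) (b : Term σ (n + 1)),
      EqvT R p g r → EqvF R p g gd → EqvT R p g b → EqvT R p g (Term.compr r gd b) := by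
    intro n r gd b hr hgd hb h e
    have h1 : r.wscCount = 0 := by simp only [Term.wscCount] at h; omega
    have h2 : gd.wscCount = 0 := by simp only [Term.wscCount] at h; omega
    have h3 : b.wscCount = 0 := by simp only [Term.wscCount] at h; omega
    rw [eval_compr, eval_compr, hr h1]
    cases r.eval R p e with
    | none => simp
    | some x =>
      simp only [Option.map_some, Option.bind_some]
      refine comprValue_rename g x _ _ _ _ (fun u => ?_) (fun u => ?_)
      · rw [cons_rename, hgd h2]
      · rw [cons_rename, hb h3]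
  have hiter : ∀ {n : ℕ} (s : Term σ (n + 1)), EqvT R p g s → EqvT R p g (Term.iter s) := by
    intro n s hs h e
    have h1 : s.wscCount = 0 := by simpa only [Term.wscCount] using h
    rw [eval_iter, eval_iter]
    unfold iterValue
    have := iterFrom_rename p g (fun x => s.eval R p (Fin.cons x e))
      (fun x => s.eval R p (Fin.cons x (fun i => rename ⇑g (e i))))
      (fun x => by rw [cons_rename, hs h1]) (p + 1) empty
    rwa [rename_empty] at this
  have heq : ∀ {n : ℕ} (s t : Term σ n), EqvT R p g s → EqvT R p g t → EqvF R p g (Formula.eq s t) := by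
    intro n s t hs ht h e
    have h1 : s.wscCount = 0 := by simp only [Formula.wscCount] at h; omega
    have h2 : t.wscCount = 0 := by simp only [Formula.wscCount] at h; omega
    rw [eval_eq, eval_eq, hs h1, ht h2]
    cases s.eval R p e with
    | none => simp
    | some a =>
      cases t.eval R p e with
      | none => simp
      | some b => simp
  have hrel : ∀ {n : ℕ} (r : σ) (s t : Term σ n), EqvT R p g s → EqvT R p g t →
      EqvF R p g (Formula.rel r s t) := by
    intro n r s t hs ht h e
    have h1 : s.wscCount = 0 := by simp only [Formula.wscCount] at h; omega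
    have h2 : t.wscCount = 0 := by simp only [Formula.wscCount] at h; omega
    rw [eval_rel, eval_rel, hs h1, ht h2]
    cases s.eval R p e with
    | none => simp
    | some a =>
      cases t.eval R p e with
      | none => simp
      | some b => simp [RelHolds_rename hg]
  have hnot : ∀ {n : ℕ} (φ : Formula σ n), EqvF R p g φ → EqvF R p g (Formula.not φ) := by
    intro n φ hφ h e
    have h1 : φ.wscCount = 0 := by simpa only [Formula.wscCount] using h
    rw [eval_not, eval_not, hφ h1]
  have hand : ∀ {n : ℕ} (φ ψ : Formula σ n), EqvF R p g φ → EqvF R p g ψ → EqvF R p g (Formula.and φ ψ) := by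
    intro n φ ψ hφ hψ h e
    have h1 : φ.wscCount = 0 := by simp only [Formula.wscCount] at h; omega
    have h2 : ψ.wscCount = 0 := by simp only [Formula.wscCount] at h; omega
    rw [eval_and, eval_and, hφ h1, hψ h2]
  have hor : ∀ {n : ℕ} (φ ψ : Formula σ n), EqvF R p g φ → EqvF R p g ψ → EqvF R p g (Formula.or φ ψ) := by
    intro n φ ψ hφ hψ h e
    have h1 : φ.wscCount = 0 := by simp only [Formula.wscCount] at h; omega
    have h2 : ψ.wscCount = 0 := by simp only [Formula.wscCount] at h; omega
    rw [eval_or, eval_or, hφ h1, hψ h2]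
  have hwsc : ∀ {n : ℕ} (s : Term σ (n + 2)) (c : Term σ (n + 1)) (w : Term σ (n + 2))
      (o : Formula σ (n + 1)), EqvF R p g (Formula.wsc s c w o) := by
    intro n s c w o h
    simp [Formula.wscCount] at h
  exact ⟨fun n t => Term.rec (motive_1 := fun n t => EqvT R p g t)
      (motive_2 := fun n φ => EqvF R p g φ)
      (fun i => hvar i) hemp hato (fun s t h1 h2 => hpair s t h1 h2) (fun t h => hunion t h)
      (fun t h => hthe t h) (fun t h => hcard t h)
      (fun r gd b h1 h2 h3 => hcompr r gd b h1 h2 h3) (fun s h => hiter s h)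
      (fun s t h1 h2 => heq s t h1 h2) (fun r s t h1 h2 => hrel r s t h1 h2)
      (fun φ h => hnot φ h) (fun φ ψ h1 h2 => hand φ ψ h1 h2) (fun φ ψ h1 h2 => hor φ ψ h1 h2)
      (fun s c w o _ _ _ _ => hwsc s c w o) t,
    fun n φ => Formula.rec (motive_1 := fun n t => EqvT R p g t)
      (motive_2 := fun n φ => EqvF R p g φ)
      (fun i => hvar i) hemp hato (fun s t h1 h2 => hpair s t h1 h2) (fun t h => hunion t h)
      (fun t h => hthe t h) (fun t h => hcard t h)
      (fun r gd b h1 h2 h3 => hcompr r gd b h1 h2 h3) (fun s h => hiter s h)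
      (fun s t h1 h2 => heq s t h1 h2) (fun r s t h1 h2 => hrel r s t h1 h2)
      (fun φ h => hnot φ h) (fun φ ψ h1 h2 => hand φ ψ h1 h2) (fun φ ψ h1 h2 => hor φ ψ h1 h2)
      (fun s c w o _ _ _ _ => hwsc s c w o) φ⟩

end Equivariance

theorem term_eval_rename {R : σ → A → A → Bool} (p : ℕ) {g : Equiv.Perm A} (hg : IsAut R g) {n : ℕ}
    {t : Term σ n} (ht : t.wscCount = 0) (e : Fin n → HF A) :
    t.eval R p (fun i => rename ⇑g (e i)) = (t.eval R p e).map (rename ⇑g) :=
  (eqv_all p hg).1 n t ht e

theorem formula_eval_rename {R : σ → A → A → Bool} (p : ℕ) {g : Equiv.Perm A} (hg : IsAut R g) {n : ℕ}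
    {φ : Formula σ n} (ht : φ.wscCount = 0) (e : Fin n → HF A) :
    φ.eval R p (fun i => rename ⇑g (e i)) = φ.eval R p e :=
  (eqv_all p hg).2 n φ ht e

/-! ### Definability in the environment, orbit bounds -/

/-- `x` is determined, as far as automorphisms go, by the environment `e`. -/
def Def (R : σ → A → A → Bool) {n : ℕ} (e : Fin n → HF A) (x : HF A) : Prop :=
  ∀ g g' : Equiv.Perm A, IsAut R g → IsAut R g' → (∀ i, rename ⇑g (e i) = rename ⇑g' (e i)) →
    rename ⇑g x = rename ⇑g' x

theorem def_of_term {R : σ → A → A → Bool} (p : ℕ) {n : ℕ} {t : Term σ n} (ht : t.wscCount = 0)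
    {e : Fin n → HF A} {v : HF A} (hv : t.eval R p e = some v) : Def R e v := by
  intro g g' hg hg' h
  have h1 := term_eval_rename p hg ht e
  have h2 := term_eval_rename p hg' ht e
  have h3 : (fun i => rename ⇑g (e i)) = fun i => rename ⇑g' (e i) := funext h
  rw [h3, h2, hv] at h1
  simpa using h1.symm

theorem card_image_le_of_factor {α β γ : Type} [DecidableEq β] [DecidableEq γ] (s : Finset α)
    (f : α → β) (h : α → γ)
    (H : ∀ a ∈ s, ∀ b ∈ s, h a = h b → f a = f b) : (s.image f).card ≤ (s.image h).card := by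
  have key : ∀ b : ↥(s.image f), ∃ a ∈ s, f a = b.1 := fun b => Finset.mem_image.1 b.2
  choose k hk1 hk2 using key
  let F : ↥(s.image f) → ↥(s.image h) := fun b =>
    ⟨h (k b), Finset.mem_image_of_mem h (hk1 b)⟩
  have hF : Function.Injective F := by
    intro b b' hbb
    have h1 : h (k b) = h (k b') := congrArg Subtype.val hbb
    have h2 := H _ (hk1 b) _ (hk1 b') h1
    apply Subtype.ext
    rw [← hk2 b, ← hk2 b', h2]
  simpa using Fintype.card_le_of_injective F hF

theorem orb_le_prod {R : σ → A → A → Bool} {n : ℕ} {e : Fin n → HF A} {x : HF A} (hd : Def R e x) :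
    orb R x ≤ ∏ i, orb R (e i) := by
  unfold orb orbOf
  refine (card_image_le_of_factor _ _ (fun g : Equiv.Perm A => fun i => rename ⇑g (e i)) ?_).trans ?_
  · intro g hg g' hg' h
    simp only [Finset.mem_filter, Finset.mem_univ, true_and] at hg hg'
    exact hd g g' hg hg' (fun i => congrFun h i)
  · have : (Finset.univ.filter fun g : Equiv.Perm A => IsAut R g).image
        (fun g : Equiv.Perm A => fun i => rename ⇑g (e i)) ⊆
        Fintype.piFinset fun i => (orbOf R (e i)) := by
      intro f hf
      obtain ⟨g, hg, rfl⟩ := Finset.mem_image.1 hf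
      refine Fintype.mem_piFinset.2 fun i => ?_
      exact Finset.mem_image_of_mem _ hg
    refine (Finset.card_le_card this).trans ?_
    rw [Fintype.card_piFinset]
    rfl

theorem orb_tc_le {R : σ → A → A → Bool} {x y : HF A} (hy : y ∈ tcF x) :
    orb R y ≤ orb R x * tcSize x := by
  have hsub : orbOf R y ⊆ (orbOf R x).biUnion tcF := by
    intro w hw
    obtain ⟨g, hg, rfl⟩ := Finset.mem_image.1 hw
    refine Finset.mem_biUnion.2 ⟨rename ⇑g x, Finset.mem_image_of_mem _ hg, ?_⟩
    rw [tcF_rename]
    exact Finset.mem_image_of_mem _ hy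
  refine (Finset.card_le_card hsub).trans ?_
  refine Finset.card_biUnion_le_card_mul _ _ _ fun x' hx' => ?_
  obtain ⟨g, _, rfl⟩ := Finset.mem_image.1 hx'
  rw [← tcSize_eq, tcSize_rename]

theorem ok_of_def {R : σ → A → A → Bool} {n : ℕ} {e : Fin n → HF A} {x : HF A} {B W : ℕ} (hB : 1 ≤ B)
    (he : ∀ i, orb R (e i) ≤ B) (hd : Def R e x) (hW : tcSize x ≤ W) :
    Ok R (B ^ n * (W + 1)) x := by
  have h1 : orb R x ≤ B ^ n := by
    refine (orb_le_prod hd).trans ?_
    calc ∏ i, orb R (e i) ≤ ∏ _i : Fin n, B := Finset.prod_le_prod' fun i _ => he i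
      _ = B ^ n := by simp
  have h2 : 1 ≤ B ^ n := Nat.one_le_pow _ _ hB
  refine ⟨?_, ?_, fun y hy => ?_⟩
  · nlinarith
  · nlinarith
  · have := orb_tc_le (R := R) hy
    have h3 : orb R x * tcSize x ≤ B ^ n * W := Nat.mul_le_mul h1 hW
    nlinarith

theorem def_rename_eq {R : σ → A → A → Bool} {n : ℕ} {e : Fin n → HF A} {x : HF A} (hd : Def R e x)
    {z : Equiv.Perm A} (hz : IsAut R z) (hfix : ∀ i, rename ⇑z (e i) = e i) : rename ⇑z x = x := by
  have := hd z 1 hz (isAut_one R) (fun i => by rw [hfix i, rename_one])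
  rwa [rename_one] at this

theorem def_const_of_fixed {R : σ → A → A → Bool} {n : ℕ} {e : Fin n → HF A} {x : HF A}
    (h : ∀ g : Equiv.Perm A, rename ⇑g x = x) : Def R e x := fun g g' _ _ _ => by
  rw [h g, h g']

theorem def_cons_elim {R : σ → A → A → Bool} {n : ℕ} {e : Fin n → HF A} {x y : HF A}
    (hx : Def R e x) (hy : Def R (Fin.cons x e : Fin (n + 1) → HF A) y) : Def R e y := by
  intro g g' hg hg' h
  refine hy g g' hg hg' fun i => ?_
  refine Fin.cases ?_ (fun j => ?_) i
  · simpa using hx g g' hg hg' h
  · simpa using h j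

end Crest.Agent.CPTL
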