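/-
  Pairwise commuting pairs of permutations: the number of commutators moving an object is bounded by
  the logarithm of its orbit.
-/
import Crest.Agent.Lib.CPTL.HF

set_option autoImplicit false
set_option linter.unusedSectionVars false

noncomputable section
open Classical

namespace Crest.Agent.CPTL

open Crest.LogicCS.HFSet

variable {A ι : Type} [Fintype A]

/-- The subgroup generated by a part of the family. -/
def genU (a b : ι → Equiv.Perm A) (D : Finset ι) : Subgroup (Equiv.Perm A) :=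
  Subgroup.closure {g | ∃ j ∈ D, g = a j ∨ g = b j}

theorem genU_mono (a b : ι → Equiv.Perm A) {D D' : Finset ι} (h : D ⊆ D') : genU a b D ≤ genU a b D' :=
  Subgroup.closure_mono fun _ ⟨j, hj, hg⟩ => ⟨j, h hj, hg⟩

theorem mem_genU_a (a b : ι → Equiv.Perm A) {D : Finset ι} {j : ι} (h : j ∈ D) : a j ∈ genU a b D :=
  Subgroup.subset_closure ⟨j, h, Or.inl rfl⟩

theorem mem_genU_b (a b : ι → Equiv.Perm A) {D : Finset ι} {j : ι} (h : j ∈ D) : b j ∈ genU a b D :=
  Subgroup.subset_closure ⟨j, h, Or.inr rfl⟩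

theorem genU_le (a b : ι → Equiv.Perm A) {D : Finset ι} {Γ : Subgroup (Equiv.Perm A)}
    (h : ∀ j ∈ D, a j ∈ Γ ∧ b j ∈ Γ) : genU a b D ≤ Γ := by
  refine (Subgroup.closure_le _).2 ?_
  rintro _ ⟨j, hj, rfl | rfl⟩
  · exact (h j hj).1
  · exact (h j hj).2

/-- An element commuting with the generators commutes with the generated group. -/
theorem genU_commute (a b : ι → Equiv.Perm A) {D : Finset ι} {w : Equiv.Perm A}
    (h : ∀ j ∈ D, w * a j = a j * w ∧ w * b j = b j * w) {g : Equiv.Perm A} (hg : g ∈ genU a b D) :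
    w * g = g * w := by
  have h0 : genU a b D ≤ Subgroup.centralizer {w} := by
    refine (Subgroup.closure_le _).2 ?_
    rintro _ ⟨j, hj, rfl | rfl⟩
    · rw [SetLike.mem_coe, Subgroup.mem_centralizer_iff]
      intro x hx
      rw [Set.mem_singleton_iff] at hx
      subst hx
      exact (h j hj).1
    · rw [SetLike.mem_coe, Subgroup.mem_centralizer_iff]
      intro x hx
      rw [Set.mem_singleton_iff] at hx
      subst hx
      exact (h j hj).2
  exact (Subgroup.mem_centralizer_iff.1 (h0 hg)) w rfl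

/-- The family is pairwise commuting. -/
def PairComm (I : Finset ι) (a b : ι → Equiv.Perm A) : Prop :=
  ∀ i ∈ I, ∀ j ∈ I, i ≠ j → a i * a j = a j * a i ∧ a i * b j = b j * a i ∧ b i * b j = b j * b i

theorem genU_comm_gen {I : Finset ι} {a b : ι → Equiv.Perm A} (hc : PairComm I a b) {D : Finset ι}
    (hD : D ⊆ I) {i : ι} (hi : i ∈ I) (hiD : i ∉ D) {g : Equiv.Perm A} (hg : g ∈ genU a b D) :
    a i * g = g * a i ∧ b i * g = g * b i := by
  constructor
  · refine genU_commute a b (fun j hj => ?_) hg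
    have hne : i ≠ j := fun h => hiD (h ▸ hj)
    exact ⟨(hc i hi j (hD hj) hne).1, (hc i hi j (hD hj) hne).2.1⟩
  · refine genU_commute a b (fun j hj => ?_) hg
    have hne : i ≠ j := fun h => hiD (h ▸ hj)
    exact ⟨(hc j (hD hj) i hi hne.symm).2.1.symm, (hc i hi j (hD hj) hne).2.2⟩

theorem genU_comm_disjoint {I : Finset ι} {a b : ι → Equiv.Perm A} (hc : PairComm I a b) {D₁ D₂ : Finset ι}
    (h1 : D₁ ⊆ I) (h2 : D₂ ⊆ I) (hd : Disjoint D₁ D₂) {g g' : Equiv.Perm A} (hg : g ∈ genU a b D₁)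
    (hg' : g' ∈ genU a b D₂) : g * g' = g' * g := by
  refine genU_commute a b (fun j hj => ?_) hg'
  have hnot : j ∉ D₁ := fun h => Finset.disjoint_left.1 hd h hj
  have := genU_comm_gen hc h1 (h2 hj) hnot hg
  exact ⟨this.1.symm, this.2.symm⟩

/-- `D` has at least `2^|D|` points in the orbit of `x` under its generated group. -/
def DoubleP (a b : ι → Equiv.Perm A) (x : HF A) (D : Finset ι) : Prop :=
  ∃ F : Finset (HF A), F.card = 2 ^ D.card ∧ ∀ y ∈ F, ∃ g ∈ genU a b D, y = rename ⇑g x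

theorem doubleP_empty (a b : ι → Equiv.Perm A) (x : HF A) : DoubleP a b x ∅ := by
  refine ⟨{x}, by simp, fun y hy => ⟨1, Subgroup.one_mem _, ?_⟩⟩
  rw [Finset.mem_singleton] at hy
  rw [hy, rename_one]

theorem doubleP_insert {I : Finset ι} {a b : ι → Equiv.Perm A} (hc : PairComm I a b) {x : HF A}
    {D : Finset ι} (hD : D ⊆ I) (hP : DoubleP a b x D) {i : ι} (hi : i ∈ I) (hiD : i ∉ D)
    {w : Equiv.Perm A} (hw : w = a i ∨ w = b i)
    (hout : ∀ g ∈ genU a b D, rename ⇑w x ≠ rename ⇑g x) : DoubleP a b x (insert i D) := by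
  classical
  obtain ⟨F, hF, hFg⟩ := hP
  have hwmem : w ∈ genU a b (insert i D) := by
    rcases hw with rfl | rfl
    · exact mem_genU_a a b (Finset.mem_insert_self _ _)
    · exact mem_genU_b a b (Finset.mem_insert_self _ _)
  have hle : genU a b D ≤ genU a b (insert i D) := genU_mono a b (Finset.subset_insert _ _)
  have hcomm : ∀ g ∈ genU a b D, w * g = g * w := by
    intro g hg
    have := genU_comm_gen hc hD hi hiD hg
    rcases hw with rfl | rfl
    · exact this.1
    · exact this.2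
  refine ⟨F ∪ F.image (rename ⇑w), ?_, ?_⟩
  · have hdisj : Disjoint F (F.image (rename ⇑w)) := by
      rw [Finset.disjoint_left]
      intro y hy hy2
      obtain ⟨y', hy', rfl⟩ := Finset.mem_image.1 hy2
      obtain ⟨g, hg, e⟩ := hFg _ hy
      obtain ⟨g', hg', rfl⟩ := hFg _ hy'
      -- `w g' x = g x`, so `w x = g'⁻¹ g x`
      apply hout (g'⁻¹ * g) ((genU a b D).mul_mem ((genU a b D).inv_mem hg') hg)
      have e1 : rename ⇑g x = rename ⇑(g' * w) x := by
        rw [← hcomm g' hg', rename_perm_mul, e]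
      rw [rename_perm_mul g'⁻¹ g, e1, ← rename_perm_mul, inv_mul_cancel_left]
    rw [Finset.card_union_of_disjoint hdisj, Finset.card_image_of_injective _ (rename_perm_injective w),
      hF, Finset.card_insert_of_notMem hiD, pow_succ]
    ring
  · intro y hy
    rcases Finset.mem_union.1 hy with h | h
    · obtain ⟨g, hg, rfl⟩ := hFg y h
      exact ⟨g, hle hg, rfl⟩
    · obtain ⟨y', hy', rfl⟩ := Finset.mem_image.1 h
      obtain ⟨g, hg, rfl⟩ := hFg y' hy'
      exact ⟨w * g, (genU a b (insert i D)).mul_mem hwmem (hle hg), (rename_perm_mul w g x).symm⟩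

/-- A commutator identity. -/
theorem comm_identity (a b g g' : Equiv.Perm A) (hga : a * g = g * a) (hgb : b * g = g * b)
    (hg'a : a * g' = g' * a) (hg'b : b * g' = g' * b) (hgg : g * g' = g' * g) :
    (g⁻¹ * a) * (g'⁻¹ * b) * (g⁻¹ * a)⁻¹ * (g'⁻¹ * b)⁻¹ = a * b * a⁻¹ * b⁻¹ := by
  have ca : Commute a g := hga
  have cb : Commute b g := hgb
  have ca' : Commute a g' := hg'a
  have cb' : Commute b g' := hg'b
  have h1 : a * g'⁻¹ = g'⁻¹ * a := ca'.inv_right.eq
  have h2 : g * b⁻¹ = b⁻¹ * g := cb.inv_left.eq.symm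
  have hcg : Commute (a * b * a⁻¹ * b⁻¹) g := ((ca.mul_left cb).mul_left ca.inv_left).mul_left cb.inv_left
  have hcg' : Commute (a * b * a⁻¹ * b⁻¹) g' :=
    ((ca'.mul_left cb').mul_left ca'.inv_left).mul_left cb'.inv_left
  have h4 : (a * b * a⁻¹ * b⁻¹) * (g * g') = (g * g') * (a * b * a⁻¹ * b⁻¹) :=
    (hcg.mul_right hcg').eq
  have h7 : g⁻¹ * g'⁻¹ * (g * g') = 1 := by
    rw [hgg]; group
  calc (g⁻¹ * a) * (g'⁻¹ * b) * (g⁻¹ * a)⁻¹ * (g'⁻¹ * b)⁻¹
      = g⁻¹ * (a * g'⁻¹) * b * a⁻¹ * (g * b⁻¹) * g' := by group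
    _ = g⁻¹ * (g'⁻¹ * a) * b * a⁻¹ * (b⁻¹ * g) * g' := by rw [h1, h2]
    _ = g⁻¹ * g'⁻¹ * ((a * b * a⁻¹ * b⁻¹) * (g * g')) := by group
    _ = g⁻¹ * g'⁻¹ * ((g * g') * (a * b * a⁻¹ * b⁻¹)) := by rw [h4]
    _ = (g⁻¹ * g'⁻¹ * (g * g')) * (a * b * a⁻¹ * b⁻¹) := by group
    _ = _ := by rw [h7, one_mul]

/-- The main counting lemma. -/
theorem lemmaR (I : Finset ι) (a b : ι → Equiv.Perm A) (Γ : Subgroup (Equiv.Perm A)) (x : HF A)
    (ha : ∀ i ∈ I, a i ∈ Γ) (hb : ∀ i ∈ I, b i ∈ Γ) (hc : PairComm I a b)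
    (hne : ∀ i ∈ I, rename ⇑(a i * b i * (a i)⁻¹ * (b i)⁻¹) x ≠ x) (m : ℕ)
    (horb : ∀ F : Finset (HF A), (∀ y ∈ F, ∃ g ∈ Γ, y = rename ⇑g x) → F.card ≤ 2 ^ m) :
    I.card ≤ 2 * m := by
  classical
  -- the good pairs
  let G : Finset (Finset ι × Finset ι) := (I.powerset ×ˢ I.powerset).filter fun P =>
    Disjoint P.1 P.2 ∧ DoubleP a b x P.1 ∧ DoubleP a b x P.2
  have hG : (∅, ∅) ∈ G := by
    simp only [G, Finset.mem_filter, Finset.mem_product, Finset.mem_powerset]
    exact ⟨⟨Finset.empty_subset _, Finset.empty_subset _⟩, Finset.disjoint_empty_left _,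
      doubleP_empty _ _ _, doubleP_empty _ _ _⟩
  obtain ⟨⟨D₁, D₂⟩, hP, hmax⟩ := Finset.exists_max_image G (fun P => P.1.card + P.2.card) ⟨_, hG⟩
  simp only [G, Finset.mem_filter, Finset.mem_product, Finset.mem_powerset] at hP
  obtain ⟨⟨h1, h2⟩, hd, hP1, hP2⟩ := hP
  have hsize : ∀ D : Finset ι, D ⊆ I → DoubleP a b x D → D.card ≤ m := by
    intro D hD hP
    obtain ⟨F, hF, hFg⟩ := hP
    have := horb F fun y hy => by
      obtain ⟨g, hg, e⟩ := hFg y hy
      exact ⟨g, genU_le a b (fun j hj => ⟨ha j (hD hj), hb j (hD hj)⟩) hg, e⟩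
    rw [hF] at this
    exact (Nat.pow_le_pow_iff_right (by norm_num)).1 this
  have hcover : I ⊆ D₁ ∪ D₂ := by
    intro i hi
    by_contra hnot
    rw [Finset.mem_union, not_or] at hnot
    obtain ⟨hi1, hi2⟩ := hnot
    by_cases hA : ∀ g ∈ genU a b D₁, rename ⇑(a i) x ≠ rename ⇑g x
    · -- extend the first set
      have hnew := doubleP_insert hc h1 hP1 hi hi1 (Or.inl rfl) hA
      have hmem : (insert i D₁, D₂) ∈ G := by
        simp only [G, Finset.mem_filter, Finset.mem_product, Finset.mem_powerset]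
        refine ⟨⟨Finset.insert_subset hi h1, h2⟩, ?_, hnew, hP2⟩
        rw [Finset.disjoint_insert_left]
        exact ⟨hi2, hd⟩
      have := hmax _ hmem
      simp only [Finset.card_insert_of_notMem hi1] at this
      omega
    by_cases hB : ∀ g ∈ genU a b D₂, rename ⇑(b i) x ≠ rename ⇑g x
    · have hnew := doubleP_insert hc h2 hP2 hi hi2 (Or.inr rfl) hB
      have hmem : (D₁, insert i D₂) ∈ G := by
        simp only [G, Finset.mem_filter, Finset.mem_product, Finset.mem_powerset]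
        refine ⟨⟨h1, Finset.insert_subset hi h2⟩, ?_, hP1, hnew⟩
        rw [Finset.disjoint_insert_right]
        exact ⟨hi1, hd⟩
      have := hmax _ hmem
      simp only [Finset.card_insert_of_notMem hi2] at this
      omega
    · -- the commutator fixes `x`
      push Not at hA hB
      obtain ⟨g, hg, e1⟩ := hA
      obtain ⟨g', hg', e2⟩ := hB
      apply hne i hi
      have hc1 := genU_comm_gen hc h1 hi hi1 hg
      have hc2 := genU_comm_gen hc h2 hi hi2 hg'
      rw [← comm_identity (a i) (b i) g g' hc1.1 hc1.2 hc2.1 hc2.2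
        (genU_comm_disjoint hc h1 h2 hd hg hg')]
      have f1 : rename ⇑(g⁻¹ * a i) x = x := by
        rw [rename_perm_mul, e1, ← rename_perm_mul, inv_mul_cancel, rename_one]
      have f2 : rename ⇑(g'⁻¹ * b i) x = x := by
        rw [rename_perm_mul, e2, ← rename_perm_mul, inv_mul_cancel, rename_one]
      have f3 : rename ⇑(g⁻¹ * a i)⁻¹ x = x := by
        conv_lhs => rw [← f1]
        exact rename_perm_inv_cancel' _ _
      have f4 : rename ⇑(g'⁻¹ * b i)⁻¹ x = x := by
        conv_lhs => rw [← f2]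
        exact rename_perm_inv_cancel' _ _
      rw [rename_perm_mul, rename_perm_mul, rename_perm_mul, f4, f3, f2, f1]
  have h3 := hsize D₁ h1 hP1
  have h4 := hsize D₂ h2 hP2
  have := Finset.card_le_card hcover
  have h5 := Finset.card_union_le D₁ D₂
  omega

end Crest.Agent.CPTL
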