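/-
  The lattice: the torus `(ZMod 2L)³`, parities, neighbours.
-/
import Crest.Agent.Lib.CPTL.Cons

set_option autoImplicit false
set_option linter.unusedSectionVars false

noncomputable section
open Classical

namespace Crest.Agent.CPTL

/-! ### Parity vectors -/

/-- A parity vector. -/
abbrev PV := Fin 3 → ZMod 2

/-- Flip one parity. -/
def flipP (π : PV) (k : Fin 3) : PV := Function.update π k (π k + 1)

/-- removed -/
def rmP (π : PV) : Prop := π 0 = π 1 ∧ π 1 = π 2

/-- the odd one out -/
def mP (π : PV) : Fin 3 := if π 1 = π 2 then 0 else if π 0 = π 2 then 1 else 2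

/-- type F: two odd coordinates -/
def fP (π : PV) : Prop := π 0 + π 1 + π 2 = 0

/-- the two directions at a point with odd-one-out `m` -/
def dirM (m : Fin 3) (j : Bool) : Fin 3 := if j then m + 2 else m + 1

instance : DecidablePred rmP := fun π => by unfold rmP; infer_instance
instance : DecidablePred fP := fun π => by unfold fP; infer_instance

theorem pv_cases (P : PV → Prop) (h : ∀ a b c : ZMod 2, P ![a, b, c]) (π : PV) : P π := by
  have : π = ![π 0, π 1, π 2] := by
    funext i; fin_cases i <;> rfl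
  rw [this]
  exact h _ _ _

theorem flip_m_rm : ∀ π : PV, ¬ rmP π → rmP (flipP π (mP π)) := by
  decide

theorem flip_dir_not_rm : ∀ (π : PV) (j : Bool), ¬ rmP π → ¬ rmP (flipP π (dirM (mP π) j)) := by
  decide

theorem flip_dir_m : ∀ (π : PV) (j : Bool), ¬ rmP π → mP (flipP π (dirM (mP π) j)) = dirM (mP π) (!j) := by
  decide

theorem flip_dir_f : ∀ (π : PV) (j : Bool), ¬ rmP π → (fP (flipP π (dirM (mP π) j)) ↔ ¬ fP π) := by
  decide

theorem dirM_dirM : ∀ (m : Fin 3) (j : Bool), dirM (dirM m (!j)) (!j) = dirM m j := by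
  decide

theorem flip_flip : ∀ (π : PV) (k : Fin 3), flipP (flipP π k) k = π := by
  decide

theorem flip_m_all_odd : ∀ π : PV, ¬ rmP π → fP π → ∀ c, flipP π (mP π) c = 1 := by
  decide

theorem flip_m_all_even : ∀ π : PV, ¬ rmP π → ¬ fP π → ∀ c, flipP π (mP π) c = 0 := by
  decide

theorem link_dir : ∀ (π : PV) (k : Fin 3), ¬ rmP π → ¬ rmP (flipP π k) → ∃ j, k = dirM (mP π) j := by
  decide

theorem dirM_ne : ∀ (m : Fin 3), dirM m true ≠ dirM m false := by decide

theorem dirM_ne_m : ∀ (m : Fin 3) (j : Bool), dirM m j ≠ m := by decide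

theorem pv_all_one : ∀ π : PV, ¬ rmP π → ¬ rmP (fun c => π c + 1) ∧ (fP (fun c => π c + 1) ↔ ¬ fP π) := by
  decide

/-! ### The torus -/

/-- The coordinate ring. -/
abbrev ZN (L : ℕ) := ZMod (2 * (L + 4))

instance instNeZeroN (L : ℕ) : NeZero (2 * (L + 4)) := ⟨by omega⟩

/-- Torus points. -/
abbrev VT (L : ℕ) := Fin 3 → ZN L

variable {L : ℕ}

/-- Parity of a coordinate. -/
def par : ZN L →+* ZMod 2 := ZMod.castHom (dvd_mul_right 2 (L + 4)) (ZMod 2)

/-- The unit `±1`. -/
def sv (s : Bool) : ZN L := if s then 1 else -1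

theorem par_one : par (1 : ZN L) = 1 := map_one _

theorem par_sv (s : Bool) : par (sv s : ZN L) = 1 := by
  cases s
  · simp only [sv, Bool.false_eq_true, if_false, map_neg, map_one]; decide
  · simp [sv]

theorem sv_add_not (s : Bool) : (sv s : ZN L) + sv (!s) = 0 := by
  cases s <;> simp [sv]

theorem sv_ne_zero (s : Bool) : (sv s : ZN L) ≠ 0 := by
  intro h
  have := par_sv (L := L) s
  rw [h, map_zero] at this
  exact zero_ne_one this

theorem cardN : 4 ≤ Fintype.card (ZN L) := by
  rw [ZMod.card]; omega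

theorem one_ne_neg_one : (1 : ZN L) ≠ -1 := by
  intro h
  have h2 : ((2 : ℕ) : ZN L) = 0 := by
    push_cast
    linear_combination h
  rw [ZMod.natCast_eq_zero_iff] at h2
  have := Nat.le_of_dvd (by omega) h2
  omega

theorem sv_true_ne_false : (sv true : ZN L) ≠ sv false := by
  simpa [sv] using one_ne_neg_one

theorem sv_inj {s s' : Bool} (h : (sv s : ZN L) = sv s') : s = s' := by
  cases s <;> cases s' <;> first | rfl | exact absurd h sv_true_ne_false | exact absurd h.symm sv_true_ne_false

/-- A step along a coordinate. -/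
def mv (p : VT L) (k : Fin 3) (s : Bool) : VT L := p + Pi.single k (sv s)

theorem mv_same (p : VT L) (k : Fin 3) (s : Bool) : mv p k s k = p k + sv s := by
  simp [mv]

theorem mv_ne (p : VT L) {k c : Fin 3} (h : c ≠ k) (s : Bool) : mv p k s c = p c := by
  simp [mv, Pi.single_eq_of_ne h]

theorem mv_comm (p : VT L) (k l : Fin 3) (s s' : Bool) : mv (mv p k s) l s' = mv (mv p l s') k s := by
  simp only [mv]; abel

theorem mv_mv_not (p : VT L) (k : Fin 3) (s : Bool) : mv (mv p k s) k (!s) = p := by
  simp only [mv, add_assoc, ← Pi.single_add, sv_add_not, Pi.single_zero, add_zero]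

theorem mv_ne_self (p : VT L) (k : Fin 3) (s : Bool) : mv p k s ≠ p := by
  intro h
  have := congrFun h k
  rw [mv_same] at this
  exact sv_ne_zero s (by simpa using this)

theorem mv_true_ne_false (p : VT L) (k : Fin 3) : mv p k true ≠ mv p k false := by
  intro h
  have := congrFun h k
  rw [mv_same, mv_same] at this
  exact sv_true_ne_false (add_left_cancel this)

theorem mv_inj {p : VT L} {k : Fin 3} {s s' : Bool} (h : mv p k s = mv p k s') : s = s' := by
  have := congrFun h k
  rw [mv_same, mv_same] at this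
  exact sv_inj (add_left_cancel this)

/-- Parity vector of a point. -/
def pv (p : VT L) : PV := fun c => par (p c)

theorem pv_mv (p : VT L) (k : Fin 3) (s : Bool) : pv (mv p k s) = flipP (pv p) k := by
  funext c
  by_cases h : c = k
  · subst h
    simp [pv, flipP, mv_same, map_add, par_sv]
  · simp [pv, flipP, mv_ne p h, Function.update_of_ne h]

/-- The points of the lattice: not removed. -/
abbrev PtL (L : ℕ) := {p : VT L // ¬ rmP (pv p)}

/-- The odd one out of a torus point. -/
def mOf (p : VT L) : Fin 3 := mP (pv p)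

/-- Neighbours. -/
def nbP (p : PtL L) (j s : Bool) : PtL L :=
  ⟨mv p.1 (dirM (mOf p.1) j) s, by
    rw [pv_mv]; exact flip_dir_not_rm _ _ p.2⟩

theorem mOf_nbP (p : PtL L) (j s : Bool) : mOf (nbP p j s).1 = dirM (mOf p.1) (!j) := by
  show mP (pv (mv p.1 (dirM (mOf p.1) j) s)) = _
  rw [pv_mv]
  exact flip_dir_m _ _ p.2

theorem f_nbP (p : PtL L) (j s : Bool) : fP (pv (nbP p j s).1) ↔ ¬ fP (pv p.1) := by
  show fP (pv (mv p.1 (dirM (mOf p.1) j) s)) ↔ _
  rw [pv_mv]
  exact flip_dir_f _ _ p.2

theorem nbP_nbP (p : PtL L) (j s : Bool) : nbP (nbP p j s) (!j) (!s) = p := by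
  apply Subtype.ext
  show mv (mv p.1 (dirM (mOf p.1) j) s) (dirM (mOf (nbP p j s).1) (!j)) (!s) = p.1
  rw [mOf_nbP, dirM_dirM, mv_mv_not]

/-- The lattice links: a base point and a direction. -/
abbrev LatL (L : ℕ) := {x : VT L × Fin 3 // ¬ rmP (pv x.1) ∧ ¬ rmP (pv (mv x.1 x.2 true))}

/-- The lattice link at a point: sign `true` goes up, `false` goes down. -/
def latAt (p : PtL L) (j s : Bool) : LatL L :=
  if h : s = true then ⟨(p.1, dirM (mOf p.1) j), p.2, (nbP p j true).2⟩
  else ⟨(mv p.1 (dirM (mOf p.1) j) false, dirM (mOf p.1) j), (nbP p j false).2, by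
    rw [mv_comm, show mv p.1 (dirM (mOf p.1) j) true = mv (p.1) (dirM (mOf p.1) j) true from rfl]
    have : mv (mv p.1 (dirM (mOf p.1) j) true) (dirM (mOf p.1) j) false = p.1 := mv_mv_not _ _ true
    rw [this]; exact p.2⟩

@[simp] theorem latAt_true (p : PtL L) (j : Bool) :
    (latAt p j true).1 = (p.1, dirM (mOf p.1) j) := by
  simp [latAt]

@[simp] theorem latAt_false (p : PtL L) (j : Bool) :
    (latAt p j false).1 = (mv p.1 (dirM (mOf p.1) j) false, dirM (mOf p.1) j) := by
  simp [latAt]

theorem latAt_inj (p : PtL L) : Function.Injective fun x : Bool × Bool => latAt p x.1 x.2 := by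
  rintro ⟨j, s⟩ ⟨j', s'⟩ h
  have h1 := congrArg Subtype.val h
  simp only at h1
  have hd : ∀ j j' : Bool, dirM (mOf p.1) j = dirM (mOf p.1) j' → j = j' := by
    intro j j' hh
    cases j <;> cases j' <;> first
      | rfl
      | exact absurd hh (dirM_ne _)
      | exact absurd hh.symm (dirM_ne _)
  cases s <;> cases s' <;>
    simp only [latAt_true, latAt_false, Prod.mk.injEq] at h1
  · have := hd _ _ h1.2; subst this; rfl
  · exact absurd h1.1 (mv_ne_self _ _ _)
  · exact absurd h1.1.symm (mv_ne_self _ _ _)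
  · have := hd _ _ h1.2; subst this; rfl

/-- The other end of a link from its description at `p`. -/
theorem latAt_symm (p : PtL L) (j s : Bool) : latAt (nbP p j s) (!j) (!s) = latAt p j s := by
  apply Subtype.ext
  cases s
  · simp only [Bool.not_false, latAt_true, latAt_false, mOf_nbP, dirM_dirM]
    rfl
  · simp only [Bool.not_true, latAt_true, latAt_false, mOf_nbP, dirM_dirM]
    have := mv_mv_not p.1 (dirM (mOf p.1) j) true
    simp only [Bool.not_true] at this
    show (mv (mv p.1 (dirM (mOf p.1) j) true) (dirM (mOf p.1) j) false, dirM (mOf p.1) j) = (p.1, dirM (mOf p.1) j)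
    rw [this]

end Crest.Agent.CPTL
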