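/-
  The lattice instance of the Heisenberg system.
-/
import Crest.Agent.Lib.CPTL.Geo

set_option autoImplicit false
set_option linter.unusedSectionVars false

noncomputable section
open Classical

namespace Crest.Agent.CPTL

variable {L : ℕ}

/-- The sign of a Boolean. -/
def sgF (s : Bool) : F3 := if s then 1 else -1

@[simp] theorem sgF_true : sgF true = 1 := rfl
@[simp] theorem sgF_false : sgF false = -1 := rfl

theorem sgF_not (s : Bool) : sgF (!s) = - sgF s := by
  cases s <;> simp

/-- The form attached to a torus point. -/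
def wL (p : VT L) : (VT L → F3) →ₗ[F3] F3 where
  toFun t := t (mv p (mOf p) true) - t (mv p (mOf p) false)
  map_add' a b := by simp only [Pi.add_apply]; ring
  map_smul' s a := by simp only [Pi.smul_apply, smul_eq_mul, RingHom.id_apply]; ring

theorem wL_apply (p : VT L) (t : VT L → F3) :
    wL p t = t (mv p (mOf p) true) - t (mv p (mOf p) false) := rfl

theorem wL_nbP (p : PtL L) (j s : Bool) (t : VT L → F3) :
    wL (nbP p j s).1 t = t (mv (mv p.1 (dirM (mOf p.1) j) s) (dirM (mOf p.1) (!j)) true)
      - t (mv (mv p.1 (dirM (mOf p.1) j) s) (dirM (mOf p.1) (!j)) false) := by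
  rw [wL_apply, mOf_nbP]
  rfl

/-- The closing-lemma: the alternating sum around a point vanishes. -/
theorem CL (p : PtL L) (t : VT L → F3) :
    ∑ j : Bool, ∑ s : Bool, sgF s * sgF j * wL (nbP p j s).1 t = 0 := by
  simp only [Fintype.sum_bool, wL_nbP, sgF_true, sgF_false, Bool.not_true, Bool.not_false]
  rw [mv_comm p.1 (dirM (mOf p.1) true) (dirM (mOf p.1) false) true true,
    mv_comm p.1 (dirM (mOf p.1) true) (dirM (mOf p.1) false) true false,
    mv_comm p.1 (dirM (mOf p.1) true) (dirM (mOf p.1) false) false true,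
    mv_comm p.1 (dirM (mOf p.1) true) (dirM (mOf p.1) false) false false]
  ring

/-! ### The order of the points -/

/-- The `F` points. -/
abbrev FPt (L : ℕ) := {p : VT L // ¬ rmP (pv p) ∧ fP (pv p)}

/-- The translation by `(1,1,1)`. -/
def allOne (L : ℕ) : VT L := fun _ => 1

theorem pv_add_allOne (p : VT L) : pv (p + allOne L) = fun c => pv p c + 1 := by
  funext c
  simp [pv, allOne, map_add, par_one]

theorem pv_sub_allOne (p : VT L) : pv (p - allOne L) = fun c => pv p c + 1 := by
  funext c
  simp only [pv, allOne, Pi.sub_apply, map_sub, par_one]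
  have : ∀ x : ZMod 2, x - 1 = x + 1 := by decide
  exact this _

/-- Points as a pair of an `F` point and a colour. -/
def ptEquiv (L : ℕ) : PtL L ≃ FPt L × Bool where
  toFun p := if h : fP (pv p.1) then (⟨p.1, p.2, h⟩, true)
    else (⟨p.1 + allOne L, by
      rw [pv_add_allOne]
      exact ⟨(pv_all_one _ p.2).1, (pv_all_one _ p.2).2.2 h⟩⟩, false)
  invFun x := if x.2 = true then ⟨x.1.1, x.1.2.1⟩ else ⟨x.1.1 - allOne L, by
      rw [pv_sub_allOne]
      exact (pv_all_one _ x.1.2.1).1⟩
  left_inv p := by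
    by_cases h : fP (pv p.1)
    · simp [h]
    · simp [h]
  right_inv x := by
    obtain ⟨⟨x, hx1, hx2⟩, b⟩ := x
    cases b
    · have h : ¬ fP (pv (x - allOne L)) := by
        rw [pv_sub_allOne]
        exact fun h2 => ((pv_all_one _ hx1).2.1 h2) hx2
      simp [h]
    · simp [hx2]

theorem par_zero : par (0 : ZN L) = 0 := map_zero _

/-- There is an `F` point. -/
theorem FPt_nonempty (L : ℕ) : Nonempty (FPt L) := by
  refine ⟨⟨![1, 1, 0], ?_, ?_⟩⟩
  · simp only [pv, rmP]
    intro h
    have := h.2
    simp only [Matrix.cons_val_one, Matrix.cons_val_zero, Matrix.cons_val_two, Matrix.head_cons,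
      Matrix.tail_cons, Matrix.head_fin_const, par_one, par_zero] at this
    exact one_ne_zero this
  · simp only [pv, fP]
    simp only [Matrix.cons_val_one, Matrix.cons_val_zero, Matrix.cons_val_two, Matrix.head_cons,
      Matrix.tail_cons, Matrix.head_fin_const, par_one, par_zero]
    decide

/-- The number of points. -/
def nN (L : ℕ) : ℕ := Fintype.card (FPt L) * 2

theorem two_le_nN (L : ℕ) : 2 ≤ nN L := by
  have : 0 < Fintype.card (FPt L) := by
    have := FPt_nonempty L
    exact Fintype.card_pos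
  unfold nN
  omega

/-- Booleans as `Fin 2`: `true` is even. -/
def boolFin2 : Bool ≃ Fin 2 where
  toFun b := if b then 0 else 1
  invFun i := decide (i = 0)
  left_inv := by decide
  right_inv := by decide

/-- The position of a point. -/
def posL (L : ℕ) : PtL L ≃ Fin (nN L) :=
  (ptEquiv L).trans (((Fintype.equivFin (FPt L)).prodCongr boolFin2).trans
    (finProdFinEquiv : _ ≃ Fin (Fintype.card (FPt L) * 2)))

theorem posL_even (p : PtL L) : Even (posL L p).val ↔ fP (pv p.1) := by
  have key : ∀ x : Fin (Fintype.card (FPt L)) × Fin 2,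
      Even (finProdFinEquiv x : Fin (Fintype.card (FPt L) * 2)).val ↔ x.2 = 0 := by
    rintro ⟨a, b⟩
    rw [finProdFinEquiv_apply_val]
    fin_cases b
    · simp
    · simp only [Fin.isValue, Fin.mk_one, Fin.val_one, Nat.even_add_one]
      simp
  show Even (finProdFinEquiv (((Fintype.equivFin (FPt L)).prodCongr boolFin2) ((ptEquiv L) p)) : Fin (Fintype.card (FPt L) * 2)).val ↔ _
  rw [key]
  by_cases h : fP (pv p.1)
  · simp [ptEquiv, h, boolFin2]
  · simp [ptEquiv, h, boolFin2]

/-- Rotation of `Fin N`. -/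
def rotF (N : ℕ) (hN : 0 < N) : Equiv.Perm (Fin N) :=
  Equiv.ofBijective (fun i => if h : i.val + 1 < N then ⟨i.val + 1, h⟩ else ⟨0, hN⟩)
    (Finite.injective_iff_bijective.1 (by
      intro a b hab
      simp only at hab
      split_ifs at hab with h1 h2 h2
      · have := congrArg Fin.val hab
        simp only at this
        exact Fin.ext (by omega)
      · have := congrArg Fin.val hab
        simp only at this
        omega
      · have := congrArg Fin.val hab
        simp only at this
        omega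
      · exact Fin.ext (by omega)))

theorem rotF_val (N : ℕ) (hN : 0 < N) (i : Fin N) :
    (rotF N hN i).val = if i.val + 1 < N then i.val + 1 else 0 := by
  show (if h : i.val + 1 < N then (⟨i.val + 1, h⟩ : Fin N) else ⟨0, hN⟩).val = _
  split_ifs <;> rfl

theorem nN_pos (L : ℕ) : 0 < nN L := by have := two_le_nN L; omega

/-- The position number of a point. -/
@[irreducible] def posN (p : PtL L) : ℕ := (posL L p).val

theorem posN_lt (p : PtL L) : posN p < nN L := by
  unfold posN; exact (posL L p).isLt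

theorem posN_inj {p q : PtL L} (h : posN p = posN q) : p = q := by
  unfold posN at h
  exact (posL L).injective (Fin.ext h)

theorem posN_even (p : PtL L) : Even (posN p) ↔ fP (pv p.1) := by
  unfold posN; exact posL_even p

/-- The next point in the fixed order. -/
@[irreducible] def nxL (L : ℕ) : Equiv.Perm (PtL L) :=
  (posL L).trans ((rotF (nN L) (nN_pos L)).trans (posL L).symm)

/-- The previous point. -/
def prvL (L : ℕ) : Equiv.Perm (PtL L) := (nxL L)⁻¹

theorem posN_nx (p : PtL L) : posN (nxL L p) =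
    if posN p + 1 < nN L then posN p + 1 else 0 := by
  unfold posN nxL
  simp only [Equiv.trans_apply, Equiv.apply_symm_apply, rotF_val]

@[simp] theorem nx_prv (p : PtL L) : nxL L (prvL L p) = p := by
  unfold prvL; simp

@[simp] theorem prv_nx (p : PtL L) : prvL L (nxL L p) = p := by
  unfold prvL; simp

theorem nx_ne (p : PtL L) : nxL L p ≠ p := by
  intro h
  have h1 := posN_nx p
  rw [h] at h1
  have := two_le_nN L
  split_ifs at h1 <;> omega

theorem prv_ne (p : PtL L) : prvL L p ≠ p := by
  intro h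
  apply nx_ne (prvL L p)
  rw [nx_prv, h]

theorem even_nN (L : ℕ) : Even (nN L) := ⟨Fintype.card (FPt L), by unfold nN; ring⟩

theorem even_nx (p : PtL L) : Even (posN (nxL L p)) ↔ ¬ Even (posN p) := by
  rw [posN_nx]
  have hlt := posN_lt p
  have h2 := even_nN L
  split_ifs with h
  · rw [Nat.even_add_one]
  · have : posN p + 1 = nN L := by omega
    rw [← this, Nat.even_add_one] at h2
    simpa using h2

/-- The sign of a point. -/
def sgL (p : PtL L) : F3 := if fP (pv p.1) then 1 else -1

theorem sgL_ne (p : PtL L) : sgL p ≠ 0 := by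
  unfold sgL
  split_ifs <;> decide

theorem sgL_sq (p : PtL L) : sgL p * sgL p = 1 := by
  unfold sgL
  split_ifs <;> decide

theorem sgL_nx (p : PtL L) : sgL (nxL L p) = - sgL p := by
  unfold sgL
  have h1 := even_nx p
  rw [posN_even, posN_even] at h1
  by_cases h : fP (pv p.1)
  · have h2 : ¬ fP (pv (nxL L p).1) := fun h3 => (h1.1 h3) h
    simp [h, h2]
  · have h2 : fP (pv (nxL L p).1) := h1.2 h
    simp [h, h2]

theorem sgL_nbP (p : PtL L) (j s : Bool) : sgL (nbP p j s) = - sgL p := by
  unfold sgL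
  have h1 := f_nbP p j s
  by_cases h : fP (pv p.1)
  · have h2 : ¬ fP (pv (nbP p j s).1) := fun h3 => (h1.1 h3) h
    simp [h, h2]
  · have h2 : fP (pv (nbP p j s).1) := h1.2 h
    simp [h, h2]

theorem nbP_ne (p : PtL L) (j s : Bool) : nbP p j s ≠ p := by
  intro h
  exact mv_ne_self _ _ _ (congrArg Subtype.val h)

/-! ### Links -/

/-- The `F` end of a lattice link. -/
def fEnd (x : LatL L) : VT L := if fP (pv x.1.1) then x.1.1 else mv x.1.1 x.1.2 true

/-- The `D` end of a lattice link. -/
def dEnd (x : LatL L) : VT L := if fP (pv x.1.1) then mv x.1.1 x.1.2 true else x.1.1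

/-- The value of `c` on a lattice link. -/
def ccLat (x : LatL L) : F3 := if x.1.2 = dirM (mOf x.1.1) true then 1 else -1

theorem f_flip_dir (p : VT L) (j s : Bool) (h : ¬ rmP (pv p)) :
    fP (pv (mv p (dirM (mOf p) j) s)) ↔ ¬ fP (pv p) := by
  rw [pv_mv]
  exact flip_dir_f _ _ h

theorem mv_mv_false_true (p : VT L) (k : Fin 3) : mv (mv p k false) k true = p :=
  mv_mv_not p k false

theorem fEnd_latAt (p : PtL L) (j s : Bool) :
    fEnd (latAt p j s) = if fP (pv p.1) then p.1 else (nbP p j s).1 := by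
  have h1 := f_nbP p j false
  cases s
  · by_cases h : fP (pv p.1)
    · have h2 : ¬ fP (pv (nbP p j false).1) := fun h3 => (h1.1 h3) h
      simp only [fEnd, latAt_false, h, if_true]
      rw [if_neg (show ¬ fP (pv (mv p.1 (dirM (mOf p.1) j) false)) from h2)]
      exact mv_mv_false_true _ _
    · have h2 : fP (pv (nbP p j false).1) := h1.2 h
      simp only [fEnd, latAt_false, h, if_false]
      rw [if_pos (show fP (pv (mv p.1 (dirM (mOf p.1) j) false)) from h2)]
      rfl
  · by_cases h : fP (pv p.1)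
    · simp [fEnd, h]
    · simp [fEnd, h]
      rfl

theorem dEnd_latAt (p : PtL L) (j s : Bool) :
    dEnd (latAt p j s) = if fP (pv p.1) then (nbP p j s).1 else p.1 := by
  have h1 := f_nbP p j false
  cases s
  · by_cases h : fP (pv p.1)
    · have h2 : ¬ fP (pv (nbP p j false).1) := fun h3 => (h1.1 h3) h
      simp only [dEnd, latAt_false, h, if_true]
      rw [if_neg (show ¬ fP (pv (mv p.1 (dirM (mOf p.1) j) false)) from h2)]
      rfl
    · have h2 : fP (pv (nbP p j false).1) := h1.2 h
      simp only [dEnd, latAt_false, h, if_false]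
      rw [if_pos (show fP (pv (mv p.1 (dirM (mOf p.1) j) false)) from h2)]
      exact mv_mv_false_true _ _
  · by_cases h : fP (pv p.1)
    · simp [dEnd, h]
      rfl
    · simp [dEnd, h]

theorem ccLat_latAt (p : PtL L) (j s : Bool) : ccLat (latAt p j s) = sgF s * sgF j := by
  have hd : ∀ (m : Fin 3) (j : Bool), (if dirM m j = dirM m true then (1 : F3) else -1) = sgF j := by
    intro m j
    cases j
    · rw [if_neg (dirM_ne m).symm]; rfl
    · simp
  cases s
  · have hm : mOf (mv p.1 (dirM (mOf p.1) j) false) = dirM (mOf p.1) (!j) := mOf_nbP p j false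
    simp only [ccLat, latAt_false]
    rw [hm]
    have := hd (dirM (mOf p.1) (!j)) (!j)
    rw [dirM_dirM] at this
    rw [this, sgF_not]
    simp
  · simp only [ccLat, latAt_true, hd]
    simp

/-! ### The system -/

/-- Links of the lattice system. -/
abbrev LkL (L : ℕ) := LatL L ⊕ PtL L

/-- Incidence indices. -/
abbrev IncL := (Bool × Bool) ⊕ Bool

/-- Local variable indices. -/
abbrev LcL := Bool ⊕ (Bool × Bool)

/-- The link at a point. -/
def lkAtL (p : PtL L) : IncL → LkL L
  | Sum.inl x => Sum.inl (latAt p x.1 x.2)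
  | Sum.inr true => Sum.inr p
  | Sum.inr false => Sum.inr (prvL L p)

theorem lkAtL_inj (p : PtL L) : Function.Injective (lkAtL p) := by
  rintro (⟨j, s⟩ | b) (⟨j', s'⟩ | b') h
  · simp only [lkAtL, Sum.inl.injEq] at h
    exact congrArg Sum.inl (latAt_inj p h)
  · cases b' <;> simp [lkAtL] at h
  · cases b <;> simp [lkAtL] at h
  · cases b <;> cases b' <;> simp [lkAtL] at h ⊢
    · exact (prv_ne p h)
    · exact (prv_ne p h.symm)

/-- The local variables at a point. -/
def locL (p : PtL L) : LcL → VT L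
  | Sum.inl s => mv p.1 (mOf p.1) s
  | Sum.inr x => mv (mv p.1 (dirM (mOf p.1) false) x.1) (dirM (mOf p.1) true) x.2

theorem dirM_ne_m' : ∀ (m : Fin 3) (j : Bool), m ≠ dirM m j := by decide

theorem locL_inj (p : PtL L) : Function.Injective (locL p) := by
  rintro (s | ⟨s1, s2⟩) (s' | ⟨s1', s2'⟩) h
  · simp only [locL] at h
    rw [mv_inj h]
  · simp only [locL] at h
    have := congrFun h (mOf p.1)
    rw [mv_same, mv_ne _ (dirM_ne_m' _ _), mv_ne _ (dirM_ne_m' _ _)] at this
    exact absurd (by simpa using this) (sv_ne_zero s)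
  · simp only [locL] at h
    have := congrFun h (mOf p.1)
    rw [mv_same, mv_ne _ (dirM_ne_m' _ _), mv_ne _ (dirM_ne_m' _ _)] at this
    exact absurd (by simpa using this.symm) (sv_ne_zero s')
  · simp only [locL] at h
    have h1 := congrFun h (dirM (mOf p.1) false)
    have h2 := congrFun h (dirM (mOf p.1) true)
    have hne : dirM (mOf p.1) false ≠ dirM (mOf p.1) true := (dirM_ne _).symm
    rw [mv_ne _ hne, mv_ne _ hne, mv_same, mv_same] at h1
    rw [mv_same, mv_same, mv_ne _ hne.symm, mv_ne _ hne.symm, add_right_inj] at h2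
    have h3 := sv_inj (add_left_cancel h1)
    have h4 := sv_inj h2
    rw [h3, h4]

/-- `c` on all links. -/
def ccL : LkL L → F3
  | Sum.inl x => ccLat x
  | Sum.inr _ => 0

/-- `a` on all links. -/
def aaL : LkL L → (VT L → F3) →ₗ[F3] F3
  | Sum.inl x => wL (fEnd x)
  | Sum.inr _ => 0

/-- `b` on all links. -/
def bbL : LkL L → (VT L → F3) →ₗ[F3] F3
  | Sum.inl x => wL (dEnd x)
  | Sum.inr _ => 0

theorem wL_self_loc (p : PtL L) (t : VT L → F3) (h : ∀ j, t (locL p j) = 0) : wL p.1 t = 0 := by
  rw [wL_apply]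
  have h1 := h (Sum.inl true)
  have h2 := h (Sum.inl false)
  simp only [locL] at h1 h2
  rw [h1, h2, sub_zero]

theorem wL_nb_loc (p : PtL L) (j s : Bool) (t : VT L → F3) (h : ∀ j, t (locL p j) = 0) :
    wL (nbP p j s).1 t = 0 := by
  rw [wL_nbP]
  cases j
  · have h1 := h (Sum.inr (s, true))
    have h2 := h (Sum.inr (s, false))
    simp only [locL] at h1 h2
    simp only [Bool.not_false]
    rw [h1, h2, sub_zero]
  · have h1 := h (Sum.inr (true, s))
    have h2 := h (Sum.inr (false, s))
    simp only [locL] at h1 h2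
    simp only [Bool.not_true]
    rw [mv_comm _ (dirM (mOf p.1) true) (dirM (mOf p.1) false) s true,
      mv_comm _ (dirM (mOf p.1) true) (dirM (mOf p.1) false) s false, h1, h2, sub_zero]

theorem aaL_loc (p : PtL L) (i : IncL) (t : VT L → F3) (h : ∀ j, t (locL p j) = 0) :
    aaL (lkAtL p i) t = 0 := by
  rcases i with ⟨j, s⟩ | b
  · simp only [lkAtL, aaL, fEnd_latAt]
    split_ifs
    · exact wL_self_loc p t h
    · exact wL_nb_loc p j s t h
  · cases b <;> rfl

theorem bbL_loc (p : PtL L) (i : IncL) (t : VT L → F3) (h : ∀ j, t (locL p j) = 0) :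
    bbL (lkAtL p i) t = 0 := by
  rcases i with ⟨j, s⟩ | b
  · simp only [lkAtL, bbL, dEnd_latAt]
    split_ifs
    · exact wL_nb_loc p j s t h
    · exact wL_self_loc p t h
  · cases b <;> rfl

theorem lagrL (p : PtL L) (t t' : VT L → F3) :
    ∑ i, ccL (lkAtL p i) * (aaL (lkAtL p i) t * bbL (lkAtL p i) t' -
      bbL (lkAtL p i) t * aaL (lkAtL p i) t') = 0 := by
  rw [Fintype.sum_sum_type, Fintype.sum_prod_type]
  have hb : ∑ b : Bool, ccL (lkAtL p (Sum.inr b)) * (aaL (lkAtL p (Sum.inr b)) t * bbL (lkAtL p (Sum.inr b)) t' -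
      bbL (lkAtL p (Sum.inr b)) t * aaL (lkAtL p (Sum.inr b)) t') = 0 := by
    simp [Fintype.sum_bool, lkAtL, ccL]
  rw [hb, add_zero]
  simp only [lkAtL, ccL, aaL, bbL, fEnd_latAt, dEnd_latAt, ccLat_latAt]
  have h1 := CL p t
  have h2 := CL p t'
  simp only [Fintype.sum_bool] at h1 h2 ⊢
  by_cases hf : fP (pv p.1)
  · simp only [hf, if_true]
    linear_combination (wL p.1 t) * h2 - (wL p.1 t') * h1
  · simp only [hf, if_false]
    linear_combination (wL p.1 t') * h1 - (wL p.1 t) * h2

theorem bipL (f : LkL L → F3) : ∑ p, sgL p * ∑ i, f (lkAtL p i) = 0 := by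
  have hsplit : ∀ p, sgL p * ∑ i, f (lkAtL p i) =
      ∑ x : Bool × Bool, sgL p * f (Sum.inl (latAt p x.1 x.2)) +
        (sgL p * f (Sum.inr p) + sgL p * f (Sum.inr (prvL L p))) := by
    intro p
    rw [Fintype.sum_sum_type, mul_add, Finset.mul_sum, Fintype.sum_bool]
    simp only [lkAtL]
    ring
  simp only [hsplit]
  rw [Finset.sum_add_distrib, Finset.sum_add_distrib]
  have h1 : ∑ p : PtL L, ∑ x : Bool × Bool, sgL p * f (Sum.inl (latAt p x.1 x.2)) = 0 := by
    rw [← Fintype.sum_prod_type']
    refine Finset.sum_involution (fun x _ => (nbP x.1 x.2.1 x.2.2, !x.2.1, !x.2.2)) ?_ ?_ ?_ ?_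
    · rintro ⟨p, j, s⟩ _
      simp only [sgL_nbP, latAt_symm]
      ring
    · rintro ⟨p, j, s⟩ _ _ h
      have := congrArg Prod.fst h
      exact nbP_ne p j s this
    · intro x _
      exact Finset.mem_univ _
    · rintro ⟨p, j, s⟩ _
      simp [nbP_nbP]
  have h2 : ∑ p : PtL L, sgL p * f (Sum.inr (prvL L p)) = - ∑ p : PtL L, sgL p * f (Sum.inr p) := by
    rw [← Equiv.sum_comp (nxL L), ← Finset.sum_neg_distrib]
    refine Finset.sum_congr rfl fun p _ => ?_
    rw [prv_nx, sgL_nx]
    ring
  rw [h1, h2]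
  ring

/-! ### Locality of the form -/

/-- The corners around a torus point. -/
def nbL (r : VT L) (c : Fin 3 → Bool) : VT L := fun k => r k + sv (c k)

theorem dirM_cover : ∀ (m : Fin 3) (j : Bool) (l : Fin 3), l = dirM m j ∨ l = dirM m (!j) ∨ l = m := by
  decide

theorem dirM_ne_not : ∀ (m : Fin 3) (j : Bool), dirM m j ≠ dirM m (!j) := by decide

theorem corner_eq (a : PtL L) (j s s1 s2 : Bool) :
    ∃ c, mv (nbP a j s).1 (mOf (nbP a j s).1) s2 = nbL (mv a.1 (mOf a.1) s1) c := by
  rw [mOf_nbP]
  refine ⟨fun l => if l = dirM (mOf a.1) j then s else if l = dirM (mOf a.1) (!j) then s2 else !s1, ?_⟩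
  funext l
  show mv (mv a.1 (dirM (mOf a.1) j) s) (dirM (mOf a.1) (!j)) s2 l = _
  rcases dirM_cover (mOf a.1) j l with rfl | rfl | rfl
  · rw [mv_ne _ (dirM_ne_not _ _), mv_same]
    simp only [nbL, if_true]
    rw [mv_ne _ (dirM_ne_m _ _)]
  · rw [mv_same, mv_ne _ (dirM_ne_not _ _).symm]
    simp only [nbL]
    rw [if_neg (dirM_ne_not _ _).symm, if_pos trivial, mv_ne _ (dirM_ne_m _ _)]
  · rw [mv_ne _ (dirM_ne_m' _ _), mv_ne _ (dirM_ne_m' _ _)]
    simp only [nbL]
    rw [if_neg (dirM_ne_m' _ _), if_neg (dirM_ne_m' _ _), mv_same, add_assoc, sv_add_not, add_zero]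

theorem wL_single_ne [DecidableEq (VT L)] (p : VT L) (r : VT L) (h : wL p (Pi.single r 1) ≠ 0) :
    ∃ s, r = mv p (mOf p) s := by
  by_contra hn
  apply h
  rw [wL_apply]
  have h1 : r ≠ mv p (mOf p) true := fun e => hn ⟨true, e⟩
  have h2 : r ≠ mv p (mOf p) false := fun e => hn ⟨false, e⟩
  rw [Pi.single_eq_of_ne h1.symm, Pi.single_eq_of_ne h2.symm, sub_zero]

theorem wL_pair [DecidableEq (VT L)] (a : PtL L) (j s : Bool) (r : VT L) (t : VT L → F3) (h : ∀ c, t (nbL r c) = 0) :
    wL a.1 (Pi.single r 1) = 0 ∨ wL (nbP a j s).1 t = 0 := by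
  by_cases hr : wL a.1 (Pi.single r 1) = 0
  · exact Or.inl hr
  · right
    obtain ⟨s1, rfl⟩ := wL_single_ne _ _ hr
    rw [wL_apply]
    obtain ⟨c, hc⟩ := corner_eq a j s s1 true
    obtain ⟨c', hc'⟩ := corner_eq a j s s1 false
    rw [hc, hc', h, h, sub_zero]

/-- The direction of a lattice link. -/
theorem lat_dir (x : LatL L) : ∃ j, x.1.2 = dirM (mOf x.1.1) j := by
  have h := x.2.2
  rw [pv_mv] at h
  exact link_dir _ _ x.2.1 h

theorem lat_eq_latAt (x : LatL L) (j : Bool) (hj : x.1.2 = dirM (mOf x.1.1) j) :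
    latAt ⟨x.1.1, x.2.1⟩ j true = x := by
  apply Subtype.ext
  rw [latAt_true]
  exact Prod.ext rfl hj.symm

theorem om_nbL [DecidableEq (VT L)] (r : VT L) (t : VT L → F3) (h : ∀ c, t (nbL r c) = 0) (e : LkL L) :
    ccL e * (aaL e t * bbL e (Pi.single r 1) - bbL e t * aaL e (Pi.single r 1)) = 0 := by
  rcases e with x | q
  · obtain ⟨j, hj⟩ := lat_dir x
    have hx := lat_eq_latAt x j hj
    set pu : PtL L := ⟨x.1.1, x.2.1⟩ with hpu
    rw [← hx]
    simp only [aaL, bbL, fEnd_latAt, dEnd_latAt]
    have h1 := wL_pair pu j true r t h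
    have h2 := wL_pair (nbP pu j true) (!j) false r t h
    rw [show (false) = (!true) from rfl, nbP_nbP] at h2
    by_cases hf : fP (pv pu.1)
    · simp only [hf, if_true]
      rcases h1 with h1 | h1 <;> rcases h2 with h2 | h2 <;> simp [h1, h2]
    · simp only [hf, if_false]
      rcases h1 with h1 | h1 <;> rcases h2 with h2 | h2 <;> simp [h1, h2]
  · simp [ccL]

/-! ### The elimination data -/

/-- Incidence count of a link at a point, negated. -/
def rhoE (e : LkL L) (p : PtL L) : F3 := - ∑ i, if lkAtL p i = e then 1 else 0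

/-- The chain along the back links. -/
def gCh (ρ : PtL L → F3) (q : PtL L) : F3 :=
  sgL q * ∑ p ∈ Finset.univ.filter (fun p : PtL L => posN p ≤ posN q), sgL p * ρ p

/-- The balanced chain attached to a link. -/
def zetaL (e : LkL L) : LkL L → F3
  | Sum.inl x => if Sum.inl x = e then 1 else 0
  | Sum.inr q => (if Sum.inr q = e then 1 else 0) + gCh (rhoE e) q

theorem rhoE_total (e : LkL L) : ∑ p, sgL p * rhoE e p = 0 := by
  have := bipL (L := L) (fun e' => if e' = e then 1 else 0)
  simp only [rhoE, mul_neg]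
  rw [Finset.sum_neg_distrib, this, neg_zero]

theorem gCh_add (ρ : PtL L → F3) (hρ : ∑ p, sgL p * ρ p = 0) (q : PtL L) :
    gCh ρ q + gCh ρ (prvL L q) = ρ q := by
  have hpos := posN_nx (prvL L q)
  rw [nx_prv] at hpos
  have hsg : sgL (prvL L q) = - sgL q := by
    have := sgL_nx (prvL L q)
    rw [nx_prv] at this
    rw [this, neg_neg]
  unfold gCh
  rw [hsg]
  split_ifs at hpos with hlt
  · have hfil : Finset.univ.filter (fun p : PtL L => posN p ≤ posN q) =
        insert q (Finset.univ.filter (fun p : PtL L => posN p ≤ posN (prvL L q))) := by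
      ext p
      simp only [Finset.mem_filter, Finset.mem_univ, true_and, Finset.mem_insert]
      constructor
      · intro h
        by_cases h2 : posN p = posN q
        · exact Or.inl (posN_inj h2)
        · exact Or.inr (by omega)
      · rintro (rfl | h)
        · exact le_rfl
        · omega
    rw [hfil, Finset.sum_insert]
    · have := sgL_sq q
      linear_combination (ρ q) * this
    · simp only [Finset.mem_filter, Finset.mem_univ, true_and]
      omega
  · have hfil : Finset.univ.filter (fun p : PtL L => posN p ≤ posN q) = {q} := by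
      ext p
      simp only [Finset.mem_filter, Finset.mem_univ, true_and, Finset.mem_singleton]
      constructor
      · intro h
        exact posN_inj (by omega)
      · rintro rfl
        exact le_rfl
    have hfil2 : Finset.univ.filter (fun p : PtL L => posN p ≤ posN (prvL L q)) =
        Finset.univ := by
      ext p
      simp only [Finset.mem_filter, Finset.mem_univ, true_and, iff_true]
      have := posN_lt p
      omega
    rw [hfil, hfil2, hρ, Finset.sum_singleton]
    have := sgL_sq q
    linear_combination (ρ q) * this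

theorem zetaL_bal (e : LkL L) (p : PtL L) : ∑ i, zetaL e (lkAtL p i) = 0 := by
  have h1 := gCh_add (rhoE e) (rhoE_total e) p
  have h2 : rhoE e p = - ((∑ x : Bool × Bool, if Sum.inl (latAt p x.1 x.2) = e then 1 else 0) +
      ((if Sum.inr p = e then 1 else 0) + (if Sum.inr (prvL L p) = e then 1 else 0))) := by
    unfold rhoE
    rw [Fintype.sum_sum_type, Fintype.sum_bool]
    simp only [lkAtL]
    congr!
  rw [Fintype.sum_sum_type, Fintype.sum_bool]
  simp only [lkAtL, zetaL]
  linear_combination h1 + h2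

/-- Generic ranks. -/
def rkGen {V A Q : Type} (nV nA : ℕ) (fV : V → ℕ) (fA : A → ℕ) (fQ : Q → ℕ) : V ⊕ (A ⊕ Q) → ℕ
  | Sum.inl r => fV r
  | Sum.inr (Sum.inl x) => nV + fA x
  | Sum.inr (Sum.inr q) => nV + nA + fQ q

theorem rk_gen_inj {V A Q : Type} (nV nA : ℕ) (fV : V → ℕ) (fA : A → ℕ) (fQ : Q → ℕ)
    (h1 : ∀ r, fV r < nV) (h2 : ∀ x, fA x < nA) (iV : Function.Injective fV)
    (iA : Function.Injective fA) (iQ : Function.Injective fQ) :
    Function.Injective (rkGen nV nA fV fA fQ) := by
  rintro (r | x | q) (r' | x' | q') h <;> simp only [rkGen] at h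
  · rw [iV h]
  · have := h1 r
    omega
  · have := h1 r
    omega
  · have := h1 r'
    omega
  · have : fA x = fA x' := by omega
    rw [iA this]
  · have := h2 x
    omega
  · have := h1 r'
    omega
  · have := h2 x'
    omega
  · have : fQ q = fQ q' := by omega
    rw [iQ this]

/-- The number of torus points. -/
def nV (L : ℕ) : ℕ := Fintype.card (VT L)

/-- The number of lattice links. -/
def nLat (L : ℕ) : ℕ := Fintype.card (LatL L)

/-- A numbering of the torus points. -/
def idxV (r : VT L) : ℕ := (Fintype.equivFin (VT L) r).val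

/-- A numbering of the lattice links. -/
def idxLat (x : LatL L) : ℕ := (Fintype.equivFin (LatL L) x).val

theorem idxV_lt (r : VT L) : idxV r < nV L := (Fintype.equivFin (VT L) r).isLt

theorem idxLat_lt (x : LatL L) : idxLat x < nLat L := (Fintype.equivFin (LatL L) x).isLt

theorem idxV_inj : Function.Injective (idxV (L := L)) := fun _ _ h =>
  (Fintype.equivFin (VT L)).injective (Fin.ext h)

theorem idxLat_inj : Function.Injective (idxLat (L := L)) := fun _ _ h =>
  (Fintype.equivFin (LatL L)).injective (Fin.ext h)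

/-- The position of the next point. -/
def idxQ (q : PtL L) : ℕ := posN (nxL L q)

theorem idxQ_inj : Function.Injective (idxQ (L := L)) := fun _ _ h =>
  (nxL L).injective (posN_inj h)

/-- The ranks of the slots. -/
def rkL : VT L ⊕ LkL L → ℕ := rkGen (nV L) (nLat L) idxV idxLat idxQ

theorem rkL_inj : Function.Injective (rkL (L := L)) :=
  rk_gen_inj _ _ _ _ _ idxV_lt idxLat_lt idxV_inj idxLat_inj idxQ_inj

theorem rkL_lt (r : VT L) (e : LkL L) : rkL (Sum.inl r) < rkL (Sum.inr e) := by
  have := idxV_lt r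
  rcases e with x | q <;> simp only [rkL, rkGen] <;> omega

theorem lkL_has (e : LkL L) : ∃ p i, lkAtL p i = e := by
  rcases e with x | q
  · obtain ⟨j, hj⟩ := lat_dir x
    exact ⟨⟨x.1.1, x.2.1⟩, Sum.inl (j, true), congrArg Sum.inl (lat_eq_latAt x j hj)⟩
  · exact ⟨q, Sum.inr true, rfl⟩

theorem zetaL_elim (e : LkL L) : (zetaL e e = 1 ∧ ∀ e', rkL (Sum.inr e') < rkL (Sum.inr e) → zetaL e e' = 0) ∨
    (∃ p i, lkAtL p i = e ∧ ∀ j, j ≠ i → rkL (Sum.inr (lkAtL p j)) < rkL (Sum.inr e)) := by
  rcases e with x | q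
  · left
    refine ⟨by simp [zetaL], fun e' he' => ?_⟩
    rcases e' with x' | q'
    · simp only [zetaL]
      rw [if_neg]
      rintro h
      rw [h] at he'
      exact lt_irrefl _ he'
    · simp only [rkL, rkGen] at he'
      have := idxLat_lt x
      omega
  · by_cases hq : posN q + 1 < nN L
    · right
      refine ⟨q, Sum.inr true, rfl, ?_⟩
      rintro (⟨j', s'⟩ | b) hj
      · simp only [lkAtL, rkL, rkGen]
        have := idxLat_lt (latAt q j' s')
        omega
      · cases b
        · simp only [lkAtL, rkL, rkGen, idxQ, nx_prv, posN_nx q, if_pos hq]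
          omega
        · exact absurd rfl hj
    · left
      have hall : gCh (rhoE (Sum.inr q)) q = 0 := by
        unfold gCh
        have hfil : Finset.univ.filter (fun p : PtL L => posN p ≤ posN q) = Finset.univ := by
          ext p
          simp only [Finset.mem_filter, Finset.mem_univ, true_and, iff_true]
          have := posN_lt p
          omega
        rw [hfil, rhoE_total, mul_zero]
      refine ⟨by simp [zetaL, hall], fun e' he' => ?_⟩
      rcases e' with x' | q'
      · simp [zetaL]
      · simp only [rkL, rkGen, idxQ, posN_nx q, if_neg hq] at he'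
        omega

/-- The lattice system. -/
def latSys (L : ℕ) : HSys where
  Pt := PtL L
  Rm := VT L
  Lk := LkL L
  Inc := IncL
  Lc := LcL
  Nb := Fin 3 → Bool
  lkAt := lkAtL
  lkAt_inj := lkAtL_inj
  loc := locL
  loc_inj := locL_inj
  cc := ccL
  aa := aaL
  bb := bbL
  aa_loc := aaL_loc
  bb_loc := bbL_loc
  lagr := lagrL
  sg := sgL
  sg_ne := sgL_ne
  bip := bipL
  nb := nbL
  om_nb := @om_nbL L (fun a b => Classical.propDecidable (a = b))
  zeta := zetaL
  zeta_bal := zetaL_bal
  rk := rkL
  rk_inj := rkL_inj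
  rk_lt := rkL_lt
  lk_has := lkL_has
  elim := zetaL_elim

end Crest.Agent.CPTL
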