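/-
  Coordinates of the torus: values, the step function, positions, the chain between two positions.
-/
import Crest.Agent.Lib.CPTL.Lat

set_option autoImplicit false
set_option linter.unusedSectionVars false

noncomputable section
open Classical

namespace Crest.Agent.CPTL

variable {L : ℕ}

/-- The size of the coordinate ring. -/
theorem card_N : (2 * (L + 4)) = 2 * L + 8 := by ring

theorem val_lt_N (x : ZN L) : x.val < 2 * L + 8 := by
  have := ZMod.val_lt x
  omega

theorem cast_val (x : ZN L) : ((x.val : ℕ) : ZN L) = x := ZMod.natCast_zmod_val x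

theorem val_cast_of_lt {n : ℕ} (h : n < 2 * L + 8) : ((n : ℕ) : ZN L).val = n :=
  ZMod.val_natCast_of_lt (by omega)

theorem par_cast (n : ℕ) : par ((n : ℕ) : ZN L) = (n : ZMod 2) := map_natCast _ n

theorem zmod2_cast_eq_one {n : ℕ} : ((n : ℕ) : ZMod 2) = 1 ↔ n % 2 = 1 := by
  rw [← ZMod.natCast_mod n 2]
  have : n % 2 = 0 ∨ n % 2 = 1 := by omega
  rcases this with h | h <;> rw [h] <;> simp

theorem zmod2_cast_eq_zero {n : ℕ} : ((n : ℕ) : ZMod 2) = 0 ↔ n % 2 = 0 := by
  rw [← ZMod.natCast_mod n 2]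
  have : n % 2 = 0 ∨ n % 2 = 1 := by omega
  rcases this with h | h <;> rw [h] <;> simp

theorem par_eq_one_iff (x : ZN L) : par x = 1 ↔ x.val % 2 = 1 := by
  conv_lhs => rw [← cast_val x, par_cast]
  exact zmod2_cast_eq_one

theorem par_eq_zero_iff (x : ZN L) : par x = 0 ↔ x.val % 2 = 0 := by
  conv_lhs => rw [← cast_val x, par_cast]
  exact zmod2_cast_eq_zero

theorem zmod2_cases (a : ZMod 2) : a = 0 ∨ a = 1 := by
  revert a; decide

theorem val_add_one (x : ZN L) : (x + 1).val = if x.val + 1 < 2 * L + 8 then x.val + 1 else 0 := by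
  have hx := val_lt_N x
  conv_lhs => rw [← cast_val x]
  have : ((x.val : ℕ) : ZN L) + 1 = ((x.val + 1 : ℕ) : ZN L) := by push_cast; ring
  rw [this]
  split_ifs with h
  · exact val_cast_of_lt h
  · have h2 : x.val + 1 = 2 * (L + 4) := by omega
    rw [h2, ZMod.natCast_self, ZMod.val_zero]

theorem val_sub_one (x : ZN L) : (x + -1).val = if x.val = 0 then 2 * L + 7 else x.val - 1 := by
  have hx := val_lt_N x
  conv_lhs => rw [← cast_val x]
  split_ifs with h
  · rw [h]
    have : ((0 : ℕ) : ZN L) + -1 = ((2 * L + 7 : ℕ) : ZN L) := by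
      have h0 : ((2 * (L + 4) : ℕ) : ZN L) = 0 := ZMod.natCast_self _
      push_cast at h0 ⊢
      linear_combination - h0
    rw [this]
    exact val_cast_of_lt (by omega)
  · have : ((x.val : ℕ) : ZN L) + -1 = ((x.val - 1 : ℕ) : ZN L) := by
      obtain ⟨k, hk⟩ : ∃ k, x.val = k + 1 := ⟨x.val - 1, by omega⟩
      rw [hk]
      push_cast
      simp
    rw [this]
    exact val_cast_of_lt (by omega)

theorem val_sv_true (x : ZN L) : (x + sv true).val = if x.val + 1 < 2 * L + 8 then x.val + 1 else 0 :=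
  val_add_one x

theorem val_sv_false (x : ZN L) : (x + sv false).val = if x.val = 0 then 2 * L + 7 else x.val - 1 :=
  val_sub_one x

theorem eq_of_val_eq {x y : ZN L} (h : x.val = y.val) : x = y := by
  rw [← cast_val x, ← cast_val y, h]

/-- The odd coordinate `2a+1`. -/
def oddOf (a : Fin (L + 1)) : ZN L := ((2 * a.val + 1 : ℕ) : ZN L)

theorem val_oddOf (a : Fin (L + 1)) : (oddOf a).val = 2 * a.val + 1 :=
  val_cast_of_lt (by have := a.isLt; omega)

theorem eq_oddOf_iff (x : ZN L) (a : Fin (L + 1)) : x = oddOf a ↔ x.val = 2 * a.val + 1 := by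
  constructor
  · rintro rfl; exact val_oddOf a
  · intro h; exact eq_of_val_eq (by rw [h, val_oddOf])

theorem oddOf_inj {a b : Fin (L + 1)} (h : oddOf a = oddOf b) : a = b := by
  have := congrArg ZMod.val h
  rw [val_oddOf, val_oddOf] at this
  exact Fin.ext (by omega)

theorem par_oddOf (a : Fin (L + 1)) : par (oddOf a) = 1 := by
  rw [par_eq_one_iff, val_oddOf]; omega

/-- The step function. -/
def Hev (a : Fin (L + 1)) (x : ZN L) : F3 := if 2 * a.val + 1 < x.val then 1 else 0

theorem eq_neg_one_iff (x : ZN L) : x = -1 ↔ x.val = 2 * L + 7 := by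
  constructor
  · rintro rfl
    have := val_sub_one (0 : ZN L)
    simpa using this
  · intro h
    have h1 : (-1 : ZN L).val = 2 * L + 7 := by
      have := val_sub_one (0 : ZN L)
      simpa using this
    exact eq_of_val_eq (by rw [h, h1])

/-- The derivative of the step function at an odd point. -/
theorem Hev_deriv (a : Fin (L + 1)) (x : ZN L) (hx : par x = 1) :
    Hev a (x + sv true) - Hev a (x + sv false) =
      (if x = oddOf a then 1 else 0) - (if x = -1 then 1 else 0) := by
  rw [par_eq_one_iff] at hx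
  have hlt := val_lt_N x
  have ha := a.isLt
  unfold Hev
  simp only [val_sv_true, val_sv_false, eq_oddOf_iff, eq_neg_one_iff]
  have h0 : x.val ≠ 0 := by omega
  rw [if_neg h0]
  by_cases h1 : x.val + 1 < 2 * L + 8
  · rw [if_pos h1]
    by_cases h2 : x.val = 2 * a.val + 1
    · rw [if_pos h2, if_neg (by omega : ¬ x.val = 2 * L + 7), if_pos (by omega), if_neg (by omega)]
    · rw [if_neg h2, if_neg (by omega : ¬ x.val = 2 * L + 7)]
      by_cases h3 : 2 * a.val + 1 < x.val
      · rw [if_pos (by omega), if_pos (by omega)]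
        decide
      · rw [if_neg (by omega), if_neg (by omega)]
  · rw [if_neg h1, if_neg (by omega : ¬ x.val = 2 * a.val + 1), if_pos (by omega : x.val = 2 * L + 7),
      if_neg (by omega), if_pos (by omega)]

/-- The derivative of a difference of step functions. -/
theorem Hev_deriv2 (a b : Fin (L + 1)) (x : ZN L) (hx : par x = 1) :
    (Hev a (x + sv true) - Hev b (x + sv true)) - (Hev a (x + sv false) - Hev b (x + sv false)) =
      (if x = oddOf a then 1 else 0) - (if x = oddOf b then 1 else 0) := by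
  have h1 := Hev_deriv a x hx
  have h2 := Hev_deriv b x hx
  linear_combination h1 - h2

/-! ### Positions -/

/-- Positions. -/
abbrev PosL (L : ℕ) := Fin (L + 1) × Fin (L + 1)

/-- The point of a position. -/
def fPos (p : PosL L) : VT L := ![oddOf p.1, oddOf p.2, 0]

@[simp] theorem fPos_0 (p : PosL L) : fPos p 0 = oddOf p.1 := rfl
@[simp] theorem fPos_1 (p : PosL L) : fPos p 1 = oddOf p.2 := rfl
@[simp] theorem fPos_2 (p : PosL L) : fPos p 2 = 0 := rfl

theorem fin3_ext {α : Type} {u v : Fin 3 → α} (h0 : u 0 = v 0) (h1 : u 1 = v 1) (h2 : u 2 = v 2) : u = v := by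
  funext i
  fin_cases i
  · exact h0
  · exact h1
  · exact h2

theorem fPos_inj {p q : PosL L} (h : fPos p = fPos q) : p = q := by
  have h0 := congrFun h 0
  have h1 := congrFun h 1
  simp only [fPos_0, fPos_1] at h0 h1
  exact Prod.ext (oddOf_inj h0) (oddOf_inj h1)

theorem pv_fPos (p : PosL L) : pv (fPos p) = ![1, 1, 0] := by
  apply fin3_ext
  · show par (oddOf p.1) = 1
    exact par_oddOf _
  · show par (oddOf p.2) = 1
    exact par_oddOf _
  · show par (0 : ZN L) = 0
    exact map_zero _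

/-- The odd-one-out of `(1,1,0)`. -/
theorem mP_110 : mP ![1, 1, 0] = 2 := by decide

theorem fP_110 : fP ![1, 1, 0] := by decide

theorem not_rm_110 : ¬ rmP ![1, 1, 0] := by decide

/-- The point of a position, as a point. -/
def ptPos (p : PosL L) : PtL L := ⟨fPos p, by rw [pv_fPos]; exact not_rm_110⟩

@[simp] theorem ptPos_val (p : PosL L) : (ptPos p).1 = fPos p := rfl

theorem mOf_fPos (p : PosL L) : mOf (fPos p) = 2 := by
  unfold mOf
  rw [pv_fPos]
  exact mP_110

theorem fP_fPos (p : PosL L) : fP (pv (fPos p)) := by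
  rw [pv_fPos]; exact fP_110

theorem dirM2_false : dirM 2 false = 0 := by decide
theorem dirM2_true : dirM 2 true = 1 := by decide

/-! ### Links from the `F` side -/

/-- Every lattice link, seen from its `F` end. -/
theorem lat_from_F (x : LatL L) : ∃ (f : PtL L) (j s : Bool), fP (pv f.1) ∧ x = latAt f j s := by
  obtain ⟨j, hj⟩ := lat_dir x
  have hx := lat_eq_latAt x j hj
  by_cases h : fP (pv x.1.1)
  · exact ⟨⟨x.1.1, x.2.1⟩, j, true, h, hx.symm⟩
  · refine ⟨nbP ⟨x.1.1, x.2.1⟩ j true, !j, false, ?_, ?_⟩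
    · exact (f_nbP ⟨x.1.1, x.2.1⟩ j true).2 h
    · rw [← hx]
      exact (latAt_symm _ j true).symm

theorem fEnd_F (f : PtL L) (j s : Bool) (hf : fP (pv f.1)) : fEnd (latAt f j s) = f.1 := by
  rw [fEnd_latAt, if_pos hf]

theorem dEnd_F (f : PtL L) (j s : Bool) (hf : fP (pv f.1)) : dEnd (latAt f j s) = (nbP f j s).1 := by
  rw [dEnd_latAt, if_pos hf]

theorem fEnd_D (d : PtL L) (j s : Bool) (hd : ¬ fP (pv d.1)) : fEnd (latAt d j s) = (nbP d j s).1 := by
  rw [fEnd_latAt, if_neg hd]

theorem dEnd_D (d : PtL L) (j s : Bool) (hd : ¬ fP (pv d.1)) : dEnd (latAt d j s) = d.1 := by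
  rw [dEnd_latAt, if_neg hd]

/-- Parities of an `F` point with `m = 2`. -/
theorem pv_m2 : ∀ π : PV, ¬ rmP π → fP π → mP π = 2 → π 0 = 1 ∧ π 1 = 1 ∧ π 2 = 0 := by decide

/-! ### The chain between two positions -/

/-- In the plane `z = 0` with odd `x, y`. -/
def inPl (f : VT L) : Prop := mOf f = 2 ∧ f 2 = 0

theorem inPl_fPos (p : PosL L) : inPl (fPos p) := ⟨mOf_fPos p, rfl⟩

/-- The potential between two positions. -/
def gam (p q : PosL L) (d : VT L) : F3 :=
  if par (d 0) = 0 then (if d 1 = oddOf p.2 then Hev q.1 (d 0) - Hev p.1 (d 0) else 0)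
  else - (if d 0 = oddOf q.1 then Hev q.2 (d 1) - Hev p.2 (d 1) else 0)

/-- The chain between two positions. -/
def chi (p q : PosL L) : LkL L → F3
  | Sum.inl x => if inPl (fEnd x) then ccLat x * gam p q (dEnd x) else 0
  | Sum.inr _ => 0

/-- The incidence of the defect. -/
def i0 : IncL := Sum.inl (false, true)

/-- The correction between two positions. -/
def corrL (p q : PosL L) (r : PtL L) (i : IncL) : F3 :=
  if i = i0 then (if r.1 = fPos q then 1 else 0) - (if r.1 = fPos p then 1 else 0) else 0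

theorem corrL_add (p q r : PosL L) : corrL q r + corrL p q = corrL p r := by
  funext x i
  simp only [corrL, Pi.add_apply]
  split_ifs <;> ring

theorem corrL_self (p : PosL L) : corrL p p = 0 := by
  funext x i
  simp [corrL]

theorem gam_self (p : PosL L) : gam p p = 0 := by
  funext d
  simp [gam]

theorem chi_self (p : PosL L) : chi p p = 0 := by
  funext e
  rcases e with x | q
  · simp [chi, gam_self]
  · rfl

theorem chi_F (p q : PosL L) (f : PtL L) (j s : Bool) (hf : fP (pv f.1)) :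
    chi p q (Sum.inl (latAt f j s)) =
      if inPl f.1 then sgF s * sgF j * gam p q (nbP f j s).1 else 0 := by
  simp only [chi, fEnd_F f j s hf, dEnd_F f j s hf, ccLat_latAt]

theorem chi_D (p q : PosL L) (d : PtL L) (j s : Bool) (hd : ¬ fP (pv d.1)) :
    chi p q (Sum.inl (latAt d j s)) =
      if inPl (nbP d j s).1 then sgF s * sgF j * gam p q d.1 else 0 := by
  simp only [chi, fEnd_D d j s hd, dEnd_D d j s hd, ccLat_latAt]

theorem inPl_nb_iff (r : PtL L) (j s s' : Bool) : inPl (nbP r j s).1 ↔ inPl (nbP r j s').1 := by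
  have key : ∀ s : Bool, inPl (nbP r j s).1 ↔ (dirM (mOf r.1) (!j) = 2 ∧ r.1 2 = 0) := by
    intro s
    unfold inPl
    rw [mOf_nbP]
    refine and_congr_right fun h => ?_
    have h2 : (2 : Fin 3) ≠ dirM (mOf r.1) j := by
      rw [← h]
      exact (dirM_ne_not _ _).symm
    show mv r.1 _ s 2 = 0 ↔ _
    rw [mv_ne _ h2]
  rw [key, key]

theorem mF_m2_nb_false (f : PtL L) (hm : mOf f.1 = 2) (s : Bool) : (nbP f false s).1 = mv f.1 0 s := by
  show mv f.1 (dirM (mOf f.1) false) s = _
  rw [hm, dirM2_false]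

theorem mF_m2_nb_true (f : PtL L) (hm : mOf f.1 = 2) (s : Bool) : (nbP f true s).1 = mv f.1 1 s := by
  show mv f.1 (dirM (mOf f.1) true) s = _
  rw [hm, dirM2_true]

theorem par_add_sv (x : ZN L) (s : Bool) : par (x + sv s) = par x + 1 := by
  rw [map_add, par_sv]

theorem zmod2_one_add_one : (1 : ZMod 2) + 1 = 0 := by decide

/-- The value of the potential at the neighbours of a point of the plane. -/
theorem gam_false (p q : PosL L) (f : PtL L) (hm : mOf f.1 = 2) (hodd : par (f.1 0) = 1) (s : Bool) :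
    gam p q (nbP f false s).1 = if f.1 1 = oddOf p.2 then
      Hev q.1 (f.1 0 + sv s) - Hev p.1 (f.1 0 + sv s) else 0 := by
  rw [mF_m2_nb_false f hm]
  unfold gam
  have h0 : mv f.1 0 s 0 = f.1 0 + sv s := mv_same _ _ _
  have h1 : mv f.1 0 s 1 = f.1 1 := mv_ne _ (by decide) _
  rw [h0, h1, if_pos (by rw [par_add_sv, hodd]; exact zmod2_one_add_one)]

theorem gam_true (p q : PosL L) (f : PtL L) (hm : mOf f.1 = 2) (hodd : par (f.1 0) = 1) (s : Bool) :
    gam p q (nbP f true s).1 = - (if f.1 0 = oddOf q.1 then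
      Hev q.2 (f.1 1 + sv s) - Hev p.2 (f.1 1 + sv s) else 0) := by
  rw [mF_m2_nb_true f hm]
  unfold gam
  have h0 : mv f.1 1 s 0 = f.1 0 := mv_ne _ (by decide) _
  have h1 : mv f.1 1 s 1 = f.1 1 + sv s := mv_same _ _ _
  rw [h0, h1, if_neg (by rw [hodd]; exact one_ne_zero)]

/-- Facts about an `F` point in the plane. -/
theorem inPl_facts (f : PtL L) (hf : fP (pv f.1)) (hm : mOf f.1 = 2) :
    par (f.1 0) = 1 ∧ par (f.1 1) = 1 ∧ par (f.1 2) = 0 :=
  pv_m2 _ f.2 hf hm

theorem eq_fPos_iff (f : VT L) (hz : f 2 = 0) (p : PosL L) :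
    f = fPos p ↔ f 0 = oddOf p.1 ∧ f 1 = oddOf p.2 := by
  constructor
  · rintro rfl
    exact ⟨rfl, rfl⟩
  · rintro ⟨h0, h1⟩
    exact fin3_ext h0 h1 hz

/-- Balance of the chain at an `F` point of the plane. -/
theorem chi_sum_plane (p q : PosL L) (f : PtL L) (hf : fP (pv f.1)) (hpl : inPl f.1) :
    ∑ x : Bool × Bool, chi p q (Sum.inl (latAt f x.1 x.2)) =
      (if f.1 = fPos p then 1 else 0) - (if f.1 = fPos q then 1 else 0) := by
  obtain ⟨hodd0, hodd1, _⟩ := inPl_facts f hf hpl.1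
  rw [Fintype.sum_prod_type, Fintype.sum_bool, Fintype.sum_bool, Fintype.sum_bool]
  simp only [chi_F p q f _ _ hf, if_pos hpl, gam_false p q f hpl.1 hodd0, gam_true p q f hpl.1 hodd0,
    sgF_true, sgF_false]
  have h1 := Hev_deriv2 q.1 p.1 (f.1 0) hodd0
  have h2 := Hev_deriv2 q.2 p.2 (f.1 1) hodd1
  obtain ⟨iYp, hYp⟩ : ∃ i : F3, i = if f.1 1 = oddOf p.2 then 1 else 0 := ⟨_, rfl⟩
  obtain ⟨iXq, hXq⟩ : ∃ i : F3, i = if f.1 0 = oddOf q.1 then 1 else 0 := ⟨_, rfl⟩
  obtain ⟨iXp, hXp⟩ : ∃ i : F3, i = if f.1 0 = oddOf p.1 then 1 else 0 := ⟨_, rfl⟩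
  obtain ⟨iYq, hYq⟩ : ∃ i : F3, i = if f.1 1 = oddOf q.2 then 1 else 0 := ⟨_, rfl⟩
  have e1 : ∀ u : F3, (if f.1 1 = oddOf p.2 then u else 0) = iYp * u := by
    intro u; rw [hYp]; split_ifs <;> simp
  have e2 : ∀ u : F3, (if f.1 0 = oddOf q.1 then u else 0) = iXq * u := by
    intro u; rw [hXq]; split_ifs <;> simp
  have e3 : (if f.1 = fPos p then (1 : F3) else 0) = iXp * iYp := by
    rw [hXp, hYp]
    simp only [eq_fPos_iff _ hpl.2]
    by_cases h : f.1 0 = oddOf p.1 <;> by_cases h' : f.1 1 = oddOf p.2 <;> simp [h, h']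
  have e4 : (if f.1 = fPos q then (1 : F3) else 0) = iXq * iYq := by
    rw [hXq, hYq]
    simp only [eq_fPos_iff _ hpl.2]
    by_cases h : f.1 0 = oddOf q.1 <;> by_cases h' : f.1 1 = oddOf q.2 <;> simp [h, h']
  rw [← hXq, ← hXp] at h1
  rw [← hYq, ← hYp] at h2
  rw [e3, e4]
  simp only [e1, e2]
  linear_combination (- iYp) * h1 + (- iXq) * h2

end Crest.Agent.CPTL
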