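/-
  The transfer theorem: plain terms commute with `T`.
-/
import Crest.Agent.Lib.CPTL.Eval

set_option autoImplicit false
set_option linter.unusedSectionVars false

noncomputable section
open Classical

namespace Crest.Agent.CPTL

open Crest.LogicCS.HFSet Crest.LogicCS.CPT

variable {σ : Type}

/-- The statement of the transfer theorem for terms. -/
def TermT {n : ℕ} (t : Term σ n) : Prop :=
  t.wscCount = 0 → ∃ c K : ℕ, 1 ≤ c ∧ n + 5 ≤ K ∧ ∀ (A : Type) [Fintype A] (R0 R1 : σ → A → A → Bool)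
    (D : TData R0 R1) (p B : ℕ), p + Fintype.card A + 2 ≤ B → D.Large (B ^ c) K →
    ∀ e : Fin n → HF A, (∀ i, Ok R0 B (e i)) → ∀ (ψ : Equiv.Perm A) (q : D.Pos), D.Val ψ q →
    q ∈ D.C (SS D.Z (Set.range e)) →
    ∃ v, t.eval R0 p e = some v ∧ tcSize v ≤ B ^ c ∧
      t.eval R1 p (fun i => D.T ψ q (e i)) = some (D.T ψ q v)

/-- The statement of the transfer theorem for formulas. -/
def FormT {n : ℕ} (φ : Formula σ n) : Prop :=
  φ.wscCount = 0 → ∃ c K : ℕ, 1 ≤ c ∧ n + 5 ≤ K ∧ ∀ (A : Type) [Fintype A] (R0 R1 : σ → A → A → Bool)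
    (D : TData R0 R1) (p B : ℕ), p + Fintype.card A + 2 ≤ B → D.Large (B ^ c) K →
    ∀ e : Fin n → HF A, (∀ i, Ok R0 B (e i)) → ∀ (ψ : Equiv.Perm A) (q : D.Pos), D.Val ψ q →
    q ∈ D.C (SS D.Z (Set.range e)) →
    ∃ b, φ.eval R0 p e = some b ∧ φ.eval R1 p (fun i => D.T ψ q (e i)) = some b

namespace TData

variable {A : Type} [Fintype A] {R0 R1 : σ → A → A → Bool} (D : TData R0 R1)

/-- environment as a finite set -/
def envE {n : ℕ} (e : Fin n → HF A) : Finset (HF A) := Finset.univ.image e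

theorem coe_envE {n : ℕ} (e : Fin n → HF A) : (envE e : Set (HF A)) = Set.range e := by
  simp [envE]

theorem card_envE {n : ℕ} (e : Fin n → HF A) : (envE e).card ≤ n := by
  have := Finset.card_image_le (s := (Finset.univ : Finset (Fin n))) (f := e)
  simpa [envE] using this

theorem pow_le_pow' {B a b : ℕ} (hB : 2 ≤ B) (h : a ≤ b) : B ^ a ≤ B ^ b :=
  Nat.pow_le_pow_right (by omega) h

theorem le_pow' {B c : ℕ} (hB : 2 ≤ B) (h : 1 ≤ c) : B ≤ B ^ c := by
  calc B = B ^ 1 := (pow_one B).symm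
    _ ≤ B ^ c := pow_le_pow' hB h

theorem St_of_def {n : ℕ} {e : Fin n → HF A} {x : HF A} (hd : Def R0 e x) :
    SS D.Z (Set.range e) ≤ D.St x := fun z hz =>
  (D.mem_St).2 ⟨hz.1, def_rename_eq hd (D.Z_aut z hz.1) (fun i => hz.2 _ ⟨i, rfl⟩)⟩

/-- `Ok` for a value of the environment. -/
theorem ok_value {n : ℕ} {e : Fin n → HF A} {x : HF A} {B c : ℕ} (hB : 2 ≤ B)
    (he : ∀ i, Ok R0 B (e i)) (hd : Def R0 e x) (hW : tcSize x ≤ B ^ c) :
    Ok R0 (B ^ (n + c + 1)) x := by
  have := ok_of_def (R := R0) (B := B) (W := B ^ c) (by omega) (fun i => (he i).2.1) hd hW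
  refine this.mono ?_
  have h1 : B ^ c + 1 ≤ B ^ (c + 1) := by
    have h2 : 1 ≤ B ^ c := Nat.one_le_pow _ _ (by omega)
    rw [pow_succ]
    nlinarith
  calc B ^ n * (B ^ c + 1) ≤ B ^ n * B ^ (c + 1) := Nat.mul_le_mul_left _ h1
    _ = B ^ (n + c + 1) := by rw [← pow_add]; rfl

theorem T_env_move {n : ℕ} {e : Fin n → HF A} (ψ : Equiv.Perm A) {q q4 : D.Pos}
    (hq : q ∈ D.C (SS D.Z (Set.range e))) (h4 : q4 ∈ D.C (SS D.Z (Set.range e))) (i : Fin n) :
    D.T (ψ * D.Mv q q4) q4 (e i) = D.T ψ q (e i) :=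
  D.T_mv ψ (D.C_mono (D.SS_le_St (E := Set.range e) (x := e i) ⟨i, rfl⟩) hq)
    (D.C_mono (D.SS_le_St (E := Set.range e) (x := e i) ⟨i, rfl⟩) h4)

theorem T_cons_env {n : ℕ} {e : Fin n → HF A} (ψ : Equiv.Perm A) {q q4 : D.Pos}
    (hq : q ∈ D.C (SS D.Z (Set.range e))) (h4 : q4 ∈ D.C (SS D.Z (Set.range e))) (u : HF A) :
    (fun j => D.T (ψ * D.Mv q q4) q4 ((Fin.cons u e : Fin (n + 1) → HF A) j)) =
      (Fin.cons (D.T (ψ * D.Mv q q4) q4 u) (fun i => D.T ψ q (e i)) : Fin (n + 1) → HF A) := by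
  funext j
  refine Fin.cases ?_ (fun i => ?_) j
  · simp
  · simpa using D.T_env_move ψ hq h4 i

theorem range_cons' {n : ℕ} (u : HF A) (e : Fin n → HF A) :
    Set.range (Fin.cons u e : Fin (n + 1) → HF A) = insert u (Set.range e) :=
  Fin.range_cons u e

/-- Two successive position moves, rewritten as one. -/
theorem T_two_step {S : Subgroup (Equiv.Perm A)} (hS : S ≤ D.Z) (ψ : Equiv.Perm A) {q q3 q5 : D.Pos}
    (hq : q ∈ D.C S) (h3 : q3 ∈ D.C S) (h5 : q5 ∈ D.C S) (y : HF A) :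
    ∃ c ∈ S, D.T (ψ * D.Mv q q3 * D.Mv q3 q5) q5 y = D.T (ψ * D.Mv q q5) q5 (rename ⇑c y) := by
  have hc := D.cocycle S q q3 q5 hq h3 h5
  have hcZ := hS hc
  refine ⟨_, hc, ?_⟩
  rw [← D.T_mul_Z y _ _ hcZ]
  congr 1
  have h2 : D.Mv q q5 * (D.Mv q q3 * D.Mv q3 q5 * (D.Mv q q5)⁻¹) = D.Mv q q3 * D.Mv q3 q5 := by
    rw [D.Mv_Z q q5 _ hcZ]; group
  calc ψ * D.Mv q q3 * D.Mv q3 q5 = ψ * (D.Mv q q3 * D.Mv q3 q5) := by group
    _ = ψ * (D.Mv q q5 * (D.Mv q q3 * D.Mv q3 q5 * (D.Mv q q5)⁻¹)) := by rw [h2]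
    _ = _ := by group

theorem Large.pos_insert2 {D : TData R0 R1} {B K : ℕ} (hL : D.Large B K) {E : Finset (HF A)} {u v : HF A}
    (hE : E.card + 2 ≤ K) (okE : ∀ y ∈ E, Ok R0 B y) (oku : Ok R0 B u) (okv : Ok R0 B v) :
    ∃ q, q ∈ D.C (SS D.Z (insert v (insert u (E : Set (HF A))))) := by
  have h := hL (insert v (insert u E)) (by
    refine (Finset.card_insert_le _ _).trans ?_
    have := Finset.card_insert_le u E
    omega) (by
    intro y hy
    simp only [Finset.mem_insert] at hy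
    rcases hy with rfl | rfl | hy
    · exact okv
    · exact oku
    · exact okE y hy)
  rw [Finset.coe_insert, Finset.coe_insert] at h
  exact h

theorem C_env {E : Set (HF A)} {u : HF A} {q : D.Pos} (h : q ∈ D.C (SS D.Z (insert u E))) :
    q ∈ D.C (SS D.Z E) := D.C_mono (SS_anti (Set.subset_insert _ _)) h

theorem C_head {E : Set (HF A)} {u : HF A} {q : D.Pos} (h : q ∈ D.C (SS D.Z (insert u E))) :
    q ∈ D.C (D.St u) := D.C_mono (D.SS_le_St (Set.mem_insert _ _)) h

theorem C_ins_rename {E : Set (HF A)} {u : HF A} {q : D.Pos} {c : Equiv.Perm A} (hc : c ∈ D.Z)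
    (h : q ∈ D.C (SS D.Z (insert u E))) : q ∈ D.C (SS D.Z (insert (rename ⇑c u) E)) := by
  rw [D.SS_insert, D.St_rename hc, ← D.SS_insert]; exact h

theorem mem_of_St {x u : HF A} {c : Equiv.Perm A} (hc : c ∈ D.St x) (hu : u ∈ members x) :
    rename ⇑c u ∈ members x := by
  have hcx := ((D.mem_St).1 hc).2
  rw [← hcx]
  exact (mem_members_rename c).2 hu

/-- A rebased representative, with position clean for the environment and the member together. -/
theorem mem_T_rep3 {B K : ℕ} (hL : D.Large B K) {E : Finset (HF A)} (hE : E.card + 1 ≤ K)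
    (okE : ∀ y ∈ E, Ok R0 B y) {ψ : Equiv.Perm A} {q : D.Pos}
    (hq : q ∈ D.C (SS D.Z (E : Set (HF A)))) {x w : HF A} (okx : Ok R0 B x)
    (hS : SS D.Z (E : Set (HF A)) ≤ D.St x) (hw : w ∈ members (D.T ψ q x)) :
    ∃ v ∈ members x, ∃ q3, q3 ∈ D.C (SS D.Z (insert v (E : Set (HF A)))) ∧
      w = D.T (ψ * D.Mv q q3) q3 v := by
  obtain ⟨u, hu, q', h1, h2, s, hs, rfl⟩ := D.mem_T.1 hw
  obtain ⟨q3, h3⟩ := hL.pos_insert hE okE (okx.of_mem hu)
  have h3S : q3 ∈ D.C (SS D.Z (E : Set (HF A))) := D.C_mono (SS_anti (Set.subset_insert _ _)) h3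
  have h3u : q3 ∈ D.C (D.St u) := D.C_mono (D.SS_le_St (Set.mem_insert _ _)) h3
  obtain ⟨c, hc, e⟩ := D.rebase (D.St x) (D.St_le x) ψ (D.C_mono hS hq) h1 (D.C_mono hS h3S) h2 h3u hs
  have hcZ := D.St_le x hc
  refine ⟨rename ⇑c u, ?_, q3, ?_, e⟩
  · have hcx := ((D.mem_St).1 hc).2
    rw [← hcx]
    exact (mem_members_rename c).2 hu
  · rw [D.SS_insert, D.St_rename hcZ, ← D.SS_insert]
    exact h3

end TData

section Cases

theorem termT_var {n : ℕ} (i : Fin n) : TermT (Term.var i : Term σ n) := by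
  intro _
  refine ⟨1, n + 5, le_rfl, le_rfl, ?_⟩
  intro A _ R0 R1 D p B hB _ e he ψ q _ _
  refine ⟨e i, by simp, ?_, by simp⟩
  rw [pow_one]
  exact (he i).1

theorem termT_empty {n : ℕ} : TermT (Term.empty : Term σ n) := by
  intro _
  refine ⟨1, n + 5, le_rfl, le_rfl, ?_⟩
  intro A _ R0 R1 D p B hB _ e he ψ q _ hq
  refine ⟨empty, by simp, by rw [tcSize_empty]; exact Nat.zero_le _, ?_⟩
  rw [D.T_empty (D.C_mono (SS_le _ _) hq)]
  simp

theorem tcF_allAtoms {A : Type} [Fintype A] : tcF (allAtoms A) = members (allAtoms A) := by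
  rw [tcF_eq]
  ext u
  simp only [Finset.mem_union, Finset.mem_biUnion]
  constructor
  · rintro (h | ⟨v, hv, h⟩)
    · exact h
    · obtain ⟨a, rfl⟩ := mem_allAtoms.1 hv
      rw [tcF_eq] at h
      simp at h
  · intro h; exact Or.inl h

theorem tcSize_allAtoms {A : Type} [Fintype A] : tcSize (allAtoms A) ≤ Fintype.card A := by
  rw [tcSize_eq, tcF_allAtoms]
  unfold allAtoms
  rw [members_ofFinset]
  exact Finset.card_image_le

theorem termT_atoms {n : ℕ} : TermT (Term.atoms : Term σ n) := by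
  intro _
  refine ⟨n + 2, n + 5, by omega, le_rfl, ?_⟩
  intro A _ R0 R1 D p B hB hL e he ψ q hψ hq
  have hB2 : 2 ≤ B := by omega
  have hdef : Def R0 e (allAtoms A) := def_const_of_fixed (rename_allAtoms)
  have hsz : tcSize (allAtoms A) ≤ B ^ 1 := by
    rw [pow_one]; exact tcSize_allAtoms.trans (by omega)
  have hok : Ok R0 (B ^ (n + 2)) (allAtoms A) := TData.ok_value hB2 he hdef hsz
  have hBle : B ≤ B ^ (n + 2) := TData.le_pow' hB2 (by omega)
  refine ⟨allAtoms A, by simp, hok.1, ?_⟩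
  have okE : ∀ y ∈ TData.envE e, Ok R0 (B ^ (n + 2)) y := by
    intro y hy
    obtain ⟨i, _, rfl⟩ := Finset.mem_image.1 hy
    exact (he i).mono hBle
  have hq' : q ∈ D.C (SS D.Z (TData.envE e : Set (HF A))) := by rwa [TData.coe_envE]
  have := D.T_allAtoms hL (by omega) (E := TData.envE e) (by have := TData.card_envE e; omega)
    okE hψ hq' hok
  simp only [eval_atoms]
  exact congrArg some this.symm

theorem tcSize_pair_le {A : Type} [Fintype A] (a b : HF A) :
    tcSize (ofFinset {a, b}) ≤ 2 + tcSize a + tcSize b := by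
  rw [tcSize_eq, tcSize_eq, tcSize_eq]
  have : tcF (ofFinset {a, b}) ⊆ ({a, b} : Finset (HF A)) ∪ (tcF a ∪ tcF b) := by
    intro y hy
    rcases mem_tcF.1 hy with h | ⟨u, hu, h⟩
    · rw [members_ofFinset] at h
      exact Finset.mem_union_left _ h
    · rw [members_ofFinset] at hu
      simp only [Finset.mem_insert, Finset.mem_singleton] at hu
      rcases hu with rfl | rfl
      · exact Finset.mem_union_right _ (Finset.mem_union_left _ h)
      · exact Finset.mem_union_right _ (Finset.mem_union_right _ h)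
  refine (Finset.card_le_card this).trans ?_
  refine (Finset.card_union_le _ _).trans ?_
  have h1 : ({a, b} : Finset (HF A)).card ≤ 2 := Finset.card_le_two
  have h2 := Finset.card_union_le (tcF a) (tcF b)
  omega

theorem termT_pair {n : ℕ} {s t : Term σ n} (hs : TermT s) (ht : TermT t) :
    TermT (Term.pair s t) := by
  intro h
  have h1 : s.wscCount = 0 := by simp only [Term.wscCount] at h; omega
  have h2 : t.wscCount = 0 := by simp only [Term.wscCount] at h; omega
  obtain ⟨c1, K1, hc1, hK1, H1⟩ := hs h1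
  obtain ⟨c2, K2, hc2, hK2, H2⟩ := ht h2
  refine ⟨c1 + c2 + 2, K1 + K2, by omega, by omega, ?_⟩
  intro A _ R0 R1 D p B hB hL e he ψ q hψ hq
  have hB2 : 2 ≤ B := by omega
  obtain ⟨a, ha1, ha2, ha3⟩ := H1 A R0 R1 D p B hB
    (hL.mono (TData.pow_le_pow' hB2 (by omega)) (by omega)) e he ψ q hψ hq
  obtain ⟨b, hb1, hb2, hb3⟩ := H2 A R0 R1 D p B hB
    (hL.mono (TData.pow_le_pow' hB2 (by omega)) (by omega)) e he ψ q hψ hq
  refine ⟨ofFinset {a, b}, by simp [eval_pair, ha1, hb1], ?_, ?_⟩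
  · refine (tcSize_pair_le a b).trans ?_
    have hX1 : B ^ c1 ≤ B ^ (c1 + c2) := TData.pow_le_pow' hB2 (by omega)
    have hX2 : B ^ c2 ≤ B ^ (c1 + c2) := TData.pow_le_pow' hB2 (by omega)
    have hX3 : 2 ≤ B ^ (c1 + c2) := hB2.trans (TData.le_pow' hB2 (by omega))
    have hX4 : B ^ (c1 + c2 + 2) = B ^ (c1 + c2) * (B * B) := by ring
    have hX5 : 4 ≤ B * B := by nlinarith
    rw [hX4]
    nlinarith
  · rw [eval_pair, ha3, hb3]
    simp only [Option.bind_some, Option.map_some, Option.some.injEq]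
    have hda : Def R0 e a := def_of_term p h1 ha1
    have hdb : Def R0 e b := def_of_term p h2 hb1
    have hSa := D.St_of_def hda
    have hSb := D.St_of_def hdb
    have hS : SS D.Z (Set.range e) ≤ D.St (ofFinset {a, b}) := by
      intro z hz
      refine (D.mem_St).2 ⟨hz.1, ?_⟩
      have h3 := ((D.mem_St).1 (hSa hz)).2
      have h4 := ((D.mem_St).1 (hSb hz)).2
      simp [Finset.image_insert, h3, h4]
    have hm := D.members_T_of_def (ψ := ψ) hS hq (by
      intro u hu
      rw [members_ofFinset] at hu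
      simp only [Finset.mem_insert, Finset.mem_singleton] at hu
      rcases hu with rfl | rfl
      · exact hSa
      · exact hSb)
    refine hf_ext (not_isAtom_ofFinset _) (D.T_not_atom _ _ (not_isAtom_ofFinset _)) ?_
    rw [hm, members_ofFinset, members_ofFinset, Finset.image_insert, Finset.image_singleton]

theorem tcF_union_subset {A : Type} [Fintype A] (x : HF A) :
    tcF (ofFinset ((members x).biUnion members)) ⊆ tcF x := by
  intro y hy
  rcases mem_tcF.1 hy with h | ⟨u, hu, h⟩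
  · rw [members_ofFinset, Finset.mem_biUnion] at h
    obtain ⟨v, hv, hy⟩ := h
    exact tcF_trans (mem_tcF_of_mem hv) (mem_tcF_of_mem hy)
  · rw [members_ofFinset, Finset.mem_biUnion] at hu
    obtain ⟨v, hv, hu⟩ := hu
    exact tcF_trans (tcF_trans (mem_tcF_of_mem hv) (mem_tcF_of_mem hu)) h

theorem termT_union {n : ℕ} {t : Term σ n} (ht : TermT t) : TermT (Term.union t) := by
  intro h
  have h1 : t.wscCount = 0 := by simpa only [Term.wscCount] using h
  obtain ⟨c1, K1, hc1, hK1, H1⟩ := ht h1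
  refine ⟨n + c1 + 1, K1 + n + 5, by omega, by omega, ?_⟩
  intro A _ R0 R1 D p B hB hL e he ψ q hψ hq
  have hB2 : 2 ≤ B := by omega
  obtain ⟨x, hx1, hx2, hx3⟩ := H1 A R0 R1 D p B hB
    (hL.mono (TData.pow_le_pow' hB2 (by omega)) (by omega)) e he ψ q hψ hq
  set y : HF A := ofFinset ((members x).biUnion members) with hy
  have hy1 : (Term.union t).eval R0 p e = some y := by rw [eval_union, hx1]; rfl
  have hdx : Def R0 e x := def_of_term p h1 hx1
  have hdy : Def R0 e y := def_of_term p h hy1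
  have hysz : tcSize y ≤ B ^ c1 := by
    refine le_trans ?_ hx2
    rw [tcSize_eq, tcSize_eq]
    exact Finset.card_le_card (tcF_union_subset x)
  have okx := TData.ok_value hB2 he hdx hx2
  have oky := TData.ok_value hB2 he hdy hysz
  refine ⟨y, hy1, (oky.1.trans ?_), ?_⟩
  · exact le_rfl
  · rw [eval_union, hx3]
    simp only [Option.map_some, Option.some.injEq]
    set B' := B ^ (n + c1 + 1) with hB'
    have hBle : B ≤ B' := TData.le_pow' hB2 (by omega)
    set E := TData.envE e with hE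
    have hEc : E.card ≤ n := TData.card_envE e
    have okE : ∀ y ∈ E, Ok R0 B' y := by
      intro y hy
      obtain ⟨i, _, rfl⟩ := Finset.mem_image.1 hy
      exact (he i).mono hBle
    have hEr : (E : Set (HF A)) = Set.range e := TData.coe_envE e
    have hq' : q ∈ D.C (SS D.Z (E : Set (HF A))) := by rwa [hEr]
    have hSx : SS D.Z (E : Set (HF A)) ≤ D.St x := by rw [hEr]; exact D.St_of_def hdx
    have hSy : SS D.Z (E : Set (HF A)) ≤ D.St y := by rw [hEr]; exact D.St_of_def hdy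
    have hSZ : SS D.Z (E : Set (HF A)) ≤ D.Z := SS_le _ _
    refine hf_ext (not_isAtom_ofFinset _) (D.T_not_atom _ _ (not_isAtom_ofFinset _)) ?_
    rw [members_ofFinset]
    ext w
    rw [Finset.mem_biUnion]
    constructor
    · rintro ⟨u', hu', hw⟩
      obtain ⟨u, hu, q3, h3, rfl⟩ := D.mem_T_rep3 hL (by omega) okE hq' okx hSx hu'
      have oku := okx.of_mem hu
      obtain ⟨v, hv, q5, h5, h5u, h5v, rfl⟩ := D.mem_T_rep2 (fun q5 => q5 ∈ D.C (SS D.Z (E : Set (HF A))))
        (D.C_head h3) hw (by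
          intro v hv
          obtain ⟨q4, h4⟩ := hL.pos_insert2 (E := E) (by omega) okE oku (oku.of_mem hv)
          exact ⟨q4, D.C_env (D.C_env h4), D.C_head (D.C_env h4), D.C_head h4⟩)
      obtain ⟨c, hc, e2⟩ := D.T_two_step hSZ ψ hq' (D.C_env h3) h5 v
      rw [e2]
      refine D.mem_T_of hSy ?_ h5 (by rwa [D.St_rename (hSZ hc)])
      rw [hy, members_ofFinset, Finset.mem_biUnion]
      exact ⟨_, D.mem_of_St (hSx hc) hu, (mem_members_rename c).2 hv⟩
    · intro hw
      obtain ⟨v, hv, q3, h3, rfl⟩ := D.mem_T_rep3 hL (by omega) okE hq' oky hSy hw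
      rw [hy, members_ofFinset, Finset.mem_biUnion] at hv
      obtain ⟨u, hu, hvu⟩ := hv
      have oku := okx.of_mem hu
      have okv := oku.of_mem hvu
      obtain ⟨q4, h4⟩ := hL.pos_insert2 (E := E) (by omega) okE oku okv
      have h4S := D.C_env (D.C_env h4)
      obtain ⟨c, hc, e2⟩ := D.T_move hSZ ψ hq' (D.C_env h3) h4S (D.C_head h3) (D.C_head h4)
      rw [e2]
      have hcZ := hSZ hc
      refine ⟨D.T (ψ * D.Mv q q4) q4 (rename ⇑c u), ?_, ?_⟩
      · exact D.mem_T_of hSx (D.mem_of_St (hSx hc) hu) h4S (by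
          rw [D.St_rename hcZ]; exact D.C_head (D.C_env h4))
      · have := D.mem_T_of (ψ := ψ * D.Mv q q4) (q := q4) (q3 := q4)
          (x := rename ⇑c u) (u := rename ⇑c v) (S := D.St (rename ⇑c u)) le_rfl
          ((mem_members_rename _).2 hvu)
          (by rw [D.St_rename hcZ]; exact D.C_head (D.C_env h4))
          (by rw [D.St_rename hcZ]; exact D.C_head h4)
        rwa [D.Mv_self, mul_one] at this

theorem tcSize_theOnlyV_le {A : Type} [Fintype A] (x : HF A) : tcSize (theOnlyV x) ≤ tcSize x := by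
  by_cases h : ∃ y, members x = {y}
  · obtain ⟨y, hy⟩ := h
    rw [theOnlyV_of hy]
    exact (tcSize_lt_of_mem (by rw [hy]; simp)).le
  · rw [theOnlyV_neg h, tcSize_empty]; exact Nat.zero_le _

theorem termT_theOnly {n : ℕ} {t : Term σ n} (ht : TermT t) : TermT (Term.theOnly t) := by
  intro h
  have h1 : t.wscCount = 0 := by simpa only [Term.wscCount] using h
  obtain ⟨c1, K1, hc1, hK1, H1⟩ := ht h1
  refine ⟨n + c1 + 1, K1 + n + 5, by omega, by omega, ?_⟩
  intro A _ R0 R1 D p B hB hL e he ψ q hψ hq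
  have hB2 : 2 ≤ B := by omega
  obtain ⟨x, hx1, hx2, hx3⟩ := H1 A R0 R1 D p B hB
    (hL.mono (TData.pow_le_pow' hB2 (by omega)) (by omega)) e he ψ q hψ hq
  have hy1 : (Term.theOnly t).eval R0 p e = some (theOnlyV x) := by rw [eval_theOnly, hx1]; rfl
  have hdx : Def R0 e x := def_of_term p h1 hx1
  have okx := TData.ok_value hB2 he hdx hx2
  refine ⟨theOnlyV x, hy1, ?_, ?_⟩
  · refine (tcSize_theOnlyV_le x).trans (hx2.trans (TData.pow_le_pow' hB2 (by omega)))
  · rw [eval_theOnly, hx3]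
    simp only [Option.map_some, Option.some.injEq]
    set B' := B ^ (n + c1 + 1) with hB'
    have hBle : B ≤ B' := TData.le_pow' hB2 (by omega)
    set E := TData.envE e with hE
    have hEc : E.card ≤ n := TData.card_envE e
    have okE : ∀ y ∈ E, Ok R0 B' y := by
      intro y hy
      obtain ⟨i, _, rfl⟩ := Finset.mem_image.1 hy
      exact (he i).mono hBle
    have hEr : (E : Set (HF A)) = Set.range e := TData.coe_envE e
    have hq' : q ∈ D.C (SS D.Z (E : Set (HF A))) := by rwa [hEr]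
    have hSx : SS D.Z (E : Set (HF A)) ≤ D.St x := by rw [hEr]; exact D.St_of_def hdx
    have hSZ : SS D.Z (E : Set (HF A)) ≤ D.Z := SS_le _ _
    by_cases hs : ∃ y, members x = {y}
    · obtain ⟨y, hy⟩ := hs
      rw [theOnlyV_of hy]
      have hSy : SS D.Z (E : Set (HF A)) ≤ D.St y := by
        intro z hz
        refine (D.mem_St).2 ⟨hz.1, ?_⟩
        have h2 := ((D.mem_St).1 (hSx hz)).2
        have h3 : rename ⇑z y ∈ members (rename ⇑z x) := (mem_members_rename z).2 (by rw [hy]; simp)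
        rw [h2, hy, Finset.mem_singleton] at h3
        exact h3
      have hm := D.members_T_of_def (ψ := ψ) hSx hq' (by
        intro u hu
        rw [hy, Finset.mem_singleton] at hu
        rw [hu]; exact hSy)
      rw [hy, Finset.image_singleton] at hm
      exact theOnlyV_of hm
    · rw [theOnlyV_neg hs, D.T_empty (D.C_mono hSZ hq')]
      refine theOnlyV_neg ?_
      rintro ⟨y, hy⟩
      apply hs
      have hcard := D.card_members_T hL (by omega) (E := E) (by omega) okE hψ hq' okx hSx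
      rw [hy, Finset.card_singleton] at hcard
      exact Finset.card_eq_one.1 hcard.symm

theorem termT_card {n : ℕ} {t : Term σ n} (ht : TermT t) : TermT (Term.card t) := by
  intro h
  have h1 : t.wscCount = 0 := by simpa only [Term.wscCount] using h
  obtain ⟨c1, K1, hc1, hK1, H1⟩ := ht h1
  refine ⟨n + c1 + 1, K1 + n + 5, by omega, by omega, ?_⟩
  intro A _ R0 R1 D p B hB hL e he ψ q hψ hq
  have hB2 : 2 ≤ B := by omega
  obtain ⟨x, hx1, hx2, hx3⟩ := H1 A R0 R1 D p B hB
    (hL.mono (TData.pow_le_pow' hB2 (by omega)) (by omega)) e he ψ q hψ hq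
  have hy1 : (Term.card t).eval R0 p e = some (ordinal (members x).card) := by
    rw [eval_card, hx1]; rfl
  have hdx : Def R0 e x := def_of_term p h1 hx1
  have okx := TData.ok_value hB2 he hdx hx2
  refine ⟨_, hy1, ?_, ?_⟩
  · rw [tcSize_ordinal]
    exact (card_members_le_tcSize x).trans (hx2.trans (TData.pow_le_pow' hB2 (by omega)))
  · rw [eval_card, hx3]
    simp only [Option.map_some, Option.some.injEq]
    set B' := B ^ (n + c1 + 1) with hB'
    have hBle : B ≤ B' := TData.le_pow' hB2 (by omega)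
    set E := TData.envE e with hE
    have hEc : E.card ≤ n := TData.card_envE e
    have okE : ∀ y ∈ E, Ok R0 B' y := by
      intro y hy
      obtain ⟨i, _, rfl⟩ := Finset.mem_image.1 hy
      exact (he i).mono hBle
    have hEr : (E : Set (HF A)) = Set.range e := TData.coe_envE e
    have hq' : q ∈ D.C (SS D.Z (E : Set (HF A))) := by rwa [hEr]
    have hSx : SS D.Z (E : Set (HF A)) ≤ D.St x := by rw [hEr]; exact D.St_of_def hdx
    have hSZ : SS D.Z (E : Set (HF A)) ≤ D.Z := SS_le _ _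
    rw [D.T_ordinal (D.C_mono hSZ hq'),
      D.card_members_T hL (by omega) (E := E) (by omega) okE hψ hq' okx hSx]

theorem tcSize_ofFinset_le {A : Type} [Fintype A] (s : Finset (HF A)) (W : ℕ)
    (h : ∀ v ∈ s, tcSize v ≤ W) : tcSize (ofFinset s) ≤ s.card * (W + 1) := by
  rw [tcSize_eq]
  have : tcF (ofFinset s) ⊆ s.biUnion fun v => insert v (tcF v) := by
    intro y hy
    rcases mem_tcF.1 hy with h1 | ⟨u, hu, h1⟩
    · rw [members_ofFinset] at h1
      exact Finset.mem_biUnion.2 ⟨y, h1, Finset.mem_insert_self _ _⟩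
    · rw [members_ofFinset] at hu
      exact Finset.mem_biUnion.2 ⟨u, hu, Finset.mem_insert_of_mem h1⟩
  refine (Finset.card_le_card this).trans ?_
  refine Finset.card_biUnion_le_card_mul _ _ _ fun v hv => ?_
  refine (Finset.card_insert_le _ _).trans ?_
  rw [← tcSize_eq]
  exact Nat.succ_le_succ (h v hv)

theorem termT_compr {n : ℕ} {r : Term σ n} {gd : Formula σ (n + 1)} {b : Term σ (n + 1)}
    (hr : TermT r) (hgd : FormT gd) (hb : TermT b) : TermT (Term.compr r gd b) := by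
  intro h
  have h1 : r.wscCount = 0 := by simp only [Term.wscCount] at h; omega
  have h2 : gd.wscCount = 0 := by simp only [Term.wscCount] at h; omega
  have h3' : b.wscCount = 0 := by simp only [Term.wscCount] at h; omega
  obtain ⟨c1, K1, hc1, hK1, H1⟩ := hr h1
  obtain ⟨c2, K2, hc2, hK2, H2⟩ := hgd h2
  obtain ⟨c3, K3, hc3, hK3, H3⟩ := hb h3'
  set d := n + c1 + 1 with hd
  set f := c1 + d * c3 + 1 with hf
  refine ⟨c1 + n + f + 1 + d * (n + 1 + c3 + 1) + d * c2 + d * c3 + 5, K1 + K2 + K3 + n + 5,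
    by omega, by omega, ?_⟩
  intro A _ R0 R1 D p B hB hL e he ψ q hψ hq
  have hB2 : 2 ≤ B := by omega
  obtain ⟨x, hx1, hx2, hx3⟩ := H1 A R0 R1 D p B hB
    (hL.mono (TData.pow_le_pow' hB2 (by omega)) (by omega)) e he ψ q hψ hq
  set B1 := B ^ d with hB1
  have hBB1 : B ≤ B1 := TData.le_pow' hB2 (by omega)
  have hdx : Def R0 e x := def_of_term p h1 hx1
  have okx : Ok R0 B1 x := TData.ok_value hB2 he hdx hx2
  -- environments extended by a member of the range
  have okenv : ∀ u ∈ members x, ∀ i, Ok R0 B1 ((Fin.cons u e : Fin (n + 1) → HF A) i) := by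
    intro u hu i
    refine Fin.cases ?_ (fun j => ?_) i
    · simpa using okx.of_mem hu
    · simpa using (he j).mono hBB1
  have hLg : D.Large (B1 ^ c2) K2 := by
    rw [hB1, ← pow_mul]
    exact hL.mono (TData.pow_le_pow' hB2 (by omega)) (by omega)
  have hLb : D.Large (B1 ^ c3) K3 := by
    rw [hB1, ← pow_mul]
    exact hL.mono (TData.pow_le_pow' hB2 (by omega)) (by omega)
  have hB1p : p + Fintype.card A + 2 ≤ B1 := hB.trans hBB1
  -- K1 : results at a member of the range
  have K1' : ∀ u ∈ members x, ∀ q3, q3 ∈ D.C (SS D.Z (insert u (Set.range e))) →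
      (∃ gv, gd.eval R0 p (Fin.cons u e) = some gv ∧
        gd.eval R1 p (Fin.cons (D.T (ψ * D.Mv q q3) q3 u) (fun i => D.T ψ q (e i))) = some gv) ∧
      (∃ bv, b.eval R0 p (Fin.cons u e) = some bv ∧ tcSize bv ≤ B1 ^ c3 ∧
        b.eval R1 p (Fin.cons (D.T (ψ * D.Mv q q3) q3 u) (fun i => D.T ψ q (e i))) =
          some (D.T (ψ * D.Mv q q3) q3 bv)) := by
    intro u hu q3 h3
    have h3' : q3 ∈ D.C (SS D.Z (Set.range (Fin.cons u e : Fin (n + 1) → HF A))) := by
      rw [TData.range_cons']; exact h3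
    have hcons := D.T_cons_env ψ hq (D.C_env h3) u
    obtain ⟨gv, hg1, hg2⟩ := H2 A R0 R1 D p B1 hB1p hLg _ (okenv u hu) _ q3 (D.Val_mv _ _ _ hψ) h3'
    obtain ⟨bv, hb1, hb2, hb3⟩ := H3 A R0 R1 D p B1 hB1p hLb _ (okenv u hu) _ q3 (D.Val_mv _ _ _ hψ) h3'
    rw [hcons] at hg2 hb3
    exact ⟨⟨gv, hg1, hg2⟩, ⟨bv, hb1, hb2, hb3⟩⟩
  -- a position for each member
  set E := TData.envE e with hE
  have hEc : E.card ≤ n := TData.card_envE e
  have hEr : (E : Set (HF A)) = Set.range e := TData.coe_envE e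
  have hq' : q ∈ D.C (SS D.Z (E : Set (HF A))) := by rwa [hEr]
  have hSx : SS D.Z (E : Set (HF A)) ≤ D.St x := by rw [hEr]; exact D.St_of_def hdx
  have hSZ : SS D.Z (E : Set (HF A)) ≤ D.Z := SS_le _ _
  -- values of R0 as total functions
  let gv : HF A → Bool := fun u => (gd.eval R0 p (Fin.cons u e)).getD false
  let bv : HF A → HF A := fun u => (b.eval R0 p (Fin.cons u e)).getD empty
  have hgv : ∀ u, gd.eval R0 p (Fin.cons u e) ≠ none → gd.eval R0 p (Fin.cons u e) = some (gv u) := by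
    intro u hne
    obtain ⟨w, hw⟩ := Option.ne_none_iff_exists'.1 hne
    simp [gv, hw]
  have hbv : ∀ u, b.eval R0 p (Fin.cons u e) ≠ none → b.eval R0 p (Fin.cons u e) = some (bv u) := by
    intro u hne
    obtain ⟨w, hw⟩ := Option.ne_none_iff_exists'.1 hne
    simp [bv, hw]
  have hB'1 : B ≤ B ^ (c1 + n + f + 1 + d * (n + 1 + c3 + 1) + d * c2 + d * c3 + 5) :=
    TData.le_pow' hB2 (by omega)
  set Bc := B ^ (c1 + n + f + 1 + d * (n + 1 + c3 + 1) + d * c2 + d * c3 + 5) with hBc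
  have okE : ∀ y ∈ E, Ok R0 Bc y := by
    intro y hy
    obtain ⟨i, _, rfl⟩ := Finset.mem_image.1 hy
    exact (he i).mono hB'1
  have hB1c : B1 ≤ Bc := TData.pow_le_pow' hB2 (by omega)
  have posx : ∀ u ∈ members x, ∃ q3, q3 ∈ D.C (SS D.Z (insert u (Set.range e))) := by
    intro u hu
    have := hL.pos_insert (E := E) (u := u) (by omega) okE ((okx.of_mem hu).mono hB1c)
    rwa [hEr] at this
  have hg0 : ∀ u ∈ members x, gd.eval R0 p (Fin.cons u e) = some (gv u) := by
    intro u hu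
    obtain ⟨q3, h3⟩ := posx u hu
    obtain ⟨⟨g', h1', _⟩, _⟩ := K1' u hu q3 h3
    exact hgv u (by rw [h1']; simp)
  have hb0 : ∀ u ∈ members x, b.eval R0 p (Fin.cons u e) = some (bv u) := by
    intro u hu
    obtain ⟨q3, h3⟩ := posx u hu
    obtain ⟨_, ⟨b', h1', _, _⟩⟩ := K1' u hu q3 h3
    exact hbv u (by rw [h1']; simp)
  have hK1g : ∀ u ∈ members x, ∀ q3, q3 ∈ D.C (SS D.Z (insert u (Set.range e))) →
      gd.eval R1 p (Fin.cons (D.T (ψ * D.Mv q q3) q3 u) (fun i => D.T ψ q (e i))) = some (gv u) := by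
    intro u hu q3 h3
    obtain ⟨⟨g', h1', h2'⟩, _⟩ := K1' u hu q3 h3
    rw [h2']
    rw [hg0 u hu] at h1'
    exact h1'.symm
  have hK1b : ∀ u ∈ members x, ∀ q3, q3 ∈ D.C (SS D.Z (insert u (Set.range e))) →
      b.eval R1 p (Fin.cons (D.T (ψ * D.Mv q q3) q3 u) (fun i => D.T ψ q (e i))) =
        some (D.T (ψ * D.Mv q q3) q3 (bv u)) := by
    intro u hu q3 h3
    obtain ⟨_, ⟨b', h1', _, h3'⟩⟩ := K1' u hu q3 h3
    rw [h3']
    rw [hb0 u hu] at h1'
    have : b' = bv u := Option.some.inj h1'.symm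
    rw [this]
  have hbsz : ∀ u ∈ members x, tcSize (bv u) ≤ B1 ^ c3 := by
    intro u hu
    obtain ⟨q3, h3⟩ := posx u hu
    obtain ⟨_, ⟨b', h1', h2', _⟩⟩ := K1' u hu q3 h3
    rw [hb0 u hu] at h1'
    have : b' = bv u := Option.some.inj h1'.symm
    rwa [← this]
  -- the value in R0
  set v : HF A := ofFinset (((members x).filter fun u => gv u = true).image bv) with hv
  have hv1 : (Term.compr r gd b).eval R0 p e = some v := by
    rw [eval_compr, hx1]
    exact comprValue_of_some gv bv hg0 (fun u hu _ => hb0 u hu)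
  have hdv : Def R0 e v := def_of_term p h hv1
  have hvsz : tcSize v ≤ B ^ f := by
    refine (tcSize_ofFinset_le _ (B1 ^ c3) ?_).trans ?_
    · intro w hw
      obtain ⟨u, hu, rfl⟩ := Finset.mem_image.1 hw
      exact hbsz u (Finset.mem_filter.1 hu).1
    · have h5 : (((members x).filter fun u => gv u = true).image bv).card ≤ B ^ c1 :=
        Finset.card_image_le.trans ((Finset.card_filter_le _ _).trans
          ((card_members_le_tcSize x).trans hx2))
      have h6 : B1 ^ c3 = B ^ (d * c3) := by rw [hB1, ← pow_mul]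
      have h7 : B ^ (d * c3) + 1 ≤ B ^ (d * c3 + 1) := by
        have h8 : 1 ≤ B ^ (d * c3) := Nat.one_le_pow _ _ (by omega)
        rw [pow_succ]
        nlinarith
      calc _ ≤ B ^ c1 * (B1 ^ c3 + 1) := Nat.mul_le_mul_right _ h5
        _ = B ^ c1 * (B ^ (d * c3) + 1) := by rw [h6]
        _ ≤ B ^ c1 * B ^ (d * c3 + 1) := Nat.mul_le_mul_left _ h7
        _ = B ^ f := by rw [← pow_add, hf]; congr 1
  have hoverall : tcSize v ≤ Bc := hvsz.trans (TData.pow_le_pow' hB2 (by omega))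
  have okv : Ok R0 Bc v := (TData.ok_value hB2 he hdv hvsz).mono (TData.pow_le_pow' hB2 (by omega))
  have hSv : SS D.Z (E : Set (HF A)) ≤ D.St v := by rw [hEr]; exact D.St_of_def hdv
  refine ⟨v, hv1, hoverall, ?_⟩
  -- the value in R1
  rw [eval_compr, hx3]
  simp only [Option.bind_some]
  have okxc : Ok R0 Bc x := okx.mono hB1c
  have rep : ∀ u' ∈ members (D.T ψ q x), ∃ u ∈ members x, ∃ q3,
      q3 ∈ D.C (SS D.Z (insert u (Set.range e))) ∧ u' = D.T (ψ * D.Mv q q3) q3 u := by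
    intro u' hu'
    obtain ⟨u, hu, q3, h3, rfl⟩ := D.mem_T_rep3 hL (by omega) okE hq' okxc hSx hu'
    rw [hEr] at h3
    exact ⟨u, hu, q3, h3, rfl⟩
  let gv1 : HF A → Bool := fun u' => (gd.eval R1 p (Fin.cons u' (fun i => D.T ψ q (e i)))).getD false
  let bv1 : HF A → HF A := fun u' => (b.eval R1 p (Fin.cons u' (fun i => D.T ψ q (e i)))).getD empty
  have hg1 : ∀ u' ∈ members (D.T ψ q x),
      gd.eval R1 p (Fin.cons u' (fun i => D.T ψ q (e i))) = some (gv1 u') := by
    intro u' hu'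
    obtain ⟨u, hu, q3, h3, rfl⟩ := rep u' hu'
    simp only [gv1]
    rw [hK1g u hu q3 h3]
    rfl
  have hb1 : ∀ u' ∈ members (D.T ψ q x),
      b.eval R1 p (Fin.cons u' (fun i => D.T ψ q (e i))) = some (bv1 u') := by
    intro u' hu'
    obtain ⟨u, hu, q3, h3, rfl⟩ := rep u' hu'
    simp only [bv1]
    rw [hK1b u hu q3 h3]
    rfl
  rw [comprValue_of_some gv1 bv1 hg1 (fun u hu _ => hb1 u hu)]
  congr 1
  refine hf_ext (not_isAtom_ofFinset _) (D.T_not_atom _ _ (not_isAtom_ofFinset _)) ?_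
  rw [members_ofFinset]
  ext w
  rw [Finset.mem_image]
  constructor
  · rintro ⟨u', hu', rfl⟩
    obtain ⟨hu'1, hu'2⟩ := Finset.mem_filter.1 hu'
    obtain ⟨u, hu, q3, h3, rfl⟩ := rep u' hu'1
    have hg := hK1g u hu q3 h3
    have hguv : gv u = true := by
      have := hg1 _ hu'1
      rw [hg, hu'2] at this
      exact Option.some.inj this
    have hbu : bv1 (D.T (ψ * D.Mv q q3) q3 u) = D.T (ψ * D.Mv q q3) q3 (bv u) := by
      simp only [bv1]
      rw [hK1b u hu q3 h3]
      rfl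
    rw [hbu]
    have hmem : bv u ∈ members v := by
      rw [hv, members_ofFinset]
      exact Finset.mem_image_of_mem _ (Finset.mem_filter.2 ⟨hu, hguv⟩)
    have hdb : Def R0 (Fin.cons u e : Fin (n + 1) → HF A) (bv u) :=
      def_of_term p h3' (hb0 u hu) |> fun h => h
    refine D.mem_T_of hSv hmem (by rw [hEr]; exact D.C_env h3) ?_
    have hSb := D.St_of_def hdb
    rw [TData.range_cons'] at hSb
    exact D.C_mono hSb h3
  · intro hw
    obtain ⟨w0, hw0, q3, h3, rfl⟩ := D.mem_T_rep3 hL (by omega) okE hq' okv hSv hw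
    rw [hv, members_ofFinset, Finset.mem_image] at hw0
    obtain ⟨u, hu, rfl⟩ := hw0
    obtain ⟨hu1, hu2⟩ := Finset.mem_filter.1 hu
    obtain ⟨q4, h4⟩ := posx u hu1
    have hdb : Def R0 (Fin.cons u e : Fin (n + 1) → HF A) (bv u) :=
      def_of_term p h3' (hb0 u hu1) |> fun h => h
    have hSb := D.St_of_def hdb
    rw [TData.range_cons'] at hSb
    have h4S : q4 ∈ D.C (SS D.Z (E : Set (HF A))) := by rw [hEr]; exact D.C_env h4
    obtain ⟨c, hc, e2⟩ := D.T_move hSZ ψ hq' (D.C_env h3) h4S (D.C_head h3) (D.C_mono hSb h4)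
    rw [e2]
    have hcZ := hSZ hc
    have hfix : ∀ i, rename ⇑c (e i) = e i := by
      intro i
      exact hc.2 _ (by rw [hEr]; exact ⟨i, rfl⟩)
    have hcu : rename ⇑c u ∈ members x := D.mem_of_St (hSx hc) hu1
    have hcons : (Fin.cons (rename ⇑c u) e : Fin (n + 1) → HF A) =
        fun j => rename ⇑c ((Fin.cons u e : Fin (n + 1) → HF A) j) := by
      funext j
      refine Fin.cases ?_ (fun i => ?_) j
      · simp
      · simpa using (hfix i).symm
    have hautc := D.Z_aut c hcZ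
    have hbc : bv (rename ⇑c u) = rename ⇑c (bv u) := by
      have h5 := hb0 _ hcu
      rw [hcons, term_eval_rename p hautc h3', hb0 u hu1] at h5
      simpa using h5.symm
    have hgc : gv (rename ⇑c u) = gv u := by
      have h5 := hg0 _ hcu
      rw [hcons, formula_eval_rename p hautc h2, hg0 u hu1] at h5
      exact (Option.some.inj h5).symm
    have h4c : q4 ∈ D.C (SS D.Z (insert (rename ⇑c u) (Set.range e))) := D.C_ins_rename hcZ h4
    refine ⟨D.T (ψ * D.Mv q q4) q4 (rename ⇑c u), ?_, ?_⟩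
    · refine Finset.mem_filter.2 ⟨D.mem_T_of hSx hcu h4S (D.C_head h4c), ?_⟩
      have h6 := hg1 _ (D.mem_T_of (ψ := ψ) (q := q) hSx hcu h4S (D.C_head h4c))
      rw [hK1g _ hcu q4 h4c, hgc, hu2] at h6
      exact (Option.some.inj h6).symm
    · have h6 := hb1 _ (D.mem_T_of (ψ := ψ) (q := q) hSx hcu h4S (D.C_head h4c))
      rw [hK1b _ hcu q4 h4c, hbc] at h6
      exact (Option.some.inj h6).symm

theorem termT_iter {n : ℕ} {st : Term σ (n + 1)} (hs : TermT st) : TermT (Term.iter st) := by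
  intro h
  have h1 : st.wscCount = 0 := by simpa only [Term.wscCount] using h
  obtain ⟨c1, K1, hc1, hK1, H1⟩ := hs h1
  set g := (n + 2) * c1 with hg
  refine ⟨n + g + 1 + (n + 2) + 5, K1 + n + 7, by omega, by omega, ?_⟩
  intro A _ R0 R1 D p B hB hL e he ψ q hψ hq
  have hB2 : 2 ≤ B := by omega
  set Bc := B ^ (n + g + 1 + (n + 2) + 5) with hBc
  have hBBc : B ≤ Bc := TData.le_pow' hB2 (by omega)
  set E := TData.envE e with hE
  have hEc : E.card ≤ n := TData.card_envE e
  have hEr : (E : Set (HF A)) = Set.range e := TData.coe_envE e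
  have hq' : q ∈ D.C (SS D.Z (E : Set (HF A))) := by rwa [hEr]
  have hSZ : SS D.Z (E : Set (HF A)) ≤ D.Z := SS_le _ _
  have okE : ∀ y ∈ E, Ok R0 Bc y := by
    intro y hy
    obtain ⟨i, _, rfl⟩ := Finset.mem_image.1 hy
    exact (he i).mono hBBc
  have hqZ : q ∈ D.C D.Z := D.C_mono hSZ hq'
  set B1 := B ^ (n + 2) with hB1
  have hBB1 : B ≤ B1 := TData.le_pow' hB2 (by omega)
  have hB1p : p + Fintype.card A + 2 ≤ B1 := hB.trans hBB1
  have hLs : D.Large (B1 ^ c1) K1 := by
    rw [hB1, ← pow_mul]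
    exact hL.mono (TData.pow_le_pow' hB2 (by omega)) (by omega)
  -- the main induction on the fuel
  have main : ∀ (k : ℕ) (x : HF A), Def R0 e x → tcSize x ≤ B ^ g →
      ∃ v, iterFrom p (fun x => st.eval R0 p (Fin.cons x e)) k x = some v ∧ Def R0 e v ∧
        tcSize v ≤ p ∧
        iterFrom p (fun x' => st.eval R1 p (Fin.cons x' (fun i => D.T ψ q (e i)))) k (D.T ψ q x) =
          some (D.T ψ q v) := by
    intro k
    induction k with
    | zero =>
      intro x _ _
      refine ⟨empty, rfl, def_const_of_fixed (fun g => rename_empty _), by rw [tcSize_empty]; omega, ?_⟩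
      rw [D.T_empty hqZ]
      rfl
    | succ k ih =>
      intro x hdx hxsz
      have okx : Ok R0 Bc x := (TData.ok_value hB2 he hdx hxsz).mono (TData.pow_le_pow' hB2 (by omega))
      have hSx : SS D.Z (E : Set (HF A)) ≤ D.St x := by rw [hEr]; exact D.St_of_def hdx
      have htc : tcSize (D.T ψ q x) = tcSize x :=
        D.tcSize_T hL (by omega) (by omega) okE hψ hq' okx hSx
      simp only [iterFrom]
      rw [htc]
      by_cases hp : tcSize x ≤ p
      · rw [if_pos hp, if_pos hp]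
        -- one step
        have hxsmall : tcSize x ≤ B ^ 1 := by rw [pow_one]; omega
        have okx1 : Ok R0 B1 x := TData.ok_value hB2 he hdx hxsmall
        have okenv : ∀ i, Ok R0 B1 ((Fin.cons x e : Fin (n + 1) → HF A) i) := by
          intro i
          refine Fin.cases ?_ (fun j => ?_) i
          · simpa using okx1
          · simpa using (he j).mono hBB1
        have hqc : q ∈ D.C (SS D.Z (Set.range (Fin.cons x e : Fin (n + 1) → HF A))) := by
          rw [TData.range_cons']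
          refine D.C_mono ?_ hq
          rw [D.SS_insert]
          rw [hEr] at hSx
          exact le_inf le_rfl hSx
        obtain ⟨y, hy1, hy2, hy3⟩ := H1 A R0 R1 D p B1 hB1p hLs _ okenv ψ q hψ hqc
        have hcons : (fun j => D.T ψ q ((Fin.cons x e : Fin (n + 1) → HF A) j)) =
            (Fin.cons (D.T ψ q x) (fun i => D.T ψ q (e i)) : Fin (n + 1) → HF A) := by
          funext j
          refine Fin.cases ?_ (fun i => ?_) j <;> simp
        rw [hcons] at hy3
        rw [hy1, hy3]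
        simp only [Option.bind_some]
        have hdy : Def R0 e y := def_cons_elim hdx (def_of_term p h1 hy1)
        have hysz : tcSize y ≤ B ^ g := by rw [hg, pow_mul]; exact hy2
        have oky : Ok R0 Bc y := (TData.ok_value hB2 he hdy hysz).mono (TData.pow_le_pow' hB2 (by omega))
        have hSy : SS D.Z (E : Set (HF A)) ≤ D.St y := by rw [hEr]; exact D.St_of_def hdy
        by_cases hyx : y = x
        · subst hyx
          simp only [if_true]
          exact ⟨y, rfl, hdx, hp, rfl⟩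
        · have hT : D.T ψ q y ≠ D.T ψ q x := fun hh =>
            hyx (D.T_inj hL (by omega) oky okx hψ (D.C_mono hSy hq') (D.C_mono hSx hq') hh)
          rw [if_neg hyx, if_neg hT]
          exact ih y hdy hysz
      · rw [if_neg hp, if_neg hp]
        refine ⟨empty, rfl, def_const_of_fixed (fun g => rename_empty _), by rw [tcSize_empty]; omega, ?_⟩
        rw [D.T_empty hqZ]
  obtain ⟨v, hv1, hv2, hv3, hv4⟩ := main (p + 1) empty (def_const_of_fixed (fun g => rename_empty _))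
    (by rw [tcSize_empty]; exact Nat.zero_le _)
  rw [D.T_empty hqZ] at hv4
  refine ⟨v, ?_, ?_, ?_⟩
  · rw [eval_iter]; exact hv1
  · refine hv3.trans (le_trans (by omega) hBBc)
  · rw [eval_iter]; exact hv4

theorem formT_eq {n : ℕ} {s t : Term σ n} (hs : TermT s) (ht : TermT t) : FormT (Formula.eq s t) := by
  intro h
  have h1 : s.wscCount = 0 := by simp only [Formula.wscCount] at h; omega
  have h2 : t.wscCount = 0 := by simp only [Formula.wscCount] at h; omega
  obtain ⟨c1, K1, hc1, hK1, H1⟩ := hs h1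
  obtain ⟨c2, K2, hc2, hK2, H2⟩ := ht h2
  refine ⟨n + c1 + c2 + 1, K1 + K2, by omega, by omega, ?_⟩
  intro A _ R0 R1 D p B hB hL e he ψ q hψ hq
  have hB2 : 2 ≤ B := by omega
  obtain ⟨a, ha1, ha2, ha3⟩ := H1 A R0 R1 D p B hB
    (hL.mono (TData.pow_le_pow' hB2 (by omega)) (by omega)) e he ψ q hψ hq
  obtain ⟨b, hb1, hb2, hb3⟩ := H2 A R0 R1 D p B hB
    (hL.mono (TData.pow_le_pow' hB2 (by omega)) (by omega)) e he ψ q hψ hq
  have hda : Def R0 e a := def_of_term p h1 ha1
  have hdb : Def R0 e b := def_of_term p h2 hb1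
  have oka : Ok R0 (B ^ (n + c1 + c2 + 1)) a := (TData.ok_value hB2 he hda ha2).mono
    (TData.pow_le_pow' hB2 (by omega))
  have okb : Ok R0 (B ^ (n + c1 + c2 + 1)) b := (TData.ok_value hB2 he hdb hb2).mono
    (TData.pow_le_pow' hB2 (by omega))
  refine ⟨decide (a = b), by simp [eval_eq, ha1, hb1], ?_⟩
  rw [eval_eq, ha3, hb3]
  simp only [Option.bind_some, Option.map_some, Option.some.injEq, decide_eq_decide]
  constructor
  · intro hT
    exact D.T_inj hL (by omega) oka okb hψ (D.C_mono (D.St_of_def hda) hq) (D.C_mono (D.St_of_def hdb) hq) hT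
  · rintro rfl; rfl

theorem formT_rel {n : ℕ} {r : σ} {s t : Term σ n} (hs : TermT s) (ht : TermT t) :
    FormT (Formula.rel r s t) := by
  intro h
  have h1 : s.wscCount = 0 := by simp only [Formula.wscCount] at h; omega
  have h2 : t.wscCount = 0 := by simp only [Formula.wscCount] at h; omega
  obtain ⟨c1, K1, hc1, hK1, H1⟩ := hs h1
  obtain ⟨c2, K2, hc2, hK2, H2⟩ := ht h2
  refine ⟨c1 + c2 + 1, K1 + K2, by omega, by omega, ?_⟩
  intro A _ R0 R1 D p B hB hL e he ψ q hψ hq
  have hB2 : 2 ≤ B := by omega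
  obtain ⟨a, ha1, ha2, ha3⟩ := H1 A R0 R1 D p B hB
    (hL.mono (TData.pow_le_pow' hB2 (by omega)) (by omega)) e he ψ q hψ hq
  obtain ⟨b, hb1, hb2, hb3⟩ := H2 A R0 R1 D p B hB
    (hL.mono (TData.pow_le_pow' hB2 (by omega)) (by omega)) e he ψ q hψ hq
  have hda : Def R0 e a := def_of_term p h1 ha1
  have hdb : Def R0 e b := def_of_term p h2 hb1
  refine ⟨decide (RelHolds R0 r a b), by simp [eval_rel, ha1, hb1], ?_⟩
  rw [eval_rel, ha3, hb3]
  simp only [Option.bind_some, Option.map_some, Option.some.injEq, decide_eq_decide]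
  constructor
  · rintro ⟨a', b', h3, h4, h5⟩
    have hata : IsAtom a := by
      by_contra hna
      exact D.T_not_atom ψ q hna ⟨a', h3⟩
    have hatb : IsAtom b := by
      by_contra hnb
      exact D.T_not_atom ψ q hnb ⟨b', h4⟩
    obtain ⟨a0, rfl⟩ := hata
    obtain ⟨b0, rfl⟩ := hatb
    simp only [TData.T_atom, atom_inj] at h3 h4
    subst h3 h4
    refine ⟨a0, b0, rfl, rfl, ?_⟩
    rw [← D.Val_rel ψ q a0 b0 r hψ (D.C_mono (D.St_of_def hda) hq) (D.C_mono (D.St_of_def hdb) hq)]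
    exact h5
  · rintro ⟨a0, b0, rfl, rfl, h5⟩
    refine ⟨ψ a0, ψ b0, by simp, by simp, ?_⟩
    rw [D.Val_rel ψ q a0 b0 r hψ (D.C_mono (D.St_of_def hda) hq) (D.C_mono (D.St_of_def hdb) hq)]
    exact h5

theorem formT_not {n : ℕ} {φ : Formula σ n} (hφ : FormT φ) : FormT (Formula.not φ) := by
  intro h
  have h1 : φ.wscCount = 0 := by simpa only [Formula.wscCount] using h
  obtain ⟨c1, K1, hc1, hK1, H1⟩ := hφ h1
  refine ⟨c1, K1, hc1, hK1, ?_⟩
  intro A _ R0 R1 D p B hB hL e he ψ q hψ hq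
  obtain ⟨a, ha1, ha2⟩ := H1 A R0 R1 D p B hB hL e he ψ q hψ hq
  exact ⟨!a, by rw [eval_not, ha1]; rfl, by rw [eval_not, ha2]; rfl⟩

theorem formT_and {n : ℕ} {φ χ : Formula σ n} (hφ : FormT φ) (hχ : FormT χ) :
    FormT (Formula.and φ χ) := by
  intro h
  have h1 : φ.wscCount = 0 := by simp only [Formula.wscCount] at h; omega
  have h2 : χ.wscCount = 0 := by simp only [Formula.wscCount] at h; omega
  obtain ⟨c1, K1, hc1, hK1, H1⟩ := hφ h1
  obtain ⟨c2, K2, hc2, hK2, H2⟩ := hχ h2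
  refine ⟨c1 + c2, K1 + K2, by omega, by omega, ?_⟩
  intro A _ R0 R1 D p B hB hL e he ψ q hψ hq
  have hB2 : 2 ≤ B := by omega
  obtain ⟨a, ha1, ha2⟩ := H1 A R0 R1 D p B hB
    (hL.mono (TData.pow_le_pow' hB2 (by omega)) (by omega)) e he ψ q hψ hq
  obtain ⟨b, hb1, hb2⟩ := H2 A R0 R1 D p B hB
    (hL.mono (TData.pow_le_pow' hB2 (by omega)) (by omega)) e he ψ q hψ hq
  exact ⟨a && b, by rw [eval_and, ha1, hb1]; rfl, by rw [eval_and, ha2, hb2]; rfl⟩

theorem formT_or {n : ℕ} {φ χ : Formula σ n} (hφ : FormT φ) (hχ : FormT χ) :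
    FormT (Formula.or φ χ) := by
  intro h
  have h1 : φ.wscCount = 0 := by simp only [Formula.wscCount] at h; omega
  have h2 : χ.wscCount = 0 := by simp only [Formula.wscCount] at h; omega
  obtain ⟨c1, K1, hc1, hK1, H1⟩ := hφ h1
  obtain ⟨c2, K2, hc2, hK2, H2⟩ := hχ h2
  refine ⟨c1 + c2, K1 + K2, by omega, by omega, ?_⟩
  intro A _ R0 R1 D p B hB hL e he ψ q hψ hq
  have hB2 : 2 ≤ B := by omega
  obtain ⟨a, ha1, ha2⟩ := H1 A R0 R1 D p B hB
    (hL.mono (TData.pow_le_pow' hB2 (by omega)) (by omega)) e he ψ q hψ hq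
  obtain ⟨b, hb1, hb2⟩ := H2 A R0 R1 D p B hB
    (hL.mono (TData.pow_le_pow' hB2 (by omega)) (by omega)) e he ψ q hψ hq
  exact ⟨a || b, by rw [eval_or, ha1, hb1]; rfl, by rw [eval_or, ha2, hb2]; rfl⟩

theorem formT_wsc {n : ℕ} (s : Term σ (n + 2)) (c : Term σ (n + 1)) (w : Term σ (n + 2))
    (o : Formula σ (n + 1)) : FormT (Formula.wsc s c w o) := by
  intro h
  simp [Formula.wscCount] at h

theorem formT_all {n : ℕ} (φ : Formula σ n) : FormT φ :=
  Formula.rec (motive_1 := fun _ t => TermT t) (motive_2 := fun _ φ => FormT φ)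
    (fun i => termT_var i) termT_empty termT_atoms (fun _ _ h1 h2 => termT_pair h1 h2)
    (fun _ h => termT_union h) (fun _ h => termT_theOnly h) (fun _ h => termT_card h)
    (fun _ _ _ h1 h2 h3 => termT_compr h1 h2 h3) (fun _ h => termT_iter h)
    (fun _ _ h1 h2 => formT_eq h1 h2) (fun _ _ _ h1 h2 => formT_rel h1 h2)
    (fun _ h => formT_not h) (fun _ _ h1 h2 => formT_and h1 h2) (fun _ _ h1 h2 => formT_or h1 h2)
    (fun s c w o _ _ _ _ => formT_wsc s c w o) φ

/-- **The transfer theorem** for closed plain formulas. -/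
theorem transfer_formula (φ : Formula σ 0) (hφ : φ.wscCount = 0) :
    ∃ c K : ℕ, ∀ (A : Type) [Fintype A] (R0 R1 : σ → A → A → Bool) (D : TData R0 R1) (p B : ℕ),
      p + Fintype.card A + 2 ≤ B → D.Large (B ^ c) K →
      ∀ (ψ : Equiv.Perm A) (q : D.Pos), D.Val ψ q → q ∈ D.C D.Z →
      φ.eval R0 p Fin.elim0 = φ.eval R1 p Fin.elim0 := by
  obtain ⟨c, K, _, _, H⟩ := formT_all φ hφ
  refine ⟨c, K, ?_⟩
  intro A _ R0 R1 D p B hB hL ψ q hψ hq
  have hq' : q ∈ D.C (SS D.Z (Set.range (Fin.elim0 : Fin 0 → HF A))) := by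
    refine D.C_mono ?_ hq
    intro z hz
    exact ⟨hz, by simp⟩
  obtain ⟨b, h1, h2⟩ := H A R0 R1 D p B hB hL Fin.elim0 (fun i => i.elim0) ψ q hψ hq'
  have he : (fun i : Fin 0 => D.T ψ q (Fin.elim0 i)) = Fin.elim0 := by
    funext i; exact i.elim0
  rw [he] at h2
  rw [h1, h2]

end Cases

end Crest.Agent.CPTL
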