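/-
  Balance of the chain, the group `Z`, clean planes and the cocycle identity.
-/
import Crest.Agent.Lib.CPTL.PosA
import Crest.Agent.Lib.CPTL.TMain

set_option autoImplicit false
set_option linter.unusedSectionVars false

noncomputable section
open Classical

namespace Crest.Agent.CPTL

open Crest.LogicCS.HFSet Crest.LogicCS.CPT Base

variable {L : ℕ}

theorem corr_sum (p q : PosL L) (r : PtL L) :
    ∑ i, corrL p q r i = (if r.1 = fPos q then 1 else 0) - (if r.1 = fPos p then 1 else 0) := by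
  unfold corrL
  rw [Finset.sum_ite_eq' Finset.univ i0]
  simp

theorem chi_sum_split (p q : PosL L) (r : PtL L) :
    ∑ i, chi p q (lkAtL r i) = ∑ x : Bool × Bool, chi p q (Sum.inl (latAt r x.1 x.2)) := by
  rw [Fintype.sum_sum_type, Fintype.sum_bool]
  simp only [lkAtL, chi]
  simp

theorem fPos_f {r : PtL L} {p : PosL L} (h : r.1 = fPos p) : fP (pv r.1) := by
  rw [h]; exact fP_fPos p

theorem chi_bal (p q : PosL L) (r : PtL L) : ∑ i, (chi p q (lkAtL r i) + corrL p q r i) = 0 := by
  rw [Finset.sum_add_distrib, corr_sum, chi_sum_split]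
  by_cases hf : fP (pv r.1)
  · by_cases hpl : inPl r.1
    · rw [chi_sum_plane p q r hf hpl]
      ring
    · have h0 : ∀ x : Bool × Bool, chi p q (Sum.inl (latAt r x.1 x.2)) = 0 := by
        intro x
        rw [chi_F p q r _ _ hf, if_neg hpl]
      simp only [h0, Finset.sum_const_zero]
      have h1 : ∀ t : PosL L, r.1 ≠ fPos t := fun t h => hpl (by rw [h]; exact inPl_fPos t)
      rw [if_neg (h1 q), if_neg (h1 p)]
      simp
  · have h1 : ∀ t : PosL L, r.1 ≠ fPos t := fun t h => hf (fPos_f h)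
    rw [if_neg (h1 q), if_neg (h1 p)]
    rw [Fintype.sum_prod_type]
    have h2 : ∀ j : Bool, ∑ s : Bool, chi p q (Sum.inl (latAt r j s)) = 0 := by
      intro j
      rw [Fintype.sum_bool, chi_D p q r j true hf, chi_D p q r j false hf]
      by_cases hh : inPl (nbP r j true).1
      · rw [if_pos hh, if_pos ((inPl_nb_iff r j true false).1 hh)]
        simp
      · rw [if_neg hh, if_neg (fun h => hh ((inPl_nb_iff r j true false).2 h))]
        simp
    simp only [h2, Finset.sum_const_zero]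
    simp

/-- The chain is balanced, up to the correction. -/
theorem chi_bal2 (p q : PosL L) : Bal2 (H := latSys L) (chi p q) (corrL p q) := chi_bal p q

/-! ### The group `Z` -/

/-- The atoms of the final structure. -/
abbrev AtL (L : ℕ) := AtomT (latSys L)

/-- The shift group. -/
def ZL (L : ℕ) : Subgroup (Equiv.Perm (AtL L)) where
  carrier := {z | ∃ χ : LkL L → F3, (latSys L).Bal χ ∧ z = sE χ 0}
  mul_mem' := by
    rintro _ _ ⟨χ, hχ, rfl⟩ ⟨χ', hχ', rfl⟩
    refine ⟨χ' + χ, fun p => ?_, ?_⟩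
    · have e : ∑ i, (χ' + χ) ((latSys L).lkAt p i) =
          ∑ i, χ' ((latSys L).lkAt p i) + ∑ i, χ ((latSys L).lkAt p i) := by
        rw [← Finset.sum_add_distrib]
        rfl
      rw [e, hχ p, hχ' p, add_zero]
    · rw [sE_mul, add_zero]
      rfl
  one_mem' := ⟨0, fun p => Finset.sum_eq_zero fun _ _ => rfl, sE_zero.symm⟩
  inv_mem' := by
    rintro _ ⟨χ, hχ, rfl⟩
    refine ⟨-χ, fun p => ?_, ?_⟩
    · have e : ∑ i, (-χ) ((latSys L).lkAt p i) = - ∑ i, χ ((latSys L).lkAt p i) := by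
        rw [← Finset.sum_neg_distrib]
        rfl
      rw [e, hχ p, neg_zero]
    · rw [sE_inv, neg_zero]
      rfl

theorem mem_ZL {z : Equiv.Perm (AtL L)} : z ∈ ZL L ↔ ∃ χ : LkL L → F3, (latSys L).Bal χ ∧ z = sE χ 0 := Iff.rfl

/-- The indicator of a torus point. -/
def oneAt (c : VT L) : VT L → F3 := fun x => if x = c then 1 else 0

/-- A clean plane: the commutators of a plane all lie in `S`. -/
def Clean (S : Subgroup (Equiv.Perm (AtL L))) (k : Fin 3) (a : Fin (L + 1)) : Prop :=
  ∀ c v : VT L, (∀ l, par (c l) = 1) → (∀ l, par (v l) = 0) → c k = oddOf a →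
    sE ((latSys L).Om (oneAt c) (oneAt v)) 0 ∈ S

/-- The clean positions. -/
def CPos (S : Subgroup (Equiv.Perm (AtL L))) : Set (PosL L) :=
  {p | Clean S 0 p.1 ∧ Clean S 1 p.2 ∧ ∃ n, Clean S 2 n}

theorem CPos_mono {S S' : Subgroup (Equiv.Perm (AtL L))} (h : S ≤ S') : CPos S ⊆ CPos S' := by
  rintro p ⟨h0, h1, n, h2⟩
  exact ⟨fun c v hc hv hk => h (h0 c v hc hv hk), fun c v hc hv hk => h (h1 c v hc hv hk),
    n, fun c v hc hv hk => h (h2 c v hc hv hk)⟩

/-- Chains whose shift lies in a subgroup. -/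
def addS (S : Subgroup (Equiv.Perm (AtL L))) : AddSubgroup (LkL L → F3) where
  carrier := {χ | sE χ 0 ∈ S}
  add_mem' := by
    intro a b ha hb
    have := S.mul_mem hb ha
    rw [sE_mul, add_zero] at this
    exact this
  zero_mem' := by
    show sE 0 0 ∈ S
    rw [sE_zero]
    exact S.one_mem
  neg_mem' := by
    intro a ha
    have := S.inv_mem ha
    rw [sE_inv, neg_zero] at this
    exact this

theorem mem_addS {S : Subgroup (Equiv.Perm (AtL L))} {χ : LkL L → F3} : χ ∈ addS S ↔ sE χ 0 ∈ S := Iff.rfl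

theorem addS_smul {S : Subgroup (Equiv.Perm (AtL L))} {χ : LkL L → F3} (s : F3) (h : χ ∈ addS S) :
    s • χ ∈ addS S := by
  have hs : s = 0 ∨ s = 1 ∨ s = 2 := by revert s; decide
  rcases hs with rfl | rfl | rfl
  · rw [zero_smul]; exact (addS S).zero_mem
  · rw [one_smul]; exact h
  · rw [two_smul]; exact (addS S).add_mem h h

/-! ### Bilinear expansion -/

theorem Om_sum_left (H : HSys) {ι : Type} (s : Finset ι) (a : ι → F3) (u : ι → H.Rm → F3)
    (t' : H.Rm → F3) : H.Om (∑ i ∈ s, a i • u i) t' = ∑ i ∈ s, a i • H.Om (u i) t' := by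
  induction s using Finset.induction_on with
  | empty => simp [HSys.Om_zero_left]
  | insert i s hi ih =>
    rw [Finset.sum_insert hi, Finset.sum_insert hi, HSys.Om_add_left, HSys.Om_smul_left, ih]

theorem Om_sum_right (H : HSys) {ι : Type} (s : Finset ι) (a : ι → F3) (u : ι → H.Rm → F3)
    (t : H.Rm → F3) : H.Om t (∑ i ∈ s, a i • u i) = ∑ i ∈ s, a i • H.Om t (u i) := by
  induction s using Finset.induction_on with
  | empty => simp [HSys.Om_zero_right]
  | insert i s hi ih =>
    rw [Finset.sum_insert hi, Finset.sum_insert hi, HSys.Om_add_right, HSys.Om_smul_right, ih]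

theorem sum_oneAt (t : VT L → F3) : t = ∑ v, t v • oneAt v := by
  funext x
  rw [Finset.sum_apply]
  simp only [Pi.smul_apply, smul_eq_mul, oneAt, mul_ite, mul_one, mul_zero]
  rw [Finset.sum_ite_eq Finset.univ x]
  simp

/-- Value of the form on a lattice link seen from the `F` end. -/
theorem Om_latF (t t' : VT L → F3) (f : PtL L) (j s : Bool) (hf : fP (pv f.1)) :
    (latSys L).Om t t' (Sum.inl (latAt f j s)) = sgF s * sgF j *
      (wL f.1 t * wL (nbP f j s).1 t' - wL (nbP f j s).1 t * wL f.1 t') := by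
  show ccLat (latAt f j s) * (wL (fEnd (latAt f j s)) t * wL (dEnd (latAt f j s)) t' -
    wL (dEnd (latAt f j s)) t * wL (fEnd (latAt f j s)) t') = _
  rw [ccLat_latAt, fEnd_F f j s hf, dEnd_F f j s hf]

theorem Om_back (t t' : VT L → F3) (q : PtL L) : (latSys L).Om t t' (Sum.inr q) = 0 := by
  show (0 : F3) * _ = 0
  rw [zero_mul]

/-- Parities around `F` and `D` points. -/
theorem all_odd_F (f : PtL L) (hf : fP (pv f.1)) (s : Bool) (l : Fin 3) :
    par (mv f.1 (mOf f.1) s l) = 1 := by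
  have : pv (mv f.1 (mOf f.1) s) l = 1 := by
    rw [pv_mv]
    exact flip_m_all_odd _ f.2 hf l
  exact this

theorem all_even_D (d : PtL L) (hd : ¬ fP (pv d.1)) (s : Bool) (l : Fin 3) :
    par (mv d.1 (mOf d.1) s l) = 0 := by
  have : pv (mv d.1 (mOf d.1) s) l = 0 := by
    rw [pv_mv]
    exact flip_m_all_even _ d.2 hd l
  exact this

theorem not_f_nb (f : PtL L) (hf : fP (pv f.1)) (j s : Bool) : ¬ fP (pv (nbP f j s).1) :=
  fun h => ((f_nbP f j s).1 h) hf

/-- A form on `D` points ignores functions supported on odd points. -/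
theorem wL_D_odd (d : PtL L) (hd : ¬ fP (pv d.1)) (t : VT L → F3)
    (ht : ∀ x, (∃ l, par (x l) = 0) → t x = 0) : wL d.1 t = 0 := by
  rw [wL_apply, ht _ ⟨0, all_even_D d hd true 0⟩, ht _ ⟨0, all_even_D d hd false 0⟩, sub_zero]

/-- A form on `F` points ignores functions supported on even points. -/
theorem wL_F_even (f : PtL L) (hf : fP (pv f.1)) (t : VT L → F3)
    (ht : ∀ x, (∃ l, par (x l) = 1) → t x = 0) : wL f.1 t = 0 := by
  rw [wL_apply, ht _ ⟨0, all_odd_F f hf true 0⟩, ht _ ⟨0, all_odd_F f hf false 0⟩, sub_zero]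

theorem zmod2_ne_one_of_zero {a : ZMod 2} (h : a = 0) : a ≠ 1 := by
  rw [h]; exact zero_ne_one

theorem oneAt_odd_vanish {c : VT L} (hc : ∀ l, par (c l) = 1) (x : VT L) (hx : ∃ l, par (x l) = 0) :
    oneAt c x = 0 := by
  obtain ⟨l, hl⟩ := hx
  unfold oneAt
  rw [if_neg]
  rintro rfl
  exact zmod2_ne_one_of_zero hl (hc l)

theorem oneAt_even_vanish {v : VT L} (hv : ∀ l, par (v l) = 0) (x : VT L) (hx : ∃ l, par (x l) = 1) :
    oneAt v x = 0 := by
  obtain ⟨l, hl⟩ := hx
  unfold oneAt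
  rw [if_neg]
  rintro rfl
  exact zmod2_ne_one_of_zero (hv l) hl

/-! ### The hexagon -/

theorem wL_oneAt_self (p : VT L) : wL p (oneAt (mv p (mOf p) true)) = 1 := by
  rw [wL_apply]
  unfold oneAt
  rw [if_pos rfl, if_neg (mv_true_ne_false p _).symm, sub_zero]

/-- The commutator of the two corners of a hexagon does not vanish on the link. -/
theorem hex_ne (f : PtL L) (hf : fP (pv f.1)) (j s : Bool) :
    (latSys L).Om (oneAt (mv f.1 (mOf f.1) true))
      (oneAt (mv (nbP f j s).1 (mOf (nbP f j s).1) true)) (Sum.inl (latAt f j s)) ≠ 0 := by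
  rw [Om_latF _ _ f j s hf, wL_oneAt_self, wL_oneAt_self]
  have hc := all_odd_F f hf true
  have h1 : wL (nbP f j s).1 (oneAt (mv f.1 (mOf f.1) true)) = 0 :=
    wL_D_odd _ (not_f_nb f hf j s) _ (oneAt_odd_vanish hc)
  rw [h1, zero_mul, mul_one, sub_zero, mul_one]
  cases s <;> cases j <;> decide

end Crest.Agent.CPTL
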