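/-
  The cocycle identity: the chains between three positions differ by a commutator chain.
-/
import Crest.Agent.Lib.CPTL.PosB

set_option autoImplicit false
set_option linter.unusedSectionVars false

noncomputable section
open Classical

namespace Crest.Agent.CPTL

open Crest.LogicCS.HFSet Crest.LogicCS.CPT Base

variable {L : ℕ}

/-- The odd points below a level. -/
def AP (n : Fin (L + 1)) (c : VT L) : F3 :=
  if (∀ l, par (c l) = 1) ∧ (c 2).val < 2 * n.val + 2 then 1 else 0

/-- The product potential. -/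
def tP (p q r : PosL L) (n : Fin (L + 1)) (v : VT L) : F3 :=
  if (∀ l, par (v l) = 0) ∧ (v 2).val ≤ 2 * n.val then
    (Hev q.1 (v 0) - Hev r.1 (v 0)) * (Hev p.2 (v 1) - Hev q.2 (v 1)) else 0

theorem AP_vanish (n : Fin (L + 1)) (x : VT L) (hx : ∃ l, par (x l) = 0) : AP n x = 0 := by
  obtain ⟨l, hl⟩ := hx
  unfold AP
  rw [if_neg]
  rintro ⟨h, _⟩
  exact zmod2_ne_one_of_zero hl (h l)

theorem tP_vanish (p q r : PosL L) (n : Fin (L + 1)) (x : VT L) (hx : ∃ l, par (x l) = 1) :
    tP p q r n x = 0 := by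
  obtain ⟨l, hl⟩ := hx
  unfold tP
  rw [if_neg]
  rintro ⟨h, _⟩
  exact zmod2_ne_one_of_zero (h l) hl

theorem AP_odd (n : Fin (L + 1)) (x : VT L) (hx : ∀ l, par (x l) = 1) :
    AP n x = if (x 2).val < 2 * n.val + 2 then 1 else 0 := by
  unfold AP
  simp only [hx, implies_true, true_and]

theorem tP_even (p q r : PosL L) (n : Fin (L + 1)) (x : VT L) (hx : ∀ l, par (x l) = 0) :
    tP p q r n x = if (x 2).val ≤ 2 * n.val then
      (Hev q.1 (x 0) - Hev r.1 (x 0)) * (Hev p.2 (x 1) - Hev q.2 (x 1)) else 0 := by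
  unfold tP
  simp only [hx, implies_true, true_and]

theorem dirM2_ne (j : Bool) : dirM 2 j ≠ 2 := dirM_ne_m 2 j

theorem wL_AP_plane (n : Fin (L + 1)) (f : PtL L) (hf : fP (pv f.1)) (hpl : inPl f.1) :
    wL f.1 (AP n) = 1 := by
  rw [wL_apply, AP_odd n _ (all_odd_F f hf true), AP_odd n _ (all_odd_F f hf false), hpl.1,
    mv_same, mv_same, hpl.2]
  have hn := n.isLt
  have hv1 : ((0 : ZN L) + sv true).val = 1 := by
    rw [val_sv_true, ZMod.val_zero, if_pos (by omega)]
  have hv2 : ((0 : ZN L) + sv false).val = 2 * L + 7 := by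
    rw [val_sv_false, ZMod.val_zero, if_pos rfl]
  rw [hv1, hv2, if_pos (by omega), if_neg (by omega)]
  simp

theorem wL_AP_off (n : Fin (L + 1)) (p q r : PosL L) (f : PtL L) (hf : fP (pv f.1)) (hpl : ¬ inPl f.1)
    (j s : Bool) : wL f.1 (AP n) * wL (nbP f j s).1 (tP p q r n) = 0 := by
  by_cases hm : mOf f.1 = 2
  · have hz : f.1 2 ≠ 0 := fun h => hpl ⟨hm, h⟩
    have hpar : par (f.1 2) = 0 := (inPl_facts f hf hm).2.2
    rw [par_eq_zero_iff] at hpar
    have hv0 : (f.1 2).val ≠ 0 := fun h => hz (by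
      apply eq_of_val_eq
      rw [h, ZMod.val_zero])
    have hlt := val_lt_N (f.1 2)
    have hn := n.isLt
    have hv1 : (f.1 2 + sv true).val = (f.1 2).val + 1 := by
      rw [val_sv_true, if_pos (by omega)]
    have hv2 : (f.1 2 + sv false).val = (f.1 2).val - 1 := by
      rw [val_sv_false, if_neg hv0]
    rw [wL_apply (f.1) (AP n), AP_odd n _ (all_odd_F f hf true), AP_odd n _ (all_odd_F f hf false), hm,
      mv_same, mv_same, hv1, hv2]
    by_cases h1 : (f.1 2).val ≤ 2 * n.val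
    · rw [if_pos (by omega), if_pos (by omega)]
      simp
    · by_cases h2 : (f.1 2).val = 2 * n.val + 2
      · rw [mul_comm, wL_nbP, hm]
        have e : ∀ b : Bool, tP p q r n (mv (mv f.1 (dirM 2 j) s) (dirM 2 (!j)) b) = 0 := by
          intro b
          unfold tP
          rw [if_neg]
          rintro ⟨_, h3⟩
          rw [mv_ne _ (dirM2_ne _).symm, mv_ne _ (dirM2_ne _).symm] at h3
          omega
        rw [e, e]
        simp
      · rw [if_neg (by omega), if_neg (by omega)]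
        simp
  · have e : ∀ b : Bool, mv f.1 (mOf f.1) b 2 = f.1 2 := fun b => mv_ne _ (Ne.symm hm) b
    rw [wL_apply (f.1) (AP n), AP_odd n _ (all_odd_F f hf true), AP_odd n _ (all_odd_F f hf false), e, e]
    simp

/-- The value of the potential at points of the plane. -/
theorem tP_plane (p q r : PosL L) (n : Fin (L + 1)) (x : VT L) (hx : ∀ l, par (x l) = 0) (hz : x 2 = 0) :
    tP p q r n x = (Hev q.1 (x 0) - Hev r.1 (x 0)) * (Hev p.2 (x 1) - Hev q.2 (x 1)) := by
  rw [tP_even p q r n x hx, if_pos]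
  rw [hz, ZMod.val_zero]
  omega

theorem wL_tP_nb (p q r : PosL L) (n : Fin (L + 1)) (f : PtL L) (hf : fP (pv f.1)) (hpl : inPl f.1)
    (j s : Bool) : wL (nbP f j s).1 (tP p q r n) =
      gam p q (nbP f j s).1 + gam q r (nbP f j s).1 - gam p r (nbP f j s).1 := by
  obtain ⟨hodd0, hodd1, _⟩ := inPl_facts f hf hpl.1
  have hev := all_even_D (nbP f j s) (not_f_nb f hf j s)
  have hzb : ∀ b : Bool, mv (nbP f j s).1 (mOf (nbP f j s).1) b 2 = 0 := by
    intro b
    rw [mOf_nbP, hpl.1, mv_ne _ (dirM2_ne _).symm]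
    show mv f.1 (dirM (mOf f.1) j) s 2 = 0
    rw [hpl.1, mv_ne _ (dirM2_ne _).symm]
    exact hpl.2
  rw [wL_apply, tP_plane p q r n _ (hev true) (hzb true), tP_plane p q r n _ (hev false) (hzb false)]
  cases j
  · rw [gam_false p q f hpl.1 hodd0, gam_false q r f hpl.1 hodd0, gam_false p r f hpl.1 hodd0, mOf_nbP,
      hpl.1]
    have hd : dirM (2 : Fin 3) (!false) = 1 := dirM2_true
    rw [hd, mF_m2_nb_false f hpl.1]
    have e0 : ∀ b : Bool, mv (mv f.1 0 s) 1 b 0 = f.1 0 + sv s := by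
      intro b
      rw [mv_ne _ (by decide), mv_same]
    have e1 : ∀ b : Bool, mv (mv f.1 0 s) 1 b 1 = f.1 1 + sv b := by
      intro b
      rw [mv_same, mv_ne _ (by decide)]
    rw [e0, e0, e1, e1]
    have h := Hev_deriv2 p.2 q.2 (f.1 1) hodd1
    split_ifs at h ⊢ <;>
      linear_combination (Hev q.1 (f.1 0 + sv s) - Hev r.1 (f.1 0 + sv s)) * h
  · rw [gam_true p q f hpl.1 hodd0, gam_true q r f hpl.1 hodd0, gam_true p r f hpl.1 hodd0, mOf_nbP,
      hpl.1]
    have hd : dirM (2 : Fin 3) (!true) = 0 := dirM2_false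
    rw [hd, mF_m2_nb_true f hpl.1]
    have e0 : ∀ b : Bool, mv (mv f.1 1 s) 0 b 0 = f.1 0 + sv b := by
      intro b
      rw [mv_same, mv_ne _ (by decide)]
    have e1 : ∀ b : Bool, mv (mv f.1 1 s) 0 b 1 = f.1 1 + sv s := by
      intro b
      rw [mv_ne _ (by decide), mv_same]
    rw [e0, e0, e1, e1]
    have h := Hev_deriv2 q.1 r.1 (f.1 0) hodd0
    split_ifs at h ⊢ <;>
      linear_combination (Hev p.2 (f.1 1 + sv s) - Hev q.2 (f.1 1 + sv s)) * h

/-- The chains between three positions differ by a commutator chain. -/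
theorem chi_cocycle (p q r : PosL L) (n : Fin (L + 1)) (e : LkL L) :
    chi p q e + chi q r e - chi p r e = (latSys L).Om (AP n) (tP p q r n) e := by
  rcases e with x | b
  · obtain ⟨f, j, s, hf, rfl⟩ := lat_from_F x
    rw [Om_latF _ _ f j s hf, chi_F _ _ f j s hf, chi_F _ _ f j s hf, chi_F _ _ f j s hf]
    have h1 : wL (nbP f j s).1 (AP n) = 0 :=
      wL_D_odd _ (not_f_nb f hf j s) _ (AP_vanish n)
    rw [h1, zero_mul, sub_zero]
    by_cases hpl : inPl f.1
    · rw [if_pos hpl, if_pos hpl, if_pos hpl, wL_AP_plane n f hf hpl, wL_tP_nb p q r n f hf hpl j s]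
      ring
    · rw [if_neg hpl, if_neg hpl, if_neg hpl, wL_AP_off n p q r f hf hpl j s]
      simp
  · rw [Om_back]
    show (0 : F3) + 0 - 0 = 0
    simp

theorem wL_oneAt_ne (p r : VT L) (h : wL p (oneAt r) ≠ 0) : ∃ s, r = mv p (mOf p) s := by
  by_contra hn
  apply h
  rw [wL_apply]
  have h1 : mv p (mOf p) true ≠ r := fun e => hn ⟨true, e.symm⟩
  have h2 : mv p (mOf p) false ≠ r := fun e => hn ⟨false, e.symm⟩
  unfold oneAt
  rw [if_neg h1, if_neg h2, sub_zero]

/-- The potential on the corners of an odd point outside the clean planes. -/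
theorem tP_corner (p q r : PosL L) (n : Fin (L + 1)) (c : VT L) (hc : ∀ l, par (c l) = 1)
    (h1 : c 0 ≠ oddOf q.1) (h2 : c 0 ≠ oddOf r.1) (h3 : c 1 ≠ oddOf p.2) (h4 : c 1 ≠ oddOf q.2)
    (h5 : (c 2).val < 2 * n.val + 2) (h6 : c 2 ≠ oddOf n) (c' : Fin 3 → Bool) :
    tP p q r n (nbL c c') = (Hev q.1 (c 0 + sv true) - Hev r.1 (c 0 + sv true)) *
      (Hev p.2 (c 1 + sv true) - Hev q.2 (c 1 + sv true)) := by
  have hev : ∀ l, par (nbL c c' l) = 0 := by
    intro l
    show par (c l + sv (c' l)) = 0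
    rw [par_add_sv, hc l]
    exact zmod2_one_add_one
  rw [tP_even p q r n _ hev, if_pos]
  · have e1 := Hev_deriv2 q.1 r.1 (c 0) (hc 0)
    have e2 := Hev_deriv2 p.2 q.2 (c 1) (hc 1)
    rw [if_neg h1, if_neg h2] at e1
    rw [if_neg h3, if_neg h4] at e2
    have key1 : ∀ b : Bool, Hev q.1 (c 0 + sv b) - Hev r.1 (c 0 + sv b) =
        Hev q.1 (c 0 + sv true) - Hev r.1 (c 0 + sv true) := by
      intro b
      cases b
      · linear_combination - e1
      · rfl
    have key2 : ∀ b : Bool, Hev p.2 (c 1 + sv b) - Hev q.2 (c 1 + sv b) =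
        Hev p.2 (c 1 + sv true) - Hev q.2 (c 1 + sv true) := by
      intro b
      cases b
      · linear_combination - e2
      · rfl
    show (Hev q.1 (c 0 + sv (c' 0)) - Hev r.1 (c 0 + sv (c' 0))) *
      (Hev p.2 (c 1 + sv (c' 1)) - Hev q.2 (c 1 + sv (c' 1))) = _
    rw [key1, key2]
  · show (c 2 + sv (c' 2)).val ≤ _
    have hw := hc 2
    rw [par_eq_one_iff] at hw
    have hne : (c 2).val ≠ 2 * n.val + 1 := fun h => h6 ((eq_oddOf_iff _ _).2 h)
    have hlt := val_lt_N (c 2)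
    have hN := n.isLt
    cases c' 2
    · rw [val_sv_false, if_neg (by omega)]
      omega
    · rw [val_sv_true, if_pos (by omega)]
      omega

/-- Outside the clean planes the form with the potential vanishes. -/
theorem Om_nonclean (p q r : PosL L) (n : Fin (L + 1)) (c : VT L) (hc : ∀ l, par (c l) = 1)
    (h1 : c 0 ≠ oddOf q.1) (h2 : c 0 ≠ oddOf r.1) (h3 : c 1 ≠ oddOf p.2) (h4 : c 1 ≠ oddOf q.2)
    (h5 : (c 2).val < 2 * n.val + 2) (h6 : c 2 ≠ oddOf n) :
    (latSys L).Om (oneAt c) (tP p q r n) = 0 := by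
  funext e
  rcases e with x | b
  · obtain ⟨f, j, s, hf, rfl⟩ := lat_from_F x
    rw [Om_latF _ _ f j s hf]
    have e1 : wL (nbP f j s).1 (oneAt c) = 0 :=
      wL_D_odd _ (not_f_nb f hf j s) _ (oneAt_odd_vanish hc)
    rw [e1, zero_mul, sub_zero]
    by_cases h0 : wL f.1 (oneAt c) = 0
    · rw [h0, zero_mul, mul_zero]
      rfl
    · obtain ⟨s1, hs1⟩ := wL_oneAt_ne _ _ h0
      obtain ⟨c1, hc1⟩ := corner_eq f j s s1 true
      obtain ⟨c2, hc2⟩ := corner_eq f j s s1 false
      rw [← hs1] at hc1 hc2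
      have e2 : wL (nbP f j s).1 (tP p q r n) = 0 := by
        rw [wL_apply, hc1, hc2, tP_corner p q r n c hc h1 h2 h3 h4 h5 h6,
          tP_corner p q r n c hc h1 h2 h3 h4 h5 h6, sub_self]
      rw [e2, mul_zero, mul_zero]
      rfl
  · rw [Om_back]
    rfl

/-- Inside a clean plane the form with an even function is in the subgroup. -/
theorem Om_clean {S : Subgroup (Equiv.Perm (AtL L))} {k : Fin 3} {a : Fin (L + 1)} (hS : Clean S k a)
    (c : VT L) (hc : ∀ l, par (c l) = 1) (hk : c k = oddOf a) (t : VT L → F3)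
    (ht : ∀ x, (∃ l, par (x l) = 1) → t x = 0) : (latSys L).Om (oneAt c) t ∈ addS S := by
  have e0 : (latSys L).Om (oneAt c) t = ∑ v, t v • (latSys L).Om (oneAt c) (oneAt v) := by
    conv_lhs => rw [sum_oneAt t]
    exact Om_sum_right (latSys L) Finset.univ t oneAt (oneAt c)
  rw [e0]
  refine (addS S).sum_mem fun v _ => ?_
  by_cases hv : ∀ l, par (v l) = 0
  · exact addS_smul _ (hS c v hc hv hk)
  · have : t v = 0 := by
      apply ht
      push_neg at hv
      obtain ⟨l, hl⟩ := hv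
      refine ⟨l, ?_⟩
      rcases zmod2_cases (par (v l)) with h | h
      · exact absurd h hl
      · exact h
    rw [this, zero_smul]
    exact (addS S).zero_mem

/-- The cocycle is in any subgroup for which the three positions are clean. -/
theorem cocycle_mem (S : Subgroup (Equiv.Perm (AtL L))) (p q r : PosL L) (hp : p ∈ CPos S)
    (hq : q ∈ CPos S) (hr : r ∈ CPos S) : chi p q + chi q r - chi p r ∈ addS S := by
  obtain ⟨_, hp1, n, hn⟩ := hp
  obtain ⟨hq0, hq1, _⟩ := hq
  obtain ⟨hr0, _, _⟩ := hr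
  have e : chi p q + chi q r - chi p r = (latSys L).Om (AP n) (tP p q r n) := by
    funext x
    exact chi_cocycle p q r n x
  rw [e]
  have e0 : (latSys L).Om (AP n) (tP p q r n) =
      ∑ c, AP n c • (latSys L).Om (oneAt c) (tP p q r n) := by
    conv_lhs => rw [sum_oneAt (AP n)]
    exact Om_sum_left (latSys L) Finset.univ (AP n) oneAt (tP p q r n)
  rw [e0]
  refine (addS S).sum_mem fun c _ => ?_
  by_cases hA : AP n c = 0
  · rw [hA, zero_smul]
    exact (addS S).zero_mem
  · refine addS_smul _ ?_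
    have hA' : (∀ l, par (c l) = 1) ∧ (c 2).val < 2 * n.val + 2 := by
      by_contra hh
      exact hA (if_neg hh)
    obtain ⟨hc, hv⟩ := hA'
    have hvan := tP_vanish p q r n
    by_cases h1 : c 0 = oddOf q.1
    · exact Om_clean hq0 c hc h1 _ hvan
    by_cases h2 : c 0 = oddOf r.1
    · exact Om_clean hr0 c hc h2 _ hvan
    by_cases h3 : c 1 = oddOf p.2
    · exact Om_clean hp1 c hc h3 _ hvan
    by_cases h4 : c 1 = oddOf q.2
    · exact Om_clean hq1 c hc h4 _ hvan
    by_cases h6 : c 2 = oddOf n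
    · exact Om_clean hn c hc h6 _ hvan
    rw [Om_nonclean p q r n c hc h1 h2 h3 h4 hv h6]
    exact (addS S).zero_mem

end Crest.Agent.CPTL
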