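/-
  The transfer data of the lattice structures.
-/
import Crest.Agent.Lib.CPTL.PosC

set_option autoImplicit false
set_option linter.unusedSectionVars false

noncomputable section
open Classical

namespace Crest.Agent.CPTL

open Crest.LogicCS.HFSet Crest.LogicCS.CPT Crest.LogicCS.LinF3 Base

variable {L : ℕ}

/-- A link on which every shift in `S` vanishes. -/
def Rigid (S : Subgroup (Equiv.Perm (AtL L))) (e : LkL L) : Prop :=
  ∀ χ, sE χ 0 ∈ S → χ e = 0

/-- A rigid link cannot lie on a clean column or row. -/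
theorem rigid_noLink {S : Subgroup (Equiv.Perm (AtL L))} {f : PtL L} {j s : Bool}
    (hr : Rigid S (Sum.inl (latAt f j s))) (hf : fP (pv f.1)) (hm : mOf f.1 = 2) {p : PosL L}
    (hp : p ∈ CPos S) : f.1 0 ≠ oddOf p.1 ∧ f.1 1 ≠ oddOf p.2 := by
  have hc := all_odd_F f hf true
  have hv := all_even_D (nbP f j s) (not_f_nb f hf j s) true
  have hne := hex_ne f hf j s
  constructor
  · intro h
    apply hne
    apply hr
    apply hp.1 _ _ hc hv
    rw [hm, mv_ne _ (by decide)]
    exact h
  · intro h
    apply hne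
    apply hr
    apply hp.2.1 _ _ hc hv
    rw [hm, mv_ne _ (by decide)]
    exact h

theorem chi_rigid {S : Subgroup (Equiv.Perm (AtL L))} {e : LkL L} (hr : Rigid S e) {p q : PosL L}
    (hp : p ∈ CPos S) (hq : q ∈ CPos S) : chi p q e = 0 := by
  rcases e with x | b
  · obtain ⟨f, j, s, hf, rfl⟩ := lat_from_F x
    rw [chi_F p q f j s hf]
    by_cases hpl : inPl f.1
    · rw [if_pos hpl]
      obtain ⟨hodd0, _, _⟩ := inPl_facts f hf hpl.1
      have h1 := (rigid_noLink hr hf hpl.1 hp).2
      have h2 := (rigid_noLink hr hf hpl.1 hq).1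
      cases j
      · rw [gam_false p q f hpl.1 hodd0, if_neg h1, mul_zero]
      · rw [gam_true p q f hpl.1 hodd0, if_neg h2, neg_zero, mul_zero]
    · rw [if_neg hpl]
  · rfl

/-- The defect link at a point. -/
theorem lk_i0 (r : PtL L) : lkAtL r i0 = Sum.inl (latAt r false true) := rfl

theorem corr_rigid {S : Subgroup (Equiv.Perm (AtL L))} {r : PtL L} {i : IncL} (hr : Rigid S (lkAtL r i))
    {p q : PosL L} (hp : p ∈ CPos S) (hq : q ∈ CPos S) : corrL p q r i = 0 := by
  unfold corrL
  by_cases hi : i = i0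
  · subst hi
    rw [if_pos rfl, lk_i0] at *
    have key : ∀ t : PosL L, t ∈ CPos S → r.1 ≠ fPos t := by
      intro t ht h
      have hf : fP (pv r.1) := by rw [h]; exact fP_fPos t
      have hm : mOf r.1 = 2 := by rw [h]; exact mOf_fPos t
      have := (rigid_noLink hr hf hm ht).2
      apply this
      rw [h]
      rfl
    rw [if_neg (key q hq), if_neg (key p hp), sub_zero]
  · rw [if_neg hi]

/-- The stabilizer of an atom. -/
abbrev StabL (a : AtL L) : Subgroup (Equiv.Perm (AtL L)) := SS (ZL L) {atom a}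

theorem sE_stab {a : AtL L} {χ : LkL L → F3} (h : sE χ 0 ∈ StabL a) : sE χ 0 a = a := by
  have := h.2 (atom a) rfl
  rw [rename_atom] at this
  exact atom_injective this

theorem rigid_bag {e : LkL L} {x y z : F3} :
    Rigid (StabL (iota (bag (H := latSys L) e x y z))) e := by
  intro χ h
  have h1 := sE_stab h
  have h2 := iota_injective h1
  have h3 : sAct χ 0 (bag (H := latSys L) e x y z) = bag e x y z := h2
  simp only [sAct, bag.injEq, true_and] at h3
  simpa using h3

theorem rigid_cfg {r : PtL L} {τ : LcL → F3} {z : IncL → F3} (i : IncL) :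
    Rigid (StabL (iota (cfg (H := latSys L) r τ z))) (lkAtL r i) := by
  intro χ h
  have h1 := sE_stab h
  have h2 := iota_injective h1
  have h3 : sAct χ 0 (cfg (H := latSys L) r τ z) = cfg r τ z := h2
  simp only [sAct, cfg.injEq, true_and] at h3
  have h4 := congrFun h3 i
  have h5 : z i + χ (lkAtL r i) + 0 = z i := h4
  simpa using h5

/-- The moves fix base atoms at clean positions. -/
theorem mv_base (u : Base (latSys L)) (p q : PosL L) (hp : p ∈ CPos (StabL (iota u)))
    (hq : q ∈ CPos (StabL (iota u))) : sAct (chi p q) (corrL p q) u = u := by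
  cases u with
  | tau r v => rfl
  | bag e x y z =>
    have h := chi_rigid rigid_bag hp hq
    simp only [sAct, bag.injEq, true_and]
    show z + chi p q e = z
    rw [h, add_zero]
  | cfg r τ z =>
    simp only [sAct, cfg.injEq, true_and]
    funext i
    have h1 := chi_rigid (rigid_cfg i) hp hq
    have h2 := corr_rigid (rigid_cfg i) hp hq
    show z i + chi p q (lkAtL r i) + corrL p q r i = z i
    rw [h1, h2, add_zero, add_zero]

/-- The moves of the table are fixed by shifts. -/
theorem actX_move (χ : LkL L → F3) (κ : PtL L → IncL → F3) (μ : moveSet (latSys L)) :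
    actX (sN (H := latSys L) χ κ) (Sum.inr μ) = Sum.inr μ := by
  rw [actX_inr]
  congr 1
  apply Subtype.ext
  obtain ⟨μ0, ⟨r, s, t, e, k⟩, rfl⟩ := μ
  exact sConj_eq (H := latSys L) χ κ _ _ _ _ _

/-- The table atoms without pairs. -/
theorem mv_X (x : XT (moveSet (latSys L))) (p q : PosL L) (hp : p ∈ CPos (StabL (Sum.inl x)))
    (hq : q ∈ CPos (StabL (Sum.inl x))) :
    actX (sN (H := latSys L) (chi p q) (corrL p q)) x = x := by
  rcases x with u | μ
  · rw [actX_inl]
    exact congrArg Sum.inl (mv_base u p q hp hq)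
  · exact actX_move _ _ _

theorem stab_pair_le (x y : XT (moveSet (latSys L))) :
    (StabL (Sum.inr (x, y)) ≤ StabL (Sum.inl x)) ∧ (StabL (Sum.inr (x, y)) ≤ StabL (Sum.inl y)) := by
  have key : ∀ z, z ∈ StabL (Sum.inr (x, y) : AtL L) →
      (rename ⇑z (atom (Sum.inl x : AtL L)) = atom (Sum.inl x : AtL L)) ∧
      (rename ⇑z (atom (Sum.inl y : AtL L)) = atom (Sum.inl y : AtL L)) := by
    rintro z ⟨⟨χ, _, rfl⟩, h2⟩
    have h3 := h2 _ rfl
    rw [rename_atom] at h3
    have h4 := atom_injective h3
    have h5 : (Sum.inr (actX (sN (H := latSys L) χ 0) x, actX (sN (H := latSys L) χ 0) y) : AtL L) =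
        Sum.inr (x, y) := h4
    simp only [Sum.inr.injEq, Prod.mk.injEq] at h5
    rw [rename_atom, rename_atom]
    constructor
    · show atom (Sum.inl (actX (sN (H := latSys L) χ 0) x) : AtL L) = _
      rw [h5.1]
    · show atom (Sum.inl (actX (sN (H := latSys L) χ 0) y) : AtL L) = _
      rw [h5.2]
  exact ⟨fun z hz => ⟨hz.1, fun w hw => by rw [Set.mem_singleton_iff.1 hw]; exact (key z hz).1⟩,
    fun z hz => ⟨hz.1, fun w hw => by rw [Set.mem_singleton_iff.1 hw]; exact (key z hz).2⟩⟩

/-- The move between two positions. -/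
def MvL (p q : PosL L) : Equiv.Perm (AtL L) := sE (chi p q) (corrL p q)

/-- The moves fix atoms at clean positions. -/
theorem mvL_atom (a : AtL L) (p q : PosL L) (hp : p ∈ CPos (StabL a)) (hq : q ∈ CPos (StabL a)) :
    MvL p q a = a := by
  rcases a with x | ⟨x, y⟩
  · show (Sum.inl (actX (sN (H := latSys L) (chi p q) (corrL p q)) x) : AtL L) = _
    rw [mv_X x p q hp hq]
  · have h := stab_pair_le x y
    show (Sum.inr (actX (sN (H := latSys L) (chi p q) (corrL p q)) x,
      actX (sN (H := latSys L) (chi p q) (corrL p q)) y) : AtL L) = _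
    rw [mv_X x p q (CPos_mono h.1 hp) (CPos_mono h.1 hq),
      mv_X y p q (CPos_mono h.2 hp) (CPos_mono h.2 hq)]

/-! ### The two structures -/

/-- The base position. -/
def p00 (L : ℕ) : PosL L := (0, 0)

/-- The defect of the second structure. -/
def kap1 (L : ℕ) (r : PtL L) (i : IncL) : F3 := if i = i0 ∧ r.1 = fPos (p00 L) then 1 else 0

/-- The first structure. -/
def R0L (L : ℕ) : Sym → AtL L → AtL L → Bool := RS (H := latSys L) 0

/-- The second structure. -/
def R1L (L : ℕ) : Sym → AtL L → AtL L → Bool := RS (H := latSys L) (kap1 L)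

theorem extRel_congr {B : Type} [Fintype B] {M : Set (Equiv.Perm B)} {BR BR' : Sym → B → B → Prop} {r : Sym}
    {a b : ExtT M} (h : ∀ u v, a = Sum.inl (Sum.inl u) → b = Sum.inl (Sum.inl v) → (BR r u v ↔ BR' r u v)) :
    extRel BR r a b ↔ extRel BR' r a b := by
  rcases a with (u | μ) | ⟨x, y⟩
  · rcases b with (v | ν) | ⟨x', y'⟩
    · exact h u v rfl rfl
    · simp [extRel]
    · simp [extRel]
  · rcases b with (v | ν) | ⟨x', y'⟩
    · simp [extRel]
    · simp [extRel]
    · simp [extRel]
  · rcases b with x0 | ⟨x', y'⟩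
    · simp [extRel]
    · simp [extRel]

theorem BRel_congr {H : HSys} {κ κ' : H.Pt → H.Inc → F3} {r : Sym} {u v : Base H}
    (h : ∀ p τ z i e x y w, u = cfg p τ z → v = bag e x y w → H.lkAt p i = e → κ p i = κ' p i) :
    BRel κ r u v ↔ BRel κ' r u v := by
  cases r with
  | I =>
    cases u with
    | cfg p τ z =>
      exact BRel_I_congr fun i e x y w hv he => h p τ z i e x y w rfl hv he
    | tau _ _ => exact Iff.rfl
    | bag _ _ _ _ => exact Iff.rfl
  | Ed =>
    cases u <;> cases v <;> exact Iff.rfl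
  | Cf => exact Iff.rfl
  | EB => exact Iff.rfl
  | VB =>
    cases u <;> cases v <;> exact Iff.rfl
  | Z δ =>
    cases u <;> cases v <;> exact Iff.rfl

/-- The valid isomorphisms. -/
def ValL (ψ : Equiv.Perm (AtL L)) (q : PosL L) : Prop :=
  ∃ χ : LkL L → F3, ψ = sE χ (corrL (p00 L) q) ∧ Bal2 (H := latSys L) χ (corrL (p00 L) q)

theorem rigid_base_of_image {χ : LkL L → F3} {κ : PtL L → IncL → F3} {v : Base (latSys L)} {e : LkL L}
    {x y w : F3} (h : sAct χ κ v = bag e x y w) : ∃ x0 y0 w0, v = bag (H := latSys L) e x0 y0 w0 := by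
  cases v with
  | tau _ _ => cases h
  | cfg _ _ _ => cases h
  | bag e' x' y' w' =>
    simp only [sAct, bag.injEq] at h
    obtain ⟨rfl, _, _, _⟩ := h
    exact ⟨x', y', w', rfl⟩

theorem kap1_eq (q : PosL L) (p : PtL L) (i : IncL) (h : i = i0 → p.1 ≠ fPos q) :
    kap1 L p i = (0 - corrL (p00 L) q) p i := by
  show kap1 L p i = 0 - corrL (p00 L) q p i
  simp only [kap1, corrL]
  by_cases hi : i = i0
  · simp only [hi, true_and, if_true]
    rw [if_neg (h hi)]
    split_ifs <;> ring
  · rw [if_neg (fun h => hi h.1), if_neg hi]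
    simp

/-- The relation `R1` on the image of a valid isomorphism. -/
theorem valL_rel (ψ : Equiv.Perm (AtL L)) (q : PosL L) (a b : AtL L) (r : Sym) (hψ : ValL ψ q)
    (hb : q ∈ CPos (StabL b)) : R1L L r (ψ a) (ψ b) = R0L L r a b := by
  obtain ⟨χ, rfl, hbal⟩ := hψ
  have h := sE_iso hbal 0 r a b
  unfold R0L
  rw [← h]
  unfold R1L RS
  rw [decide_eq_decide]
  apply extRel_congr
  intro u v ha hb'
  apply BRel_congr
  rintro p τ z i e x y w rfl rfl he
  -- the second atom is a bag on `e`
  rcases b with (v0 | ν) | ⟨x1, y1⟩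
  · have h1 : sAct χ (corrL (p00 L) q) v0 = bag e x y w := by
      have : (Sum.inl (Sum.inl (sAct χ (corrL (p00 L) q) v0)) : AtL L) = Sum.inl (Sum.inl (bag e x y w)) := hb'
      simpa using this
    obtain ⟨x0, y0, w0, rfl⟩ := rigid_base_of_image h1
    have hrig : Rigid (StabL (iota (bag (H := latSys L) e x0 y0 w0))) e := rigid_bag
    refine kap1_eq q p i fun hi hp => ?_
    subst hi
    have he2 : e = Sum.inl (latAt p false true) := he.symm
    subst he2
    have hf : fP (pv p.1) := by rw [hp]; exact fP_fPos q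
    have hm : mOf p.1 = 2 := by rw [hp]; exact mOf_fPos q
    have := (rigid_noLink hrig hf hm hb).2
    apply this
    rw [hp]
    rfl
  · simp only [sE, extP_inl, actX_inr] at hb'
    cases hb'
  · simp only [sE, extP_inr] at hb'
    cases hb'

/-- The transfer data. -/
def dataL (L : ℕ) {σ : Type} (sym : σ → Sym) :
    TData (fun s => R0L L (sym s)) (fun s => R1L L (sym s)) where
  Z := ZL L
  Z_comm := by
    rintro _ ⟨χ, _, rfl⟩ _ ⟨χ', _, rfl⟩
    exact sE_comm _ _ _ _
  Z_aut := by
    rintro _ ⟨χ, hχ, rfl⟩ r a b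
    have hb : Bal2 (H := latSys L) χ 0 := fun p => by
      simpa using hχ p
    have := sE_iso hb 0 (sym r) a b
    rw [sub_self] at this
    exact this
  Pos := PosL L
  posF := inferInstance
  Mv := MvL
  Mv_comm := fun p q p' q' => sE_comm _ _ _ _
  Mv_Z := by
    rintro p q _ ⟨χ, _, rfl⟩
    exact sE_comm _ _ _ _
  Mv_self := fun p => by
    unfold MvL
    rw [chi_self, corrL_self]
    exact sE_zero
  C := CPos
  C_mono := fun h => CPos_mono h
  cocycle := by
    intro S p q r hp hq hr
    have h := cocycle_mem S p q r hp hq hr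
    rw [mem_addS] at h
    have e : MvL p q * MvL q r * (MvL p r)⁻¹ = sE (H := latSys L) (chi p q + chi q r - chi p r) 0 := by
      unfold MvL
      rw [sE_inv (H := latSys L), sE_mul (H := latSys L) (chi q r) (chi p q) (corrL q r) (corrL p q),
        sE_mul (H := latSys L)]
      congr 1
      · abel
      · show - corrL p r + (corrL q r + corrL p q) = 0
        rw [corrL_add]
        simp
    rw [e]
    exact h
  mv_atom := fun a p q hp hq => mvL_atom a p q hp hq
  Val := ValL
  Val_mv := by
    rintro ψ q q' ⟨χ, rfl, hb⟩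
    refine ⟨chi q q' + χ, ?_, fun r => ?_⟩
    · unfold MvL
      rw [sE_mul]
      congr 1
      exact corrL_add _ _ _
    · have h1 := hb r
      have h2 := chi_bal2 q q' r
      have e : ∑ i, ((chi q q' + χ) ((latSys L).lkAt r i) + corrL (p00 L) q' r i) =
          ∑ i, (χ ((latSys L).lkAt r i) + corrL (p00 L) q r i) +
            ∑ i, (chi q q' ((latSys L).lkAt r i) + corrL q q' r i) := by
        rw [← Finset.sum_add_distrib, ← corrL_add (p00 L) q q']
        refine Finset.sum_congr rfl fun i _ => ?_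
        simp only [Pi.add_apply]
        ring
      rw [e, h1, h2, add_zero]
  Val_Z := by
    rintro ψ q z ⟨χ, rfl, hb⟩ ⟨χ', hχ', rfl⟩
    refine ⟨χ' + χ, ?_, fun r => ?_⟩
    · rw [sE_mul, zero_add]
      rfl
    · have h1 := hb r
      have h2 := hχ' r
      have e : ∑ i, ((χ' + χ) ((latSys L).lkAt r i) + corrL (p00 L) q r i) =
          ∑ i, (χ ((latSys L).lkAt r i) + corrL (p00 L) q r i) +
            ∑ i, χ' ((latSys L).lkAt r i) := by
        rw [← Finset.sum_add_distrib]
        refine Finset.sum_congr rfl fun i _ => ?_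
        simp only [Pi.add_apply]
        ring
      rw [e, h1, h2, add_zero]
  Val_comm := by
    rintro ψ q z ⟨χ, rfl, _⟩ ⟨χ', _, rfl⟩
    exact sE_comm _ _ _ _
  Val_rel := fun ψ q a b r hψ _ hb => valL_rel ψ q a b (sym r) hψ hb

theorem dataL_Z (L : ℕ) {σ : Type} (sym : σ → Sym) : (dataL L sym).Z = ZL L := rfl

/-- The initial isomorphism. -/
theorem dataL_val_init (L : ℕ) {σ : Type} (sym : σ → Sym) : (dataL L sym).Val 1 (p00 L) := by
  refine ⟨0, ?_, ?_⟩
  · rw [corrL_self]
    exact sE_zero.symm
  · intro r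
    rw [corrL_self]
    exact Finset.sum_eq_zero fun i _ => by
      show (0 : F3) + 0 = 0
      simp

/-- The initial position is clean for all of `Z`. -/
theorem p00_clean (L : ℕ) : p00 L ∈ CPos (ZL L) := by
  have key : ∀ k a, Clean (ZL L) k a := fun k a c v _ _ _ => ⟨_, HSys.Om_bal _ _ _, rfl⟩
  exact ⟨key _ _, key _ _, 0, key _ _⟩

/-- The total defect of the second structure does not vanish. -/
theorem kap1_total (L : ℕ) : ∑ p, (latSys L).sg p * ∑ i, kap1 L p i ≠ 0 := by
  have h1 : ∀ p : PtL L, ∑ i, kap1 L p i = if p = ptPos (p00 L) then 1 else 0 := by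
    intro p
    by_cases hp : p = ptPos (p00 L)
    · subst hp
      rw [if_pos rfl]
      unfold kap1
      simp only [ptPos_val, and_true]
      rw [Finset.sum_ite_eq' Finset.univ i0]
      simp
    · rw [if_neg hp]
      have : p.1 ≠ fPos (p00 L) := fun h => hp (Subtype.ext h)
      unfold kap1
      simp [this]
  have h2 : ∑ p : PtL L, sgL p * ∑ i, kap1 L p i = sgL (ptPos (p00 L)) := by
    simp only [h1, mul_ite, mul_one, mul_zero]
    rw [Finset.sum_ite_eq' Finset.univ (ptPos (p00 L))]
    simp
  have h3 : ∑ p, (latSys L).sg p * ∑ i, kap1 L p i = sgL (ptPos (p00 L)) := h2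
  rw [h3]
  exact sgL_ne _

/-- The two structures differ in consistency. -/
theorem R0L_consistent (L : ℕ) : Consistent (R0L L) := consistent_zero

theorem R1L_inconsistent (L : ℕ) : ¬ Consistent (R1L L) := fun h =>
  kap1_total L (total_defect_zero h)

end Crest.Agent.CPTL
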