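/-
  Few dirty planes: objects with small orbits have common clean positions.
-/
import Crest.Agent.Lib.CPTL.PosD
import Crest.Agent.Lib.CPTL.LemR

set_option autoImplicit false
set_option linter.unusedSectionVars false

noncomputable section
open Classical

namespace Crest.Agent.CPTL

open Crest.LogicCS.HFSet Crest.LogicCS.CPT Crest.LogicCS.LinF3 Base

variable {L : ℕ}

/-- A plane moving an object. -/
def Dirty (y : HF (AtL L)) (k : Fin 3) (a : Fin (L + 1)) : Prop :=
  ∃ c v : VT L, (∀ l, par (c l) = 1) ∧ (∀ l, par (v l) = 0) ∧ c k = oddOf a ∧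
    rename ⇑(sE (H := latSys L) ((latSys L).Om (oneAt c) (oneAt v)) 0) y ≠ y

theorem Om_odd_odd {c c' : VT L} (hc : ∀ l, par (c l) = 1) (hc' : ∀ l, par (c' l) = 1) :
    (latSys L).Om (oneAt c) (oneAt c') = 0 := by
  funext e
  rcases e with x | b
  · obtain ⟨f, j, s, hf, rfl⟩ := lat_from_F x
    rw [Om_latF _ _ f j s hf]
    have h1 : wL (nbP f j s).1 (oneAt c) = 0 :=
      wL_D_odd _ (not_f_nb f hf j s) _ (oneAt_odd_vanish hc)
    have h2 : wL (nbP f j s).1 (oneAt c') = 0 :=
      wL_D_odd _ (not_f_nb f hf j s) _ (oneAt_odd_vanish hc')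
    rw [h1, h2]
    simp
    rfl
  · rw [Om_back]
    rfl

theorem Om_even_even {v v' : VT L} (hv : ∀ l, par (v l) = 0) (hv' : ∀ l, par (v' l) = 0) :
    (latSys L).Om (oneAt v) (oneAt v') = 0 := by
  funext e
  rcases e with x | b
  · obtain ⟨f, j, s, hf, rfl⟩ := lat_from_F x
    rw [Om_latF _ _ f j s hf]
    have h1 : wL f.1 (oneAt v) = 0 := wL_F_even f hf _ (oneAt_even_vanish hv)
    have h2 : wL f.1 (oneAt v') = 0 := wL_F_even f hf _ (oneAt_even_vanish hv')
    rw [h1, h2]
    simp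
    rfl
  · rw [Om_back]
    rfl

/-- A nonzero commutator needs a corner. -/
theorem Om_corner {c v : VT L} (hc : ∀ l, par (c l) = 1)
    (h : (latSys L).Om (oneAt c) (oneAt v) ≠ 0) : ∃ c', v = nbL c c' := by
  by_contra hn
  apply h
  funext e
  rcases e with x | b
  · obtain ⟨f, j, s, hf, rfl⟩ := lat_from_F x
    rw [Om_latF _ _ f j s hf]
    have h1 : wL (nbP f j s).1 (oneAt c) = 0 :=
      wL_D_odd _ (not_f_nb f hf j s) _ (oneAt_odd_vanish hc)
    rw [h1, zero_mul, sub_zero]
    by_cases h0 : wL f.1 (oneAt c) = 0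
    · rw [h0, zero_mul, mul_zero]
      rfl
    · by_cases h2 : wL (nbP f j s).1 (oneAt v) = 0
      · rw [h2, mul_zero, mul_zero]
        rfl
      · exfalso
        obtain ⟨s1, hs1⟩ := wL_oneAt_ne _ _ h0
        obtain ⟨s2, hs2⟩ := wL_oneAt_ne _ _ h2
        obtain ⟨c1, hc1⟩ := corner_eq f j s s1 s2
        rw [← hs1, ← hs2] at hc1
        exact hn ⟨c1, hc1⟩
  · rw [Om_back]
    rfl

theorem val_oddOf_add_sv (a : Fin (L + 1)) (s : Bool) :
    (oddOf a + sv s).val = if s then 2 * a.val + 2 else 2 * a.val := by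
  have ha := a.isLt
  cases s
  · rw [val_sv_false, val_oddOf, if_neg (by omega)]
    simp
  · rw [val_sv_true, val_oddOf, if_pos (by omega)]
    simp

/-- No common corner for planes at distance at least two. -/
theorem no_common_corner {c c' v : VT L} {k : Fin 3} {a a' : Fin (L + 1)} (hc : c k = oddOf a)
    (hc' : c' k = oddOf a') (h1 : ∃ d, v = nbL c d) (h2 : ∃ d, v = nbL c' d) (hne : a ≠ a')
    (hpar : a.val % 2 = a'.val % 2) : False := by
  obtain ⟨d, hd⟩ := h1
  obtain ⟨d', hd'⟩ := h2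
  have e1 : v k = oddOf a + sv (d k) := by rw [hd]; show c k + _ = _; rw [hc]
  have e2 : v k = oddOf a' + sv (d' k) := by rw [hd']; show c' k + _ = _; rw [hc']
  have e3 := congrArg ZMod.val (e1.symm.trans e2)
  rw [val_oddOf_add_sv, val_oddOf_add_sv] at e3
  have hne' : a.val ≠ a'.val := fun h => hne (Fin.ext h)
  split_ifs at e3 <;> omega

/-- `G` of two commuting functions. -/
theorem gE_commute_of (t u : VT L → F3) (h : (latSys L).Om t u = 0) :
    gE (H := latSys L) t * gE (H := latSys L) u = gE (H := latSys L) u * gE (H := latSys L) t := by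
  have h1 := gE_comm (H := latSys L) t u
  rw [h, sE_zero] at h1
  rw [mul_inv_eq_one, mul_inv_eq_iff_eq_mul] at h1
  exact h1

/-- The automorphisms, as a subgroup. -/
def autSub {σ A : Type} [Fintype A] (R : σ → A → A → Bool) : Subgroup (Equiv.Perm A) where
  carrier := {g | IsAut R g}
  mul_mem' := isAut_mul
  one_mem' := isAut_one R
  inv_mem' := isAut_inv

theorem gE_mem_aut {σ : Type} (sym : σ → Sym) (t : VT L → F3) :
    gE (H := latSys L) t ∈ autSub (fun s => R0L L (sym s)) := fun r a b =>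
  gE_aut (H := latSys L) 0 t (sym r) a b

theorem orb_bound {σ A : Type} [Fintype A] (R : σ → A → A → Bool) (x : HF A) (F : Finset (HF A))
    (h : ∀ y ∈ F, ∃ g ∈ autSub R, y = rename ⇑g x) : F.card ≤ orb R x := by
  apply Finset.card_le_card
  intro y hy
  obtain ⟨g, hg, rfl⟩ := h y hy
  exact Finset.mem_image.2 ⟨g, Finset.mem_filter.2 ⟨Finset.mem_univ _, hg⟩, rfl⟩

/-- In one parity class there are few dirty planes. -/
theorem dirty_parity {σ : Type} (sym : σ → Sym) (y : HF (AtL L)) (k : Fin 3) (m : ℕ)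
    (horb : orb (fun s => R0L L (sym s)) y ≤ 2 ^ m) (e : ℕ) :
    (Finset.univ.filter fun a : Fin (L + 1) => Dirty y k a ∧ a.val % 2 = e).card ≤ 2 * m := by
  have hch : ∀ a : Fin (L + 1), ∃ c v : VT L, Dirty y k a → (∀ l, par (c l) = 1) ∧ (∀ l, par (v l) = 0) ∧
      c k = oddOf a ∧ rename ⇑(sE (H := latSys L) ((latSys L).Om (oneAt c) (oneAt v)) 0) y ≠ y := by
    intro a
    by_cases h : Dirty y k a
    · obtain ⟨c, v, hh⟩ := h
      exact ⟨c, v, fun _ => hh⟩
    · exact ⟨0, 0, fun hh => absurd hh h⟩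
  choose cs vs hcv using hch
  refine lemmaR _ (fun i => gE (H := latSys L) (oneAt (cs i))) (fun i => gE (H := latSys L) (oneAt (vs i)))
    (autSub (fun s => R0L L (sym s))) y (fun i _ => gE_mem_aut sym _) (fun i _ => gE_mem_aut sym _) ?_ ?_ m ?_
  · intro i hi j hj hij
    obtain ⟨hdi, hei⟩ := (Finset.mem_filter.1 hi).2
    obtain ⟨hdj, hej⟩ := (Finset.mem_filter.1 hj).2
    obtain ⟨ci, vi, ki, ni⟩ := hcv i hdi
    obtain ⟨cj, vj, kj, nj⟩ := hcv j hdj
    refine ⟨gE_commute_of _ _ (Om_odd_odd ci cj), gE_commute_of _ _ ?_, gE_commute_of _ _ (Om_even_even vi vj)⟩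
    by_contra hne
    have h1 := Om_corner ci hne
    have h2 : ∃ d, vs j = nbL (cs j) d := by
      apply Om_corner cj
      intro h0
      apply nj
      rw [h0, sE_zero]
      exact rename_one y
    exact no_common_corner ki kj h1 h2 hij (by omega)
  · intro i hi
    obtain ⟨hdi, _⟩ := (Finset.mem_filter.1 hi).2
    obtain ⟨_, _, _, ni⟩ := hcv i hdi
    rw [gE_comm (H := latSys L)]
    exact ni
  · intro F hF
    exact (orb_bound _ y F hF).trans horb

theorem dirty_card {σ : Type} (sym : σ → Sym) (y : HF (AtL L)) (k : Fin 3) (m : ℕ)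
    (horb : orb (fun s => R0L L (sym s)) y ≤ 2 ^ m) :
    (Finset.univ.filter fun a : Fin (L + 1) => Dirty y k a).card ≤ 4 * m := by
  have h0 := dirty_parity sym y k m horb 0
  have h1 := dirty_parity sym y k m horb 1
  have hsub : (Finset.univ.filter fun a : Fin (L + 1) => Dirty y k a) ⊆
      (Finset.univ.filter fun a : Fin (L + 1) => Dirty y k a ∧ a.val % 2 = 0) ∪
      (Finset.univ.filter fun a : Fin (L + 1) => Dirty y k a ∧ a.val % 2 = 1) := by
    intro a ha
    have h := (Finset.mem_filter.1 ha).2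
    have : a.val % 2 = 0 ∨ a.val % 2 = 1 := by omega
    rcases this with h2 | h2
    · exact Finset.mem_union_left _ (Finset.mem_filter.2 ⟨Finset.mem_univ _, h, h2⟩)
    · exact Finset.mem_union_right _ (Finset.mem_filter.2 ⟨Finset.mem_univ _, h, h2⟩)
  have := Finset.card_le_card hsub
  have h3 := Finset.card_union_le (Finset.univ.filter fun a : Fin (L + 1) => Dirty y k a ∧ a.val % 2 = 0)
    (Finset.univ.filter fun a : Fin (L + 1) => Dirty y k a ∧ a.val % 2 = 1)
  omega

/-- Largeness of the data. -/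
theorem dataL_large {σ : Type} (sym : σ → Sym) (m K : ℕ) (h : K * (4 * m) < L + 1) :
    (dataL L sym).Large (2 ^ m) K := by
  intro E hE hy
  have key : ∀ k : Fin 3, ∃ a : Fin (L + 1), ∀ y ∈ E, ¬ Dirty y k a := by
    intro k
    by_contra hn
    push Not at hn
    have hcov : (Finset.univ : Finset (Fin (L + 1))) ⊆
        E.biUnion fun y => Finset.univ.filter fun a : Fin (L + 1) => Dirty y k a := by
      intro a _
      obtain ⟨y, hy1, hy2⟩ := hn a
      exact Finset.mem_biUnion.2 ⟨y, hy1, Finset.mem_filter.2 ⟨Finset.mem_univ _, hy2⟩⟩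
    have h1 := Finset.card_le_card hcov
    rw [Finset.card_univ, Fintype.card_fin] at h1
    have h2 : (E.biUnion fun y => Finset.univ.filter fun a : Fin (L + 1) => Dirty y k a).card ≤
        E.card * (4 * m) := by
      refine Finset.card_biUnion_le_card_mul _ _ _ fun y hyE => ?_
      exact dirty_card sym y k m (hy y hyE).2.1
    have h3 : E.card * (4 * m) ≤ K * (4 * m) := Nat.mul_le_mul_right _ hE
    omega
  have hclean : ∀ (k : Fin 3) (a : Fin (L + 1)), (∀ y ∈ E, ¬ Dirty y k a) →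
      Clean (SS (ZL L) (E : Set (HF (AtL L)))) k a := by
    intro k a ha c v hc hv hk
    refine ⟨⟨_, HSys.Om_bal _ _ _, rfl⟩, fun y hyE => ?_⟩
    by_contra hne
    exact ha y hyE ⟨c, v, hc, hv, hk, hne⟩
  obtain ⟨a0, h0⟩ := key 0
  obtain ⟨b0, h1⟩ := key 1
  obtain ⟨n0, h2⟩ := key 2
  exact ⟨(a0, b0), hclean 0 a0 h0, hclean 1 b0 h1, n0, hclean 2 n0 h2⟩

end Crest.Agent.CPTL
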