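/-
  The number of atoms is polynomial in the side of the torus.
-/
import Crest.Agent.Lib.CPTL.LargeA

set_option autoImplicit false
set_option linter.unusedSectionVars false

noncomputable section
open Classical

namespace Crest.Agent.CPTL

open Crest.LogicCS.HFSet Crest.LogicCS.CPT Crest.LogicCS.LinF3 Base

/-! ### The moves -/

section
variable (H : HSys)

theorem Om_single_congr {t t' : H.Rm → F3} {r : H.Rm} (s : F3) (h : ∀ j, t (H.nb r j) = t' (H.nb r j)) :
    H.Om t (Pi.single r s) = H.Om t' (Pi.single r s) := by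
  have hs : (Pi.single r s : H.Rm → F3) = s • Pi.single r 1 := by
    funext x
    by_cases hx : x = r
    · subst hx; simp
    · simp [Pi.single_eq_of_ne hx]
  rw [hs, HSys.Om_smul_right, HSys.Om_smul_right]
  congr 1
  funext e
  have := H.om_nb r (t - t') (fun j => by simp [h j]) e
  simp only [map_sub] at this
  simp only [HSys.Om]
  linear_combination this

/-- The code of a move. -/
def moveCode (x : H.Rm × F3 × (H.Rm → F3) × H.Lk × F3) : H.Rm × F3 × (H.Nb → F3) × H.Lk × F3 :=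
  (x.1, x.2.1, fun j => x.2.2.1 (H.nb x.1 j), x.2.2.2.1, x.2.2.2.2)

theorem card_moveSet_le : Fintype.card (moveSet H) ≤
    Fintype.card H.Rm * (3 * (3 ^ Fintype.card H.Nb * (Fintype.card H.Lk * 3))) := by
  have hch : ∀ μ : moveSet H, ∃ x : H.Rm × F3 × (H.Rm → F3) × H.Lk × F3,
      moveOf x.1 x.2.1 x.2.2.1 x.2.2.2.1 x.2.2.2.2 = μ.1 := fun μ => μ.2
  choose pick hpick using hch
  have hinj : Function.Injective fun μ : moveSet H => moveCode H (pick μ) := by
    intro μ ν h
    apply Subtype.ext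
    rw [← hpick μ, ← hpick ν]
    have h' : moveCode H (pick μ) = moveCode H (pick ν) := h
    generalize pick μ = x at h' ⊢
    generalize pick ν = y at h' ⊢
    obtain ⟨r, s, t, e, k⟩ := x
    obtain ⟨r', s', t', e', k'⟩ := y
    simp only [moveCode, Prod.mk.injEq] at h'
    obtain ⟨rfl, rfl, h3, rfl, rfl⟩ := h'
    simp only [moveOf]
    rw [Om_single_congr H s (fun j => congrFun h3 j)]
  have := Fintype.card_le_of_injective _ hinj
  refine this.trans (le_of_eq ?_)
  simp [Fintype.card_prod, Fintype.card_fun, ZMod.card]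

end

/-! ### Card of the lattice -/

variable {L : ℕ}

theorem card_ZN : Fintype.card (ZN L) = 2 * L + 8 := by
  rw [ZMod.card]; ring

theorem card_VT : Fintype.card (VT L) = (2 * L + 8) ^ 3 := by
  rw [Fintype.card_fun, card_ZN]
  simp

theorem card_PtL_le : Fintype.card (PtL L) ≤ (2 * L + 8) ^ 3 := by
  rw [← card_VT]
  exact Fintype.card_subtype_le _

theorem card_LatL_le : Fintype.card (LatL L) ≤ (2 * L + 8) ^ 3 * 3 := by
  have : Fintype.card (LatL L) ≤ Fintype.card (VT L × Fin 3) := Fintype.card_subtype_le _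
  rw [Fintype.card_prod, card_VT] at this
  simpa using this

theorem card_LkL_le : Fintype.card (LkL L) ≤ (2 * L + 8) ^ 3 * 4 := by
  rw [Fintype.card_sum]
  have h1 := card_PtL_le (L := L)
  have h2 := card_LatL_le (L := L)
  omega

theorem card_IncL : Fintype.card IncL = 6 := by decide
theorem card_LcL : Fintype.card LcL = 6 := by decide
theorem card_NbL : Fintype.card (Fin 3 → Bool) = 8 := by decide

theorem card_Base_le : Fintype.card (Base (latSys L)) ≤ 531552 * (2 * L + 8) ^ 3 := by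
  rw [Base.card_eq]
  have h1 : Fintype.card (latSys L).Rm = (2 * L + 8) ^ 3 := card_VT
  have h2 : Fintype.card (latSys L).Lk ≤ (2 * L + 8) ^ 3 * 4 := card_LkL_le
  have h3 : Fintype.card (latSys L).Pt ≤ (2 * L + 8) ^ 3 := card_PtL_le
  have h4 : Fintype.card (latSys L).Lc = 6 := card_LcL
  have h5 : Fintype.card (latSys L).Inc = 6 := card_IncL
  rw [h1, h4, h5]
  generalize (2 * L + 8) ^ 3 = n at *
  norm_num
  omega

theorem card_move_le : Fintype.card (moveSet (latSys L)) ≤ 236196 * (2 * L + 8) ^ 6 := by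
  refine (card_moveSet_le (latSys L)).trans ?_
  have h1 : Fintype.card (latSys L).Rm = (2 * L + 8) ^ 3 := card_VT
  have h2 : Fintype.card (latSys L).Lk ≤ (2 * L + 8) ^ 3 * 4 := card_LkL_le
  have h3 : Fintype.card (latSys L).Nb = 8 := card_NbL
  rw [h1, h3]
  have e : (2 * L + 8) ^ 6 = (2 * L + 8) ^ 3 * (2 * L + 8) ^ 3 := by ring
  rw [e]
  generalize (2 * L + 8) ^ 3 = n at *
  norm_num
  nlinarith

/-- A bound on the number of atoms. -/
theorem card_AtL_le : Fintype.card (AtL L) ≤ 10 ^ 12 * (2 * L + 8) ^ 12 := by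
  have h1 := card_Base_le (L := L)
  have h2 := card_move_le (L := L)
  have hX : Fintype.card (XT (moveSet (latSys L))) ≤ 767748 * (2 * L + 8) ^ 6 := by
    rw [Fintype.card_sum]
    have hn : (2 * L + 8) ^ 3 ≤ (2 * L + 8) ^ 6 := Nat.pow_le_pow_right (by omega) (by omega)
    omega
  have hE : Fintype.card (AtL L) = Fintype.card (XT (moveSet (latSys L))) +
      Fintype.card (XT (moveSet (latSys L))) * Fintype.card (XT (moveSet (latSys L))) := by
    show Fintype.card (ExtT (moveSet (latSys L))) = _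
    rw [Fintype.card_sum, Fintype.card_prod]
  rw [hE]
  generalize Fintype.card (XT (moveSet (latSys L))) = X at *
  have e : (2 * L + 8) ^ 12 = (2 * L + 8) ^ 6 * (2 * L + 8) ^ 6 := by ring
  have hn : 1 ≤ (2 * L + 8) ^ 6 := Nat.one_le_pow _ _ (by omega)
  rw [e]
  generalize (2 * L + 8) ^ 6 = n at *
  have h3 : X * X ≤ (767748 * n) * (767748 * n) := Nat.mul_le_mul hX hX
  norm_num
  nlinarith

/-! ### Arithmetic of the growth -/

theorem poly_bound (P : Polynomial ℕ) : ∃ C d : ℕ, ∀ x : ℕ, P.eval x ≤ C * (x + 1) ^ d := by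
  refine ⟨∑ i ∈ Finset.range (P.natDegree + 1), P.coeff i, P.natDegree, fun x => ?_⟩
  rw [Polynomial.eval_eq_sum_range, Finset.sum_mul]
  refine Finset.sum_le_sum fun i hi => ?_
  refine Nat.mul_le_mul_left _ ?_
  calc x ^ i ≤ (x + 1) ^ i := Nat.pow_le_pow_left (by omega) _
    _ ≤ (x + 1) ^ P.natDegree := Nat.pow_le_pow_right (by omega) (by
      have := Finset.mem_range.1 hi
      omega)

theorem exists_k (a b : ℕ) : ∃ k, 3 ≤ k ∧ a * k + b < 2 ^ (k - 1) := by
  refine ⟨2 * (2 * a + b + 2) + 1, by omega, ?_⟩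
  have hk : 2 * (2 * a + b + 2) + 1 - 1 = 2 * (2 * a + b + 2) := by omega
  rw [hk, pow_mul']
  generalize hj : 2 * a + b + 2 = j
  have h1 : j < 2 ^ j := Nat.lt_two_pow_self
  have h2 : (j + 1) * (j + 1) ≤ 2 ^ j * 2 ^ j := Nat.mul_le_mul (by omega) (by omega)
  have h3 : (2 ^ j) ^ 2 = 2 ^ j * 2 ^ j := by ring
  rw [h3]
  nlinarith

/-- The existence of a large enough lattice. -/
theorem exists_L (P : Polynomial ℕ) (c K : ℕ) : ∃ L m : ℕ,
    (P.eval (Fintype.card (AtL L)) + Fintype.card (AtL L) + 2) ^ c ≤ 2 ^ m ∧ K * (4 * m) < L + 1 := by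
  obtain ⟨CP, d, hP⟩ := poly_bound P
  -- the constants
  let c0 : ℕ := 10 ^ 12
  let c1 : ℕ := CP
  let α : ℕ := 12 * (d + 1) * c
  let β : ℕ := (c1 + (c0 + 1) * (d + 1) + 3) * c
  obtain ⟨k, hk3, hk⟩ := exists_k (K * 4 * α) (K * 4 * β + 3)
  obtain ⟨j, rfl⟩ : ∃ j, k = j + 3 := ⟨k - 3, by omega⟩
  have hpow : 2 ^ (j + 3 - 1) = 2 ^ (j + 2) := by congr 1
  rw [hpow] at hk
  let L : ℕ := 2 ^ (j + 2) - 4
  have hL4 : 4 ≤ 2 ^ (j + 2) := by
    have : 2 ^ (j + 2) = 2 ^ j * 4 := by ring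
    have h1 : 1 ≤ 2 ^ j := Nat.one_le_pow _ _ (by omega)
    omega
  have hn : 2 * L + 8 = 2 ^ (j + 3) := by
    have : 2 ^ (j + 3) = 2 * 2 ^ (j + 2) := by ring
    simp only [L]
    omega
  let m : ℕ := α * (j + 3) + β
  refine ⟨L, m, ?_, ?_⟩
  · -- bound on the atoms
    have hA : Fintype.card (AtL L) ≤ 2 ^ (c0 + 12 * (j + 3)) := by
      refine (card_AtL_le (L := L)).trans ?_
      have h12 : (2 ^ (j + 3)) ^ 12 = 2 ^ (12 * (j + 3)) := by
        rw [← pow_mul]
        congr 1
        ring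
      rw [hn, h12, pow_add 2 c0]
      refine Nat.mul_le_mul_right _ ?_
      exact (Nat.lt_two_pow_self).le
    generalize Fintype.card (AtL L) = A at *
    have h1 : A + 1 ≤ 2 ^ (c0 + 12 * (j + 3) + 1) := by
      have : 1 ≤ 2 ^ (c0 + 12 * (j + 3)) := Nat.one_le_pow _ _ (by omega)
      rw [pow_succ]
      omega
    have h2 : P.eval A ≤ 2 ^ (c1 + (c0 + 12 * (j + 3) + 1) * d) := by
      refine (hP A).trans ?_
      rw [pow_add, pow_mul]
      refine Nat.mul_le_mul (Nat.lt_two_pow_self).le ?_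
      exact Nat.pow_le_pow_left h1 _
    -- the exponent
    let e : ℕ := c1 + (c0 + 12 * (j + 3) + 1) * (d + 1)
    have he1 : 2 ^ (c1 + (c0 + 12 * (j + 3) + 1) * d) ≤ 2 ^ e :=
      Nat.pow_le_pow_right (by omega) (by simp only [e]; nlinarith)
    have he2 : 2 ^ (c0 + 12 * (j + 3)) ≤ 2 ^ e :=
      Nat.pow_le_pow_right (by omega) (by simp only [e]; nlinarith)
    have he3 : 2 ≤ 2 ^ (e + 1) := by
      rw [pow_succ]
      have : 1 ≤ 2 ^ e := Nat.one_le_pow _ _ (by omega)
      omega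
    have hB : P.eval A + A + 2 ≤ 2 ^ (e + 3) := by
      have h3 : 2 ^ (e + 3) = 2 ^ e * 8 := by ring
      have h4 : 2 ^ (e + 1) = 2 ^ e * 2 := by ring
      omega
    calc (P.eval A + A + 2) ^ c ≤ (2 ^ (e + 3)) ^ c := Nat.pow_le_pow_left hB _
      _ = 2 ^ ((e + 3) * c) := by rw [pow_mul]
      _ ≤ 2 ^ m := by
        apply Nat.pow_le_pow_right (by omega)
        simp only [m, α, β, e]
        apply le_of_eq
        ring
  · have hL : L + 1 + 3 = 2 ^ (j + 2) := by
      simp only [L]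
      omega
    have e : K * (4 * m) = K * 4 * α * (j + 3) + K * 4 * β := by
      simp only [m]
      ring
    omega

end Crest.Agent.CPTL
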