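/-
  No plain sentence defines the consistency query.
-/
import Crest.Agent.Lib.CPTL.Growth

set_option autoImplicit false
set_option linter.unusedSectionVars false

noncomputable section
open Classical

namespace Crest.Agent.CPTL

open Crest.LogicCS.HFSet Crest.LogicCS.CPT Crest.LogicCS.LinF3 Base

/-- No plain sentence has the same truth value on the two lattice structures, when the values there
differ. -/
theorem plain_agree {σ : Type} (sym : σ → Sym) (T : Sentence σ) (hplain : T.IsPlain) :
    ∃ L : ℕ, T.Holds (AtL L) (fun s => R0L L (sym s)) ↔ T.Holds (AtL L) (fun s => R1L L (sym s)) := by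
  obtain ⟨c, K, htr⟩ := transfer_formula T.formula hplain
  obtain ⟨L, m, hB, hK⟩ := exists_L T.bound c K
  have hL := dataL_large (L := L) sym m K hK
  have heq := htr (AtL L) (fun s => R0L L (sym s)) (fun s => R1L L (sym s)) (dataL L sym)
    (T.bound.eval (Fintype.card (AtL L))) _ le_rfl (hL.mono hB le_rfl) 1 (p00 L)
    (dataL_val_init L sym) (p00_clean L)
  refine ⟨L, ?_⟩
  unfold Sentence.Holds Sentence.value
  rw [heq]

theorem not_definable_consistent :
    ¬ Definable (fun (A : Type) (_ : Fintype A) (R : Sym → A → A → Bool) => Consistent R) := by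
  rintro ⟨T, hplain, hT⟩
  obtain ⟨L, hL⟩ := plain_agree (id : Sym → Sym) T hplain
  have h0 := (hT (AtL L) (R0L L)).2 (R0L_consistent L)
  have h1 := (hT (AtL L) (R1L L)).1 (hL.1 h0)
  exact R1L_inconsistent L h1

end Crest.Agent.CPTL
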