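/-
  Evaluation of total plain formulas and terms with classical meanings; bounded quantifiers.
-/
import Crest.Agent.Lib.CPTL.Eval

set_option autoImplicit false
set_option linter.unusedSectionVars false

noncomputable section
open Classical

namespace Crest.Agent.CPTL

open Crest.LogicCS.HFSet Crest.LogicCS.CPT

variable {σ A : Type} [Fintype A]

/-- A classical Boolean. -/
def dec (P : Prop) : Bool := @decide P (Classical.propDecidable P)

@[simp] theorem dec_eq_true {P : Prop} : dec P = true ↔ P := by simp [dec]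

@[simp] theorem dec_eq_false {P : Prop} : dec P = false ↔ ¬ P := by simp [dec]

theorem dec_congr {P Q : Prop} (h : P ↔ Q) : dec P = dec Q := by
  by_cases hP : P
  · have hQ : Q := h.1 hP
    rw [(dec_eq_true).2 hP, (dec_eq_true).2 hQ]
  · have hQ : ¬ Q := fun q => hP (h.2 q)
    rw [(dec_eq_false).2 hP, (dec_eq_false).2 hQ]

theorem decide_eq_dec (P : Prop) [i : Decidable P] : decide P = dec P := by
  by_cases hP : P
  · simp [hP]
  · simp [hP]

theorem dec_not (P : Prop) : (!dec P) = dec (¬ P) := by
  by_cases hP : P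
  · rw [(dec_eq_true).2 hP, (dec_eq_false).2 (not_not_intro hP)]; rfl
  · rw [(dec_eq_false).2 hP, (dec_eq_true).2 hP]; rfl

theorem dec_and (P Q : Prop) : (dec P && dec Q) = dec (P ∧ Q) := by
  rw [Bool.eq_iff_iff]
  simp

theorem dec_or (P Q : Prop) : (dec P || dec Q) = dec (P ∨ Q) := by
  rw [Bool.eq_iff_iff]
  simp

section
variable {R : σ → A → A → Bool} {p n : ℕ} {e : Fin n → HF A}

theorem ev_var {i : Fin n} {x : HF A} (h : e i = x) : (Term.var i : Term σ n).eval R p e = some x := by
  rw [eval_var, h]

theorem ev_atoms : (Term.atoms : Term σ n).eval R p e = some (allAtoms A) := eval_atoms R p e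

theorem ev_empty : (Term.empty : Term σ n).eval R p e = some empty := eval_empty R p e

theorem ev_pair {s t : Term σ n} {x y : HF A} (hs : s.eval R p e = some x) (ht : t.eval R p e = some y) :
    (Term.pair s t).eval R p e = some (ofFinset {x, y}) := by
  rw [eval_pair, hs, ht]; rfl

theorem ev_union {t : Term σ n} {x : HF A} (h : t.eval R p e = some x) :
    (Term.union t).eval R p e = some (ofFinset ((members x).biUnion members)) := by
  rw [eval_union, h]; rfl

theorem ev_theOnly {t : Term σ n} {x : HF A} (h : t.eval R p e = some x) :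
    (Term.theOnly t).eval R p e = some (theOnlyV x) := by
  rw [eval_theOnly, h]; rfl

theorem ev_compr {r : Term σ n} {g : Formula σ (n + 1)} {b : Term σ (n + 1)} {x : HF A}
    {P : HF A → Prop} [DecidablePred P] {f : HF A → HF A} (hr : r.eval R p e = some x)
    (hg : ∀ u ∈ members x, g.eval R p (Fin.cons u e) = some (dec (P u)))
    (hb : ∀ u ∈ members x, b.eval R p (Fin.cons u e) = some (f u)) :
    (Term.compr r g b).eval R p e = some (ofFinset (((members x).filter P).image f)) := by
  rw [eval_compr, hr, Option.bind_some]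
  rw [comprValue_of_some (fun u => dec (P u)) f hg (fun u hu _ => hb u hu)]
  congr 3
  ext u
  simp

theorem ev_eq {s t : Term σ n} {x y : HF A} (hs : s.eval R p e = some x) (ht : t.eval R p e = some y) :
    (Formula.eq s t).eval R p e = some (dec (x = y)) := by
  rw [eval_eq, hs, ht]
  simp only [Option.bind_some, Option.map_some]
  rw [decide_eq_dec]

theorem ev_rel {r : σ} {s t : Term σ n} {x y : HF A} (hs : s.eval R p e = some x)
    (ht : t.eval R p e = some y) : (Formula.rel r s t).eval R p e = some (dec (RelHolds R r x y)) := by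
  rw [eval_rel, hs, ht]
  simp only [Option.bind_some, Option.map_some]
  rw [decide_eq_dec]

theorem ev_not {φ : Formula σ n} {P : Prop} (h : φ.eval R p e = some (dec P)) :
    (Formula.not φ).eval R p e = some (dec (¬ P)) := by
  rw [eval_not, h]
  simp only [Option.map_some, dec_not]

theorem ev_and {φ ψ : Formula σ n} {P Q : Prop} (h1 : φ.eval R p e = some (dec P))
    (h2 : ψ.eval R p e = some (dec Q)) : (Formula.and φ ψ).eval R p e = some (dec (P ∧ Q)) := by
  rw [eval_and, h1, h2]
  simp only [Option.bind_some, Option.map_some, dec_and]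

theorem ev_or {φ ψ : Formula σ n} {P Q : Prop} (h1 : φ.eval R p e = some (dec P))
    (h2 : ψ.eval R p e = some (dec Q)) : (Formula.or φ ψ).eval R p e = some (dec (P ∨ Q)) := by
  rw [eval_or, h1, h2]
  simp only [Option.bind_some, Option.map_some, dec_or]

end

/-- Existential over the members of a term. -/
def exF {n : ℕ} (r : Term σ n) (φ : Formula σ (n + 1)) : Formula σ n :=
  .not (.eq (.compr r φ (.var 0)) .empty)

/-- Universal over the members of a term. -/
def allF {n : ℕ} (r : Term σ n) (φ : Formula σ (n + 1)) : Formula σ n :=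
  .not (exF r (.not φ))

/-- Implication. -/
def impF {n : ℕ} (φ ψ : Formula σ n) : Formula σ n := .or (.not φ) ψ

/-- Equivalence. -/
def iffF {n : ℕ} (φ ψ : Formula σ n) : Formula σ n := .and (impF φ ψ) (impF ψ φ)

section
variable {R : σ → A → A → Bool} {p n : ℕ} {e : Fin n → HF A}

theorem ev_ex {r : Term σ n} {φ : Formula σ (n + 1)} {x : HF A} {P : HF A → Prop}
    (hr : r.eval R p e = some x)
    (hφ : ∀ u ∈ members x, φ.eval R p (Fin.cons u e) = some (dec (P u))) :
    (exF r φ).eval R p e = some (dec (∃ u ∈ members x, P u)) := by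
  unfold exF
  have h1 : (Term.compr r φ (Term.var 0)).eval R p e =
      some (ofFinset (((members x).filter P).image fun u => u)) :=
    ev_compr hr hφ (fun u _ => ev_var rfl)
  rw [ev_not (ev_eq h1 ev_empty)]
  congr 1
  apply dec_congr
  rw [empty, ofFinset_inj, ← Ne.eq_def, ← Finset.nonempty_iff_ne_empty]
  constructor
  · rintro ⟨w, hw⟩
    obtain ⟨u, hu, rfl⟩ := Finset.mem_image.1 hw
    exact ⟨u, (Finset.mem_filter.1 hu).1, (Finset.mem_filter.1 hu).2⟩
  · rintro ⟨u, hu, hP⟩
    exact ⟨u, Finset.mem_image.2 ⟨u, Finset.mem_filter.2 ⟨hu, hP⟩, rfl⟩⟩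

theorem ev_all {r : Term σ n} {φ : Formula σ (n + 1)} {x : HF A} {P : HF A → Prop}
    (hr : r.eval R p e = some x)
    (hφ : ∀ u ∈ members x, φ.eval R p (Fin.cons u e) = some (dec (P u))) :
    (allF r φ).eval R p e = some (dec (∀ u ∈ members x, P u)) := by
  unfold allF
  rw [ev_not (ev_ex (P := fun u => ¬ P u) hr fun u hu => ev_not (hφ u hu))]
  congr 1
  apply dec_congr
  simp

theorem ev_imp {φ ψ : Formula σ n} {P Q : Prop} (h1 : φ.eval R p e = some (dec P))
    (h2 : ψ.eval R p e = some (dec Q)) : (impF φ ψ).eval R p e = some (dec (P → Q)) := by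
  unfold impF
  rw [ev_or (ev_not h1) h2]
  congr 1
  apply dec_congr
  exact (imp_iff_not_or).symm

theorem ev_iff {φ ψ : Formula σ n} {P Q : Prop} (h1 : φ.eval R p e = some (dec P))
    (h2 : ψ.eval R p e = some (dec Q)) : (iffF φ ψ).eval R p e = some (dec (P ↔ Q)) := by
  unfold iffF
  rw [ev_and (ev_imp h1 h2) (ev_imp h2 h1)]
  congr 1
  apply dec_congr
  exact (iff_def).symm

end

end Crest.Agent.CPTL
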