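/-
  The sentence with one witnessed choice, and the meanings of its parts on any input.
-/
import Crest.Agent.Lib.CPTL.SynA

set_option autoImplicit false
set_option linter.unusedSectionVars false

noncomputable section
open Classical

namespace Crest.Agent.CPTL

open Crest.LogicCS.HFSet Crest.LogicCS.CPT

/-- The relation symbols. -/
abbrev rEd : Fin 8 := 0
abbrev rCf : Fin 8 := 1
abbrev rEB : Fin 8 := 2
abbrev rVB : Fin 8 := 3
abbrev rI : Fin 8 := 4
abbrev rZ0 : Fin 8 := 5
abbrev rZ1 : Fin 8 := 6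
abbrev rZ2 : Fin 8 := 7

/-- Terms and formulas over the vocabulary. -/
abbrev T8 := Term (Fin 8)
abbrev F8 := Formula (Fin 8)

/-- Indices of the last variables. -/
abbrev vi0 {n : ℕ} : Fin (n + 1) := 0
abbrev vi1 {n : ℕ} : Fin (n + 2) := Fin.succ 0
abbrev vi2 {n : ℕ} : Fin (n + 3) := Fin.succ (Fin.succ 0)
abbrev vi3 {n : ℕ} : Fin (n + 4) := Fin.succ (Fin.succ (Fin.succ 0))

abbrev vx0 {n : ℕ} : T8 (n + 1) := .var vi0
abbrev vx1 {n : ℕ} : T8 (n + 2) := .var vi1
abbrev vx2 {n : ℕ} : T8 (n + 3) := .var vi2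
abbrev vx3 {n : ℕ} : T8 (n + 4) := .var vi3

variable {n : ℕ}

/-- The formula that is always true. -/
def ttF : F8 n := .eq .empty .empty

/-- Kuratowski pairs. -/
def kpT (s t : T8 n) : T8 n := .pair (.pair s s) (.pair s t)

/-- The first half of the table: `a'` is the image of `a` under `μ`. -/
def im1F (μ a a' : Fin n) : F8 n :=
  exF .atoms (.and (.rel rZ2 (.var μ.succ) vx0) (.and (.rel rZ0 vx0 (.var a.succ)) (.rel rZ1 vx0 (.var a'.succ))))

/-- The table on all atoms. -/
def imF (μ a a' : Fin n) : F8 n :=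
  .or (im1F μ a a')
    (.and (.not (.rel rEd (.var a) (.var a))) (.and (.not (.rel rEd (.var a') (.var a')))
      (exF .atoms (exF .atoms (exF .atoms (exF .atoms
        (.and (.rel rZ0 (.var a.succ.succ.succ.succ) vx3) (.and (.rel rZ1 (.var a.succ.succ.succ.succ) vx2)
        (.and (.rel rZ0 (.var a'.succ.succ.succ.succ) vx1) (.and (.rel rZ1 (.var a'.succ.succ.succ.succ) vx0)
        (.and (im1F μ.succ.succ.succ.succ vi3 vi1) (im1F μ.succ.succ.succ.succ vi2 vi0))))))))))))

/-- The function given by the table. -/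
def fT (μ a : Fin n) : T8 n := .theOnly (.compr .atoms (imF μ.succ a.succ vi0) vx0)

/-- The function preserves the relation `r`. -/
def presF (r : Fin 8) (μ : Fin n) : F8 n :=
  allF .atoms (allF .atoms (iffF (.rel r (fT μ.succ.succ vi1) (fT μ.succ.succ vi0)) (.rel r vx1 vx0)))

/-- The function is an automorphism fixing the members of `b`. -/
def validF (μ b : Fin n) : F8 n :=
  .and (allF .atoms (exF .atoms (.eq vx0 (fT μ.succ.succ vi1))))
  (.and (allF .atoms (allF .atoms (impF (.eq (fT μ.succ.succ vi1) (fT μ.succ.succ vi0)) (.eq vx1 vx0))))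
  (.and (presF 0 μ) (.and (presF 1 μ) (.and (presF 2 μ) (.and (presF 3 μ) (.and (presF 4 μ) (.and (presF 5 μ)
  (.and (presF 6 μ) (.and (presF 7 μ)
  (allF (.var b) (.eq (fT μ.succ vi0) vx0)))))))))))

/-- The graph of the function. -/
def grT (μ : Fin n) : T8 n := .compr .atoms ttF (kpT vx0 (fT μ.succ vi0))

/-- The graph of the identity. -/
def idT : T8 n := .compr .atoms ttF (kpT vx0 vx0)

/-- The witnessing permutations. -/
def mT (b : Fin n) : T8 n :=
  .union (.pair (.pair idT idT) (.compr .atoms (validF vi0 b.succ) (grT vi0)))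

/-- One step. -/
def stepT (b y : Fin n) : T8 n := .union (.pair (.var b) (.compr .atoms (.eq vx0 (.var y.succ)) vx0))

/-- There is a valid configuration around each point, compatible with `b`. -/
def goodF (b : Fin n) : F8 n :=
  allF .atoms (impF (.rel rCf vx0 vx0)
    (exF .atoms (.and (.rel rVB vx0 vx1)
      (allF (.var b.succ.succ) (allF .atoms
        (impF (.and (.rel rI vx2 vx0) (.rel rEB vx0 vx1)) (.eq vx0 vx1)))))))

/-- `y` sits in the next slot after `b`. -/
def nextF (b y : Fin n) : F8 n :=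
  .and (.rel rEB (.var y) (.var y)) (.and (.not (exF (.var b) (.rel rEB (.var y.succ) vx0)))
    (allF .atoms (impF (.and (.rel rEB vx0 vx0) (.and (.rel rCf vx0 (.var y.succ)) (.not (.eq vx0 (.var y.succ)))))
      (exF (.var b.succ) (.rel rEB vx1 vx0)))))

/-- The candidates for the next element. -/
def dT (b : Fin n) : T8 n :=
  .compr .atoms (.and (nextF b.succ vi0) (exF (.pair (stepT b.succ vi0) (stepT b.succ vi0)) (goodF vi0))) vx0

/-- The candidates are conjugate under the witnessing permutations. -/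
def condF (b : Fin n) : F8 n :=
  .and (exF (dT b) ttF)
    (allF (dT b) (allF (dT b.succ) (exF (mT b.succ.succ) (exF vx0 (.eq vx0 (kpT vx3 vx2))))))

/-- The choice set. -/
def choiceT (b : Fin n) : T8 n :=
  .union (.pair (.compr (dT b) (condF b.succ) vx0)
    (.compr (.pair .empty .empty) (.not (condF b.succ)) vx0))

/-- The output. -/
def outF (b : Fin n) : F8 n :=
  .and (allF .atoms (impF (.rel rEB vx0 vx0) (exF (.var b.succ) (.rel rEB vx1 vx0)))) (goodF b)

/-- The formula. -/
def theF : Formula (Fin 8) 0 := .wsc (stepT vi1 vi0) (choiceT vi0) (mT vi0) (outF vi0)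

/-- The sentence. -/
def theS : Sentence (Fin 8) := ⟨theF, Polynomial.X⟩

/-! ### Meanings -/

variable {A : Type} [Fintype A] (R : Fin 8 → A → A → Bool)

/-- The atoms, as a finite set of objects. -/
abbrev AS (A : Type) [Fintype A] : Finset (HF A) := members (allAtoms A)

/-- Meaning of `im1F`. -/
def Im1V (μ a a' : HF A) : Prop :=
  ∃ q ∈ AS A, RelHolds R rZ2 μ q ∧ RelHolds R rZ0 q a ∧ RelHolds R rZ1 q a'

/-- Meaning of `imF`. -/
def ImV (μ a a' : HF A) : Prop :=
  Im1V R μ a a' ∨ (¬ RelHolds R rEd a a ∧ ¬ RelHolds R rEd a' a' ∧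
    ∃ u ∈ AS A, ∃ v ∈ AS A, ∃ u' ∈ AS A, ∃ v' ∈ AS A,
      RelHolds R rZ0 a u ∧ RelHolds R rZ1 a v ∧ RelHolds R rZ0 a' u' ∧ RelHolds R rZ1 a' v' ∧
      Im1V R μ u u' ∧ Im1V R μ v v')

/-- Meaning of `fT`. -/
def fV (μ a : HF A) : HF A :=
  theOnlyV (ofFinset (((AS A).filter fun a' => ImV R μ a a').image fun u => u))

/-- Meaning of `presF`. -/
def PresV (r : Fin 8) (μ : HF A) : Prop :=
  ∀ a ∈ AS A, ∀ a' ∈ AS A, (RelHolds R r (fV R μ a) (fV R μ a') ↔ RelHolds R r a a')

/-- Meaning of `validF`. -/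
def ValidV (μ b : HF A) : Prop :=
  (∀ a ∈ AS A, ∃ c ∈ AS A, c = fV R μ a) ∧
  (∀ a ∈ AS A, ∀ a' ∈ AS A, (fV R μ a = fV R μ a' → a = a')) ∧
  PresV R 0 μ ∧ PresV R 1 μ ∧ PresV R 2 μ ∧ PresV R 3 μ ∧ PresV R 4 μ ∧ PresV R 5 μ ∧ PresV R 6 μ ∧ PresV R 7 μ ∧
  ∀ w ∈ members b, fV R μ w = w

/-- Meaning of the Kuratowski term. -/
def kpV (x y : HF A) : HF A := ofFinset {ofFinset {x, x}, ofFinset {x, y}}

theorem kpV_eq (x y : HF A) : kpV x y = kpair x y := by
  unfold kpV kpair
  rw [Finset.pair_eq_singleton]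

/-- Meaning of `grT`. -/
def grV (μ : HF A) : HF A :=
  ofFinset (((AS A).filter fun _ => (empty : HF A) = empty).image fun a => kpV a (fV R μ a))

/-- Meaning of `idT`. -/
def idV (A : Type) [Fintype A] : HF A :=
  ofFinset (((AS A).filter fun _ => (empty : HF A) = empty).image fun a => kpV a a)

/-- Meaning of `mT`. -/
def mV (b : HF A) : HF A :=
  ofFinset ((members (ofFinset {ofFinset {idV A, idV A},
    ofFinset (((AS A).filter fun μ => ValidV R μ b).image fun μ => grV R μ)})).biUnion members)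

/-- Meaning of `stepT`. -/
def stepV (x y : HF A) : HF A :=
  ofFinset ((members (ofFinset {x, ofFinset (((AS A).filter fun w => w = y).image fun u => u)})).biUnion members)

/-- Meaning of `goodF`. -/
def GoodV (b : HF A) : Prop :=
  ∀ a0 ∈ AS A, RelHolds R rCf a0 a0 → ∃ a ∈ AS A, RelHolds R rVB a a0 ∧
    ∀ w ∈ members b, ∀ y ∈ AS A, RelHolds R rI a y ∧ RelHolds R rEB y w → y = w

/-- Meaning of `nextF`. -/
def NextV (b y : HF A) : Prop :=
  RelHolds R rEB y y ∧ ¬ (∃ w ∈ members b, RelHolds R rEB y w) ∧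
    ∀ y' ∈ AS A, RelHolds R rEB y' y' ∧ RelHolds R rCf y' y ∧ ¬ y' = y →
      ∃ w ∈ members b, RelHolds R rEB y' w

/-- Meaning of `dT`. -/
def dV (b : HF A) : HF A :=
  ofFinset (((AS A).filter fun y => NextV R b y ∧
    ∃ b' ∈ members (ofFinset {stepV b y, stepV b y}), GoodV R b').image fun u => u)

/-- Meaning of `condF`. -/
def CondV (b : HF A) : Prop :=
  (∃ u ∈ members (dV R b), (empty : HF A) = empty) ∧
    ∀ u ∈ members (dV R b), ∀ v ∈ members (dV R b), ∃ m ∈ members (mV R b), ∃ z ∈ members m, z = kpV u v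

/-- Meaning of `choiceT`. -/
def chV (b : HF A) : HF A :=
  ofFinset ((members (ofFinset {
    ofFinset (((members (dV R b)).filter fun _ => CondV R b).image fun u => u),
    ofFinset (((members (ofFinset {(empty : HF A), empty})).filter fun _ => ¬ CondV R b).image fun u => u)})).biUnion
      members)

/-- Meaning of `outF`. -/
def OutV (b : HF A) : Prop :=
  (∀ y ∈ AS A, RelHolds R rEB y y → ∃ w ∈ members b, RelHolds R rEB y w) ∧ GoodV R b

variable {R} {p : ℕ} {e : Fin n → HF A}

/-- A tactic running through the structure of a formula. -/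
macro "evt" : tactic => `(tactic| repeat' first
  | intro _ _
  | exact ev_var rfl
  | exact ev_atoms
  | exact ev_empty
  | apply ev_imp
  | apply ev_iff
  | apply ev_and
  | apply ev_or
  | apply ev_not
  | apply ev_eq
  | apply ev_rel
  | apply ev_all
  | apply ev_ex
  | apply ev_pair
  | apply ev_union
  | apply ev_theOnly
  | apply ev_compr)

theorem ttF_ev : (ttF : F8 n).eval R p e = some (dec ((empty : HF A) = empty)) := by
  unfold ttF
  evt

theorem kpT_ev {s t : T8 n} {x y : HF A} (hs : s.eval R p e = some x) (ht : t.eval R p e = some y) :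
    (kpT s t).eval R p e = some (kpV x y) := by
  unfold kpT kpV
  exact ev_pair (ev_pair hs hs) (ev_pair hs ht)

theorem im1F_ev {μ a a' : Fin n} {x y z : HF A} (h1 : e μ = x) (h2 : e a = y) (h3 : e a' = z) :
    (im1F μ a a').eval R p e = some (dec (Im1V R x y z)) := by
  subst h1 h2 h3
  unfold im1F Im1V
  evt

theorem imF_ev {μ a a' : Fin n} {x y z : HF A} (h1 : e μ = x) (h2 : e a = y) (h3 : e a' = z) :
    (imF μ a a').eval R p e = some (dec (ImV R x y z)) := by
  subst h1 h2 h3
  unfold imF ImV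
  apply ev_or (im1F_ev rfl rfl rfl)
  apply ev_and (ev_not (ev_rel (ev_var rfl) (ev_var rfl)))
  apply ev_and (ev_not (ev_rel (ev_var rfl) (ev_var rfl)))
  refine ev_ex ev_atoms fun u _ => ev_ex ev_atoms fun v _ => ev_ex ev_atoms fun u' _ => ev_ex ev_atoms fun v' _ => ?_
  refine ev_and (ev_rel (ev_var rfl) (ev_var rfl)) (ev_and (ev_rel (ev_var rfl) (ev_var rfl))
    (ev_and (ev_rel (ev_var rfl) (ev_var rfl)) (ev_and (ev_rel (ev_var rfl) (ev_var rfl))
      (ev_and (im1F_ev rfl rfl rfl) (im1F_ev rfl rfl rfl)))))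

theorem fT_ev {μ a : Fin n} {x y : HF A} (h1 : e μ = x) (h2 : e a = y) :
    (fT μ a).eval R p e = some (fV R x y) := by
  subst h1 h2
  unfold fT fV
  exact ev_theOnly (ev_compr ev_atoms (fun u _ => imF_ev rfl rfl rfl) (fun u _ => ev_var rfl))

theorem presF_ev {r : Fin 8} {μ : Fin n} {x : HF A} (h1 : e μ = x) :
    (presF r μ).eval R p e = some (dec (PresV R r x)) := by
  subst h1
  unfold presF PresV
  exact ev_all ev_atoms fun a _ => ev_all ev_atoms fun a' _ =>
    ev_iff (ev_rel (fT_ev rfl rfl) (fT_ev rfl rfl)) (ev_rel (ev_var rfl) (ev_var rfl))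

theorem validF_ev {μ b : Fin n} {x y : HF A} (h1 : e μ = x) (h2 : e b = y) :
    (validF μ b).eval R p e = some (dec (ValidV R x y)) := by
  subst h1 h2
  unfold validF ValidV
  refine ev_and (ev_all ev_atoms fun a _ => ev_ex ev_atoms fun c _ => ev_eq (ev_var rfl) (fT_ev rfl rfl)) ?_
  refine ev_and (ev_all ev_atoms fun a _ => ev_all ev_atoms fun a' _ =>
    ev_imp (ev_eq (fT_ev rfl rfl) (fT_ev rfl rfl)) (ev_eq (ev_var rfl) (ev_var rfl))) ?_
  refine ev_and (presF_ev rfl) (ev_and (presF_ev rfl) (ev_and (presF_ev rfl) (ev_and (presF_ev rfl)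
    (ev_and (presF_ev rfl) (ev_and (presF_ev rfl) (ev_and (presF_ev rfl) (ev_and (presF_ev rfl) ?_)))))))
  exact ev_all (ev_var rfl) fun w _ => ev_eq (fT_ev rfl rfl) (ev_var rfl)

theorem grT_ev {μ : Fin n} {x : HF A} (h1 : e μ = x) : (grT μ).eval R p e = some (grV R x) := by
  subst h1
  unfold grT grV
  exact ev_compr ev_atoms (fun u _ => ttF_ev) (fun u _ => kpT_ev (ev_var rfl) (fT_ev rfl rfl))

theorem idT_ev : (idT : T8 n).eval R p e = some (idV A) := by
  unfold idT idV
  exact ev_compr ev_atoms (fun u _ => ttF_ev) (fun u _ => kpT_ev (ev_var rfl) (ev_var rfl))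

theorem mT_ev {b : Fin n} {x : HF A} (h1 : e b = x) : (mT b).eval R p e = some (mV R x) := by
  subst h1
  unfold mT mV
  exact ev_union (ev_pair (ev_pair idT_ev idT_ev)
    (ev_compr ev_atoms (fun u _ => validF_ev rfl rfl) (fun u _ => grT_ev rfl)))

theorem stepT_ev {b y : Fin n} {u v : HF A} (h1 : e b = u) (h2 : e y = v) :
    (stepT b y).eval R p e = some (stepV u v) := by
  subst h1 h2
  unfold stepT stepV
  exact ev_union (ev_pair (ev_var rfl) (ev_compr ev_atoms
    (fun u _ => ev_eq (ev_var rfl) (ev_var rfl)) (fun u _ => ev_var rfl)))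

theorem goodF_ev {b : Fin n} {x : HF A} (h1 : e b = x) : (goodF b).eval R p e = some (dec (GoodV R x)) := by
  subst h1
  unfold goodF GoodV
  evt

theorem nextF_ev {b y : Fin n} {u v : HF A} (h1 : e b = u) (h2 : e y = v) :
    (nextF b y).eval R p e = some (dec (NextV R u v)) := by
  subst h1 h2
  unfold nextF NextV
  evt

theorem dT_ev {b : Fin n} {x : HF A} (h1 : e b = x) : (dT b).eval R p e = some (dV R x) := by
  subst h1
  unfold dT dV
  exact ev_compr ev_atoms (fun u _ => ev_and (nextF_ev rfl rfl)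
    (ev_ex (ev_pair (stepT_ev rfl rfl) (stepT_ev rfl rfl)) fun b' _ => goodF_ev rfl)) (fun u _ => ev_var rfl)

theorem condF_ev {b : Fin n} {x : HF A} (h1 : e b = x) : (condF b).eval R p e = some (dec (CondV R x)) := by
  subst h1
  unfold condF CondV
  exact ev_and (ev_ex (dT_ev rfl) fun u _ => ttF_ev)
    (ev_all (dT_ev rfl) fun u _ => ev_all (dT_ev rfl) fun v _ => ev_ex (mT_ev rfl) fun m _ =>
      ev_ex (ev_var rfl) fun z _ => ev_eq (ev_var rfl) (kpT_ev (ev_var rfl) (ev_var rfl)))

theorem choiceT_ev {b : Fin n} {x : HF A} (h1 : e b = x) : (choiceT b).eval R p e = some (chV R x) := by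
  subst h1
  unfold choiceT chV
  exact ev_union (ev_pair
    (ev_compr (dT_ev rfl) (fun u _ => condF_ev rfl) (fun u _ => ev_var rfl))
    (ev_compr (ev_pair ev_empty ev_empty) (fun u _ => ev_not (condF_ev rfl)) (fun u _ => ev_var rfl)))

theorem outF_ev {b : Fin n} {x : HF A} (h1 : e b = x) : (outF b).eval R p e = some (dec (OutV R x)) := by
  subst h1
  unfold outF OutV
  exact ev_and (ev_all ev_atoms fun y _ => ev_imp (ev_rel (ev_var rfl) (ev_var rfl))
    (ev_ex (ev_var rfl) fun w _ => ev_rel (ev_var rfl) (ev_var rfl))) (goodF_ev rfl)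

/-- The value of the formula. -/
theorem theF_eval (R : Fin 8 → A → A → Bool) (p : ℕ) :
    theF.eval R p Fin.elim0 = wscValue R p ∅ (fun x y => some (stepV x y)) (fun x => some (chV R x))
      (fun _ x => some (mV R x)) (fun x => some (dec (OutV R x))) := by
  unfold theF
  rw [Formula.eval]
  have h1 : (fun x y => (stepT vi1 vi0 : T8 2).eval R p (Fin.cons y (Fin.cons x Fin.elim0))) =
      fun x y => some (stepV x y) := by
    funext x y
    exact stepT_ev rfl rfl
  have h2 : (fun x => (choiceT vi0 : T8 1).eval R p (Fin.cons x Fin.elim0)) = fun x => some (chV R x) := by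
    funext x
    exact choiceT_ev rfl
  have h3 : (fun z x => (mT vi0 : T8 2).eval R p (Fin.cons x (Fin.cons z Fin.elim0))) =
      fun _ x => some (mV R x) := by
    funext z x
    exact mT_ev rfl
  have h4 : (fun x => (outF vi0 : F8 1).eval R p (Fin.cons x Fin.elim0)) =
      fun x => some (dec (OutV R x)) := by
    funext x
    exact outF_ev rfl
  rw [h1, h2, h3, h4]
  congr 1

theorem theF_wsc : theF.wscCount = 1 := by
  rfl

end Crest.Agent.CPTL
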