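/-
  The witnessed choice of the sentence is defined on every input.
-/
import Crest.Agent.Lib.CPTL.SynB

set_option autoImplicit false
set_option linter.unusedSectionVars false

noncomputable section
open Classical

namespace Crest.Agent.CPTL

open Crest.LogicCS.HFSet Crest.LogicCS.CPT

variable {A : Type} [Fintype A] {R : Fin 8 → A → A → Bool}

theorem mem_AS {u : HF A} : u ∈ AS A ↔ ∃ a, u = atom a := mem_allAtoms

theorem atom_mem_AS (a : A) : (atom a : HF A) ∈ AS A := mem_AS.2 ⟨a, rfl⟩

theorem card_AS : (AS A).card = Fintype.card A := by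
  unfold AS allAtoms
  rw [members_ofFinset, Finset.card_image_of_injective _ atom_injective, Finset.card_univ]

theorem relHolds_atom {r : Fin 8} {a b : A} : RelHolds R r (atom a) (atom b) ↔ R r a b = true := by
  constructor
  · rintro ⟨a', b', h1, h2, h3⟩
    rw [atom_injective h1, atom_injective h2]
    exact h3
  · intro h
    exact ⟨a, b, rfl, rfl, h⟩

theorem mem_stepV {x y w : HF A} : w ∈ members (stepV x y) ↔ w ∈ members x ∨ (w ∈ AS A ∧ w = y) := by
  unfold stepV
  simp only [members_ofFinset, Finset.mem_biUnion, Finset.mem_insert, Finset.mem_singleton]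
  constructor
  · rintro ⟨z, rfl | rfl, hz⟩
    · exact Or.inl hz
    · right
      rw [members_ofFinset] at hz
      obtain ⟨u, hu, rfl⟩ := Finset.mem_image.1 hz
      exact Finset.mem_filter.1 hu
  · rintro (h | ⟨h1, h2⟩)
    · exact ⟨x, Or.inl rfl, h⟩
    · refine ⟨_, Or.inr rfl, ?_⟩
      rw [members_ofFinset]
      exact Finset.mem_image.2 ⟨w, Finset.mem_filter.2 ⟨h1, h2⟩, rfl⟩

/-- Sets of atoms. -/
def SubA (b : HF A) : Prop := ¬ IsAtom b ∧ members b ⊆ AS A

theorem subA_empty : SubA (empty : HF A) := by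
  refine ⟨not_isAtom_empty, ?_⟩
  rw [members_empty]
  exact Finset.empty_subset _

theorem stepV_not_atom (x y : HF A) : ¬ IsAtom (stepV x y) := not_isAtom_ofFinset _

theorem subA_step {b : HF A} (h : SubA b) (y : HF A) : SubA (stepV b y) := by
  refine ⟨stepV_not_atom _ _, fun w hw => ?_⟩
  rcases mem_stepV.1 hw with h1 | ⟨h1, _⟩
  · exact h.2 h1
  · exact h1

theorem subA_card {b : HF A} (h : SubA b) : (members b).card ≤ Fintype.card A := by
  rw [← card_AS]
  exact Finset.card_le_card h.2

theorem tcF_subA {b : HF A} (h : SubA b) : tcF b = members b := by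
  rw [tcF_eq]
  have : (members b).biUnion tcF = ∅ := by
    refine Finset.eq_empty_of_forall_notMem fun x hx => ?_
    obtain ⟨u, hu, hx⟩ := Finset.mem_biUnion.1 hx
    obtain ⟨a, rfl⟩ := mem_AS.1 (h.2 hu)
    have h0 : (tcF (atom a : HF A)).card = 0 := by
      rw [← tcSize_eq, tcSize_atom]
    rw [Finset.card_eq_zero] at h0
    rw [h0] at hx
    simp at hx
  rw [this, Finset.union_empty]

theorem subA_tc {b : HF A} (h : SubA b) : tcSize b ≤ Fintype.card A := by
  rw [tcSize_eq, tcF_subA h]
  exact subA_card h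

/-- Members of the choice set. -/
theorem mem_chV {b u : HF A} :
    u ∈ members (chV R b) ↔ (CondV R b ∧ u ∈ members (dV R b)) ∨ (¬ CondV R b ∧ u = empty) := by
  unfold chV
  simp only [members_ofFinset, Finset.mem_biUnion, Finset.mem_insert, Finset.mem_singleton]
  constructor
  · rintro ⟨z, rfl | rfl, hz⟩
    · left
      rw [members_ofFinset] at hz
      obtain ⟨w, hw, rfl⟩ := Finset.mem_image.1 hz
      have := Finset.mem_filter.1 hw
      exact ⟨this.2, this.1⟩
    · right
      rw [members_ofFinset] at hz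
      obtain ⟨w, hw, rfl⟩ := Finset.mem_image.1 hz
      have := Finset.mem_filter.1 hw
      refine ⟨this.2, ?_⟩
      simpa using this.1
  · rintro (⟨h1, h2⟩ | ⟨h1, rfl⟩)
    · refine ⟨_, Or.inl rfl, ?_⟩
      rw [members_ofFinset]
      exact Finset.mem_image.2 ⟨u, Finset.mem_filter.2 ⟨h2, h1⟩, rfl⟩
    · refine ⟨_, Or.inr rfl, ?_⟩
      rw [members_ofFinset]
      refine Finset.mem_image.2 ⟨empty, Finset.mem_filter.2 ⟨?_, h1⟩, rfl⟩
      simp

theorem chV_not_atom (b : HF A) : ¬ IsAtom (chV R b) := not_isAtom_ofFinset _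

theorem chV_nonempty (b : HF A) : (members (chV R b)).Nonempty := by
  by_cases h : CondV R b
  · obtain ⟨u, hu, _⟩ := h.1
    exact ⟨u, mem_chV.2 (Or.inl ⟨h, hu⟩)⟩
  · exact ⟨empty, mem_chV.2 (Or.inr ⟨h, rfl⟩)⟩

/-- Members of the witnessing set. -/
theorem mem_mV {b m : HF A} :
    m ∈ members (mV R b) ↔ m = idV A ∨ ∃ μ ∈ AS A, ValidV R μ b ∧ m = grV R μ := by
  unfold mV
  simp only [members_ofFinset, Finset.mem_biUnion, Finset.mem_insert, Finset.mem_singleton]
  constructor
  · rintro ⟨z, rfl | rfl, hz⟩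
    · left
      simpa using hz
    · right
      rw [members_ofFinset] at hz
      obtain ⟨μ, hμ, rfl⟩ := Finset.mem_image.1 hz
      have := Finset.mem_filter.1 hμ
      exact ⟨μ, this.1, this.2, rfl⟩
  · rintro (rfl | ⟨μ, h1, h2, rfl⟩)
    · exact ⟨_, Or.inl rfl, by simp⟩
    · refine ⟨_, Or.inr rfl, ?_⟩
      rw [members_ofFinset]
      exact Finset.mem_image.2 ⟨μ, Finset.mem_filter.2 ⟨h1, h2⟩, rfl⟩

theorem idV_eq (A : Type) [Fintype A] : idV A = permGraph (1 : Equiv.Perm A) := by
  unfold idV permGraph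
  congr 1
  ext w
  simp only [Finset.mem_image, Finset.mem_filter, Finset.mem_univ, true_and, and_true, kpV_eq,
    Equiv.Perm.coe_one, id]
  constructor
  · rintro ⟨u, hu, rfl⟩
    obtain ⟨a, rfl⟩ := mem_AS.1 hu
    exact ⟨a, rfl⟩
  · rintro ⟨a, rfl⟩
    exact ⟨atom a, atom_mem_AS a, rfl⟩

theorem grV_eq {μ : HF A} {g : Equiv.Perm A} (h : ∀ a, fV R μ (atom a) = atom (g a)) :
    grV R μ = permGraph g := by
  unfold grV permGraph
  congr 1
  ext w
  simp only [Finset.mem_image, Finset.mem_filter, Finset.mem_univ, true_and, and_true, kpV_eq]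
  constructor
  · rintro ⟨u, hu, rfl⟩
    obtain ⟨a, rfl⟩ := mem_AS.1 hu
    exact ⟨a, by rw [h]⟩
  · rintro ⟨a, rfl⟩
    exact ⟨atom a, atom_mem_AS a, by rw [h]⟩

theorem pres_all {μ : HF A} {b : HF A} (h : ValidV R μ b) : ∀ r : Fin 8, PresV R r μ := by
  obtain ⟨_, _, h0, h1, h2, h3, h4, h5, h6, h7, _⟩ := h
  intro r
  fin_cases r
  · exact h0
  · exact h1
  · exact h2
  · exact h3
  · exact h4
  · exact h5
  · exact h6
  · exact h7

/-- A valid table entry gives an automorphism. -/
theorem valid_perm {μ b : HF A} (h : ValidV R μ b) : ∃ g : Equiv.Perm A,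
    (∀ a, fV R μ (atom a) = atom (g a)) ∧ IsAut R g ∧ ∀ w ∈ members b, fV R μ w = w := by
  have h1 : ∀ a : A, ∃ a' : A, fV R μ (atom a) = atom a' := by
    intro a
    obtain ⟨c, hc, e⟩ := h.1 (atom a) (atom_mem_AS a)
    obtain ⟨a', rfl⟩ := mem_AS.1 hc
    exact ⟨a', e.symm⟩
  choose gf hgf using h1
  have hinj : Function.Injective gf := by
    intro a a' e
    have := h.2.1 (atom a) (atom_mem_AS a) (atom a') (atom_mem_AS a') (by rw [hgf, hgf, e])
    exact atom_injective this
  let g : Equiv.Perm A := Equiv.ofBijective gf (Finite.injective_iff_bijective.1 hinj)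
  have hg : ∀ a, g a = gf a := fun _ => rfl
  refine ⟨g, fun a => by rw [hg, hgf], ?_, h.2.2.2.2.2.2.2.2.2.2⟩
  intro r a a'
  have hp := pres_all h r (atom a) (atom_mem_AS a) (atom a') (atom_mem_AS a')
  rw [hgf, hgf, relHolds_atom, relHolds_atom] at hp
  rw [hg, hg, Bool.eq_iff_iff]
  exact hp

/-- The members of the witnessing set are graphs of automorphisms fixing `b` pointwise. -/
theorem mem_mV_perm {b m : HF A} (hm : m ∈ members (mV R b)) : ∃ g : Equiv.Perm A, m = permGraph g ∧
    IsAut R g ∧ ∀ w ∈ members b, IsAtom w → rename ⇑g w = w := by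
  rcases mem_mV.1 hm with rfl | ⟨μ, _, hv, rfl⟩
  · refine ⟨1, idV_eq A, isAut_one R, fun w _ _ => rename_one w⟩
  · obtain ⟨g, h1, h2, h3⟩ := valid_perm hv
    refine ⟨g, grV_eq h1, h2, ?_⟩
    rintro w hw ⟨a, rfl⟩
    rw [rename_atom, ← h1, h3 _ hw]

theorem idV_mem_mV (b : HF A) : idV A ∈ members (mV R b) := mem_mV.2 (Or.inl rfl)

theorem rename_fix_sub {b : HF A} (h : SubA b) {g : Equiv.Perm A}
    (hg : ∀ w ∈ members b, rename ⇑g w = w) : rename ⇑g b = b := by
  refine hf_ext (rename_not_isAtom _ h.1) h.1 ?_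
  rw [members_rename]
  ext w
  simp only [Finset.mem_image]
  constructor
  · rintro ⟨u, hu, rfl⟩
    rw [hg u hu]
    exact hu
  · intro hw
    exact ⟨w, hw, hg w hw⟩

/-! ### The runs -/

/-- The step function. -/
abbrev stS (A : Type) [Fintype A] : HF A → HF A → Option (HF A) := fun x y => some (stepV x y)

/-- The choice function. -/
abbrev chS (R : Fin 8 → A → A → Bool) : HF A → Option (HF A) := fun x => some (chV R x)

theorem run_facts {b c : ℕ → HF A} {k : ℕ} (h : IsRun (stS A) (chS R) b c k) {i : ℕ} (hi : i < k) :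
    c i ∈ members (chV R (b i)) ∧ b (i + 1) = stepV (b i) (c i) := by
  obtain ⟨⟨D, hD, hc⟩, h2⟩ := h.2 i hi
  have h3 : chV R (b i) = D := Option.some.inj hD
  exact ⟨h3 ▸ hc, (Option.some.inj h2).symm⟩

theorem run_sub {b c : ℕ → HF A} {k : ℕ} (h : IsRun (stS A) (chS R) b c k) : ∀ i, i ≤ k → SubA (b i) := by
  intro i
  induction i with
  | zero =>
    intro _
    rw [h.1]
    exact subA_empty
  | succ i ih =>
    intro hi
    rw [(run_facts h (by omega)).2]
    exact subA_step (ih (by omega)) _

theorem run_mono {b c : ℕ → HF A} {k : ℕ} (h : IsRun (stS A) (chS R) b c k) {i j : ℕ} (hij : i ≤ j)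
    (hj : j ≤ k) : members (b i) ⊆ members (b j) := by
  induction j, hij using Nat.le_induction with
  | base => exact Finset.Subset.refl _
  | succ j hj' ih =>
    refine (ih (by omega)).trans ?_
    rw [(run_facts h (by omega)).2]
    exact fun w hw => mem_stepV.2 (Or.inl hw)

/-- Fresh runs have at least as many members as steps. -/
theorem run_card {b c : ℕ → HF A} {k : ℕ} (h : IsRun (stS A) (chS R) b c k) (hf : Fresh b k) :
    ∀ i, i ≤ k → i ≤ (members (b i)).card := by
  intro i
  induction i with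
  | zero => intro _; omega
  | succ i ih =>
    intro hi
    have hih := ih (by omega)
    have hne := hf i (by omega)
    have hs := (run_facts (i := i) h (by omega)).2
    have hsub := run_sub h i (by omega)
    by_cases hy : c i ∈ AS A ∧ c i ∉ members (b i)
    · have : members (b (i + 1)) = insert (c i) (members (b i)) := by
        ext w
        rw [hs, mem_stepV, Finset.mem_insert]
        constructor
        · rintro (h1 | ⟨_, h1⟩)
          · exact Or.inr h1
          · exact Or.inl h1
        · rintro (rfl | h1)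
          · exact Or.inr ⟨hy.1, rfl⟩
          · exact Or.inl h1
      rw [this, Finset.card_insert_of_notMem hy.2]
      omega
    · exfalso
      apply hne
      rw [hs]
      refine hf_ext (stepV_not_atom _ _) hsub.1 ?_
      ext w
      rw [mem_stepV]
      constructor
      · rintro (h1 | ⟨h1, rfl⟩)
        · exact h1
        · by_contra h2
          exact hy ⟨h1, h2⟩
      · exact Or.inl

/-- The witnessing conditions at a stage of a run. -/
theorem witnesses_all {b c : ℕ → HF A} {t i : ℕ} (h : IsRun (stS A) (chS R) b c (t + 1)) (hi : i ≤ t) :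
    Witnesses R ∅ b i (chV R (b i)) (mV R (b i)) := by
  refine ⟨not_isAtom_ofFinset _, ?_, ?_⟩
  · intro m hm
    obtain ⟨g, h1, h2, h3⟩ := mem_mV_perm hm
    refine ⟨g, h1, h2, by simp, ?_⟩
    intro j hj
    have hsub := run_sub h j (by omega)
    refine rename_fix_sub hsub fun w hw => ?_
    exact h3 w (run_mono h hj (by omega) hw) (mem_AS.1 (hsub.2 hw))
  · intro u hu v hv
    rcases mem_chV.1 hu with ⟨hc, hu'⟩ | ⟨hc, rfl⟩
    · rcases mem_chV.1 hv with ⟨_, hv'⟩ | ⟨hc', _⟩
      · obtain ⟨m, hm, z, hz, e⟩ := hc.2 u hu' v hv'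
        obtain ⟨g, rfl, _, _⟩ := mem_mV_perm hm
        refine ⟨g, hm, ?_⟩
        rw [e, kpV_eq, mem_permGraph] at hz
        obtain ⟨a, ha⟩ := hz
        obtain ⟨e1, e2⟩ := kpair_injective ha
        rw [e1, e2, rename_atom]
      · exact absurd hc hc'
    · rcases mem_chV.1 hv with ⟨hc', _⟩ | ⟨_, rfl⟩
      · exact absurd hc' hc
      · refine ⟨1, ?_, rename_one _⟩
        rw [← idV_eq]
        exact idV_mem_mV _

/-- The choice operator is defined on every input. -/
theorem wsc_defined (R : Fin 8 → A → A → Bool) :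
    WscDefined R (Fintype.card A) ∅ (fun x y => some (stepV x y)) (fun x => some (chV R x))
      (fun _ x => some (mV R x)) (fun x => some (dec (OutV R x))) := by
  constructor
  · intro b c k hrun hf
    have hsub := run_sub hrun k le_rfl
    refine ⟨?_, subA_tc hsub, chV R (b k), rfl, chV_not_atom _, chV_nonempty _, fun u _ => by simp⟩
    exact (run_card hrun hf k le_rfl).trans (subA_card hsub)
  · intro b c t hpath
    refine ⟨fun i hi => ⟨_, _, rfl, rfl, witnesses_all hpath.1 hi⟩, by simp⟩

/-- The value of the sentence. -/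
theorem theS_value (A : Type) [Fintype A] (R : Fin 8 → A → A → Bool) :
    theS.value A R = some (decide (∀ b c t, IsTerminalPath (stS A) (chS R) b c t →
      some (dec (OutV R (b t))) = some true)) := by
  unfold Sentence.value theS
  simp only [Polynomial.eval_X]
  rw [theF_eval]
  unfold wscValue
  rw [if_pos (wsc_defined R)]

theorem theS_ne_none (A : Type) [Fintype A] (R : Fin 8 → A → A → Bool) : theS.value A R ≠ none := by
  rw [theS_value]
  simp

theorem theS_holds_iff {A : Type} [Fintype A] {R : Fin 8 → A → A → Bool} :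
    theS.Holds A R ↔ ∀ b c t, IsTerminalPath (stS A) (chS R) b c t → OutV R (b t) := by
  unfold Sentence.Holds
  rw [theS_value]
  simp

/-- There is a terminal path on every input. -/
theorem exists_terminal (R : Fin 8 → A → A → Bool) :
    ∃ b c t, IsTerminalPath (stS A) (chS R) b c t := by
  have hpick : ∀ x : HF A, ∃ u, u ∈ members (chV R x) := fun x => chV_nonempty x
  choose pick hpick using hpick
  let b : ℕ → HF A := fun i => Nat.rec empty (fun _ x => stepV x (pick x)) i
  let c : ℕ → HF A := fun i => pick (b i)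
  have hb : ∀ i, b (i + 1) = stepV (b i) (c i) := fun i => rfl
  have hrun : ∀ k, IsRun (stS A) (chS R) b c k := fun k =>
    ⟨rfl, fun i _ => ⟨⟨_, rfl, hpick _⟩, by rw [hb]⟩⟩
  have hex : ∃ t, b (t + 1) = b t := by
    by_contra hn
    push Not at hn
    have hf : Fresh b (Fintype.card A + 1) := fun i _ => hn i
    have h1 := run_card (hrun _) hf _ le_rfl
    have h2 := subA_card (run_sub (hrun _) (Fintype.card A + 1) le_rfl)
    omega
  obtain ⟨t, ht, hmin⟩ : ∃ t, b (t + 1) = b t ∧ ∀ i < t, ¬ b (i + 1) = b i :=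
    ⟨@Nat.find (fun t => b (t + 1) = b t) (fun _ => Classical.propDecidable _) hex,
      @Nat.find_spec (fun t => b (t + 1) = b t) (fun _ => Classical.propDecidable _) hex,
      fun i hi => @Nat.find_min (fun t => b (t + 1) = b t) (fun _ => Classical.propDecidable _) hex i hi⟩
  exact ⟨b, c, t, hrun _, hmin, ht⟩

end Crest.Agent.CPTL
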