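/-
  The sentence on the structures of a Heisenberg system: relations, and falsity for nonzero defect.
-/
import Crest.Agent.Lib.CPTL.SemC
import Crest.Agent.Lib.CPTL.Cons

set_option autoImplicit false
set_option linter.unusedSectionVars false

noncomputable section
open Classical

namespace Crest.Agent.CPTL

open Crest.LogicCS.HFSet Crest.LogicCS.CPT Crest.LogicCS.LinF3 Base

/-- The symbols of the vocabulary. -/
def symF : Fin 8 → Sym := ![Sym.Ed, Sym.Cf, Sym.EB, Sym.VB, Sym.I, Sym.Z 0, Sym.Z 1, Sym.Z 2]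

variable {H : HSys} {κ : H.Pt → H.Inc → F3}

/-- The structure with the numbered vocabulary. -/
abbrev RH (κ : H.Pt → H.Inc → F3) : Fin 8 → AtomT H → AtomT H → Bool := fun s => RS κ (symF s)

theorem rel_iff {r : Fin 8} {a b : AtomT H} :
    RelHolds (RH κ) r (atom a) (atom b) ↔ extRel (BRel κ) (symF r) a b := by
  rw [relHolds_atom]
  exact RS_true

theorem rel_iota {r : Fin 8} {u v : Base H} :
    RelHolds (RH κ) r (atom (iota u)) (atom (iota v)) ↔ BRel κ (symF r) u v := by
  rw [rel_iff]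
  rfl

/-- Members of the atoms. -/
theorem iota_mem (u : Base H) : (atom (iota u) : HF (AtomT H)) ∈ AS (AtomT H) := atom_mem_AS _

theorem slot_bag {u : Base H} {e : H.Lk} (h : slotOf u = some (Sum.inr e)) : ∃ x y z, u = bag e x y z := by
  cases u with
  | tau _ _ => cases h
  | cfg _ _ _ => cases h
  | bag e' x y z =>
    simp only [slotOf, Option.some.injEq, Sum.inr.injEq] at h
    subst h
    exact ⟨x, y, z, rfl⟩

theorem slot_tau {u : Base H} {r : H.Rm} (h : slotOf u = some (Sum.inl r)) : ∃ v, u = tau r v := by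
  cases u with
  | bag _ _ _ _ => cases h
  | cfg _ _ _ => cases h
  | tau r' v =>
    simp only [slotOf, Option.some.injEq, Sum.inl.injEq] at h
    subst h
    exact ⟨v, rfl⟩

/-- The relation `EB` between atoms. -/
theorem rel_EB {a b : AtomT H} : RelHolds (RH κ) rEB (atom a) (atom b) ↔
    ∃ u v s, a = iota u ∧ b = iota v ∧ slotOf u = some s ∧ slotOf v = some s := by
  rw [rel_iff]
  constructor
  · intro h
    rcases a with (u | μ) | ⟨x, y⟩
    · rcases b with (v | ν) | ⟨x', y'⟩
      · obtain ⟨s, h1, h2⟩ := (h : BRel κ .EB u v)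
        exact ⟨u, v, s, rfl, rfl, h1, h2⟩
      · exact h.elim
      · exact h.elim
    · rcases b with (v | ν) | ⟨x', y'⟩
      · exact h.elim
      · exact h.elim
      · have : Sym.EB = Sym.Z 2 ∧ _ := h
        cases this.1
    · rcases b with x0 | ⟨x', y'⟩
      · rcases (h : _ ∨ _) with h1 | h1 <;> cases h1.1
      · exact h.elim
  · rintro ⟨u, v, s, rfl, rfl, h1, h2⟩
    exact ⟨s, h1, h2⟩

theorem rel_Cf_self {a : AtomT H} : RelHolds (RH κ) rCf (atom a) (atom a) ↔ ∃ p τ z, a = iota (cfg p τ z) ∧ ∑ i, z i = 0 := by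
  rw [relHolds_atom]
  exact Cf_diag

/-- The relation `VB` between atoms. -/
theorem rel_VB {a b : AtomT H} : RelHolds (RH κ) rVB (atom a) (atom b) ↔
    ∃ p τ z τ' z', a = iota (cfg p τ z) ∧ b = iota (cfg p τ' z') ∧ ∑ i, z i = 0 ∧ ∑ i, z' i = 0 := by
  rw [rel_iff]
  constructor
  · intro h
    rcases a with (u | μ) | ⟨x, y⟩
    · rcases b with (v | ν) | ⟨x', y'⟩
      · have h' : BRel κ .VB u v := h
        cases u with
        | tau _ _ => cases v <;> exact h'.elim
        | bag _ _ _ _ => cases v <;> exact h'.elim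
        | cfg p τ z =>
          cases v with
          | tau _ _ => exact h'.elim
          | bag _ _ _ _ => exact h'.elim
          | cfg p' τ' z' =>
            obtain ⟨rfl, h1, h2⟩ := h'
            exact ⟨p, τ, z, τ', z', rfl, rfl, h1, h2⟩
      · exact h.elim
      · exact h.elim
    · rcases b with (v | ν) | ⟨x', y'⟩
      · exact h.elim
      · exact h.elim
      · have : Sym.VB = Sym.Z 2 ∧ _ := h
        cases this.1
    · rcases b with x0 | ⟨x', y'⟩
      · rcases (h : _ ∨ _) with h1 | h1 <;> cases h1.1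
      · exact h.elim
  · rintro ⟨p, τ, z, τ', z', rfl, rfl, h1, h2⟩
    exact ⟨rfl, h1, h2⟩

/-- The relation `I` from a configuration to a bag. -/
theorem rel_I_bag {p : H.Pt} {τ : H.Lc → F3} {z : H.Inc → F3} (hz : ∑ i, z i = 0) (i : H.Inc) :
    RelHolds (RH κ) rI (atom (iota (cfg p τ z))) (atom (iota (valB κ p τ z i))) := by
  rw [rel_iota]
  exact ⟨hz, i, rfl, rfl, rfl, rfl⟩

/-- The relation `I` from a configuration to a variable. -/
theorem rel_I_tau {p : H.Pt} {τ : H.Lc → F3} {z : H.Inc → F3} (hz : ∑ i, z i = 0) (j : H.Lc) :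
    RelHolds (RH κ) rI (atom (iota (cfg p τ z))) (atom (iota (tau (H.loc p j) (τ j)))) := by
  rw [rel_iota]
  exact ⟨hz, j, rfl, rfl⟩

/-- Two base atoms of the same slot are `EB` related. -/
theorem rel_EB_slot {u v : Base H} {s : H.Rm ⊕ H.Lk} (h1 : slotOf u = some s) (h2 : slotOf v = some s) :
    RelHolds (RH κ) rEB (atom (iota u)) (atom (iota v)) :=
  rel_iota.2 ⟨s, h1, h2⟩

/-- Two members related by `EB` with a base atom on the left: the right one is a base atom of the slot. -/
theorem EB_slot_right {u : Base H} {s : H.Rm ⊕ H.Lk} (hu : slotOf u = some s) {w : HF (AtomT H)}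
    (h : RelHolds (RH κ) rEB (atom (iota u)) w) : ∃ v, w = atom (iota v) ∧ slotOf v = some s := by
  obtain ⟨a, b, h1, rfl, h3⟩ := h
  have h4 : RelHolds (RH κ) rEB (atom a) (atom b) := ⟨a, b, rfl, rfl, h3⟩
  obtain ⟨u', v, s', h5, rfl, h6, h7⟩ := rel_EB.1 h4
  have : iota u = a := atom_injective h1
  rw [h5] at this
  have h8 := iota_injective this
  subst h8
  rw [hu] at h6
  cases h6
  exact ⟨v, rfl, h7⟩

/-- A nonzero total defect makes the output false. -/
theorem out_false (hκ : ∑ p, H.sg p * ∑ i, κ p i ≠ 0) (b : HF (AtomT H)) : ¬ OutV (RH κ) b := by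
  rintro ⟨h1, h2⟩
  apply hκ
  -- the values on the links
  have hv : ∀ e : H.Lk, ∃ x y w, (atom (iota (bag e x y w)) : HF (AtomT H)) ∈ members b := by
    intro e
    have hy : RelHolds (RH κ) rEB (atom (iota (bag e 0 0 0))) (atom (iota (bag e 0 0 0))) :=
      rel_EB_slot rfl rfl
    obtain ⟨w, hw, hEB⟩ := h1 _ (iota_mem _) hy
    obtain ⟨v, rfl, hv⟩ := EB_slot_right (rfl : slotOf (bag e 0 0 0) = some (Sum.inr e)) hEB
    obtain ⟨x, y, z, rfl⟩ := slot_bag hv
    exact ⟨x, y, z, hw⟩
  choose X Y Zv hZ using hv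
  have key : ∀ p, ∑ i, Zv (H.lkAt p i) = ∑ i, κ p i := by
    intro p
    have h0 : ∑ i, (0 : H.Inc → F3) i = 0 := by simp
    have hc : RelHolds (RH κ) rCf (atom (iota (cfg p 0 0))) (atom (iota (cfg p 0 0))) :=
      rel_Cf_self.2 ⟨p, 0, 0, rfl, h0⟩
    obtain ⟨a, ha, hVB, hall⟩ := h2 _ (iota_mem _) hc
    obtain ⟨a', rfl⟩ := mem_AS.1 ha
    obtain ⟨p', τ, z, τ', z', rfl, h3, hz, _⟩ := rel_VB.1 hVB
    have hp : p' = p := by
      have := iota_injective h3
      cases this
      rfl
    subst hp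
    have hi : ∀ i, z i + κ p' i = Zv (H.lkAt p' i) := by
      intro i
      have hy := hall _ (hZ (H.lkAt p' i)) (atom (iota (valB κ p' τ z i))) (iota_mem _)
        ⟨rel_I_bag hz i, rel_EB_slot rfl rfl⟩
      have := iota_injective (atom_injective hy)
      simp only [valB, bag.injEq] at this
      exact this.2.2.2
    simp only [← hi]
    rw [Finset.sum_add_distrib, hz, zero_add]
  have := H.bip Zv
  simp only [key] at this
  exact this

end Crest.Agent.CPTL
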