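/-
  The table entries of the moves, on the structure without defect.
-/
import Crest.Agent.Lib.CPTL.SemD

set_option autoImplicit false
set_option linter.unusedSectionVars false

noncomputable section
open Classical

namespace Crest.Agent.CPTL

open Crest.LogicCS.HFSet Crest.LogicCS.CPT Crest.LogicCS.LinF3 Base

variable {H : HSys} {κ : H.Pt → H.Inc → F3}

theorem Z01_ne : Sym.Z 0 ≠ Sym.Z 1 := by
  intro h
  have : (0 : F3) = 1 := Sym.Z.inj h
  exact absurd this (by decide)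

theorem Z02_ne : Sym.Z 0 ≠ Sym.Z 2 := by
  intro h
  have : (0 : F3) = 2 := Sym.Z.inj h
  exact absurd this (by decide)

theorem Z12_ne : Sym.Z 1 ≠ Sym.Z 2 := by
  intro h
  have : (1 : F3) = 2 := Sym.Z.inj h
  exact absurd this (by decide)

/-- The relation `Ed` at a bag. -/
theorem Ed_bag (e : H.Lk) (x y z : F3) : extRel (BRel κ) Sym.Ed (iota (bag e x y z)) (iota (bag e x y z)) :=
  ⟨rfl, rfl, rfl, rfl⟩

/-- A `Z δ` edge, `δ ≠ 2`, from an atom which is not `Ed`. -/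
theorem Z_left_cases {δ : F3} (hδ : Sym.Z δ ≠ Sym.Z 2) {a b : AtomT H}
    (h1 : extRel (BRel κ) (Sym.Z δ) a b) (h2 : ¬ extRel (BRel κ) Sym.Ed a a) :
    ∃ x y, a = Sum.inr (x, y) ∧ ((Sym.Z δ = Sym.Z 0 ∧ b = Sum.inl x) ∨ (Sym.Z δ = Sym.Z 1 ∧ b = Sum.inl y)) := by
  rcases a with (u | μ) | ⟨x, y⟩
  · rcases b with (v | ν) | ⟨x', y'⟩
    · have h' : BRel κ (Sym.Z δ) u v := h1
      cases u with
      | tau _ _ => cases v <;> exact h'.elim
      | cfg _ _ _ => cases v <;> exact h'.elim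
      | bag e x y z => exact (h2 (Ed_bag e x y z)).elim
    · exact h1.elim
    · exact h1.elim
  · rcases b with (v | ν) | ⟨x', y'⟩
    · exact h1.elim
    · exact h1.elim
    · exact (hδ h1.1).elim
  · rcases b with x0 | ⟨x', y'⟩
    · refine ⟨x, y, rfl, ?_⟩
      rcases (h1 : (Sym.Z δ = Sym.Z 0 ∧ x0 = x) ∨ (Sym.Z δ = Sym.Z 1 ∧ x0 = y)) with ⟨h3, rfl⟩ | ⟨h3, rfl⟩
      · exact Or.inl ⟨h3, rfl⟩
      · exact Or.inr ⟨h3, rfl⟩
    · exact h1.elim

theorem Z0_cases {a b : AtomT H} (h1 : extRel (BRel κ) (Sym.Z 0) a b) (h2 : ¬ extRel (BRel κ) Sym.Ed a a) :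
    ∃ x y, a = Sum.inr (x, y) ∧ b = Sum.inl x := by
  obtain ⟨x, y, h3, h4⟩ := Z_left_cases Z02_ne h1 h2
  rcases h4 with ⟨_, h4⟩ | ⟨h4, _⟩
  · exact ⟨x, y, h3, h4⟩
  · exact (Z01_ne h4).elim

theorem Z1_cases {a b : AtomT H} (h1 : extRel (BRel κ) (Sym.Z 1) a b) (h2 : ¬ extRel (BRel κ) Sym.Ed a a) :
    ∃ x y, a = Sum.inr (x, y) ∧ b = Sum.inl y := by
  obtain ⟨x, y, h3, h4⟩ := Z_left_cases Z12_ne h1 h2
  rcases h4 with ⟨h4, _⟩ | ⟨_, h4⟩
  · exact (Z01_ne h4.symm).elim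
  · exact ⟨x, y, h3, h4⟩

/-- The first half of the table, for a move. -/
def tblA {μ0 : Equiv.Perm (Base H)} (hμ : μ0 ∈ moveSet H) : AtomT H := Sum.inl (Sum.inr ⟨μ0, hμ⟩)

/-- The move in the normaliser. -/
def tblG {μ0 : Equiv.Perm (Base H)} (hμ : μ0 ∈ moveSet H) : nGroup (moveSet H) := ⟨μ0, moveSet_le_nGroup hμ⟩

variable {μ0 : Equiv.Perm (Base H)} (hμ : μ0 ∈ moveSet H)

theorem rel_Z0 {a b : AtomT H} : RelHolds (RH κ) rZ0 (atom a) (atom b) ↔ extRel (BRel κ) (Sym.Z 0) a b := rel_iff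
theorem rel_Z1 {a b : AtomT H} : RelHolds (RH κ) rZ1 (atom a) (atom b) ↔ extRel (BRel κ) (Sym.Z 1) a b := rel_iff
theorem rel_Z2 {a b : AtomT H} : RelHolds (RH κ) rZ2 (atom a) (atom b) ↔ extRel (BRel κ) (Sym.Z 2) a b := rel_iff
theorem rel_Ed {a b : AtomT H} : RelHolds (RH κ) rEd (atom a) (atom b) ↔ extRel (BRel κ) Sym.Ed a b := rel_iff

theorem im1_iff (a a' : AtomT H) : Im1V (RH κ) (atom (tblA hμ)) (atom a) (atom a') ↔
    ∃ x, a = Sum.inl x ∧ a' = Sum.inl (actX (tblG hμ) x) := by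
  constructor
  · rintro ⟨q, hq, h1, h2, h3⟩
    obtain ⟨q', rfl⟩ := mem_AS.1 hq
    rw [rel_Z2] at h1
    rw [rel_Z0] at h2
    rw [rel_Z1] at h3
    rcases q' with ((v | ν) | ⟨u, u'⟩)
    · exact h1.elim
    · exact h1.elim
    · obtain ⟨_, h4, h5⟩ := h1
      rcases a with x0 | ⟨x', y'⟩
      · rcases a' with x1 | ⟨x', y'⟩
        · have hx : x0 = u := by
            rcases (h2 : (Sym.Z 0 = Sym.Z 0 ∧ x0 = u) ∨ (Sym.Z 0 = Sym.Z 1 ∧ x0 = u')) with h | h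
            · exact h.2
            · exact (Z01_ne h.1).elim
          have hy : x1 = u' := by
            rcases (h3 : (Sym.Z 1 = Sym.Z 0 ∧ x1 = u) ∨ (Sym.Z 1 = Sym.Z 1 ∧ x1 = u')) with h | h
            · exact (Z01_ne h.1.symm).elim
            · exact h.2
          subst hx hy
          exact ⟨x0, rfl, by rw [← h5]; rfl⟩
        · exact h3.elim
      · exact h2.elim
  · rintro ⟨x, rfl, rfl⟩
    refine ⟨atom (Sum.inr (x, actX (tblG hμ) x)), atom_mem_AS _, ?_, ?_, ?_⟩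
    · rw [rel_Z2]
      exact ⟨rfl, moveSet_le_nGroup hμ, rfl⟩
    · rw [rel_Z0]
      exact Or.inl ⟨rfl, rfl⟩
    · rw [rel_Z1]
      exact Or.inr ⟨rfl, rfl⟩

theorem im_iff (a a' : AtomT H) : ImV (RH κ) (atom (tblA hμ)) (atom a) (atom a') ↔ a' = extP (tblG hμ) a := by
  constructor
  · rintro (h | ⟨h1, h2, u, hu, v, hv, u', hu', v', hv', h3, h4, h5, h6, h7, h8⟩)
    · obtain ⟨x, rfl, rfl⟩ := (im1_iff hμ _ _).1 h
      rfl
    · obtain ⟨u, rfl⟩ := mem_AS.1 hu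
      obtain ⟨v, rfl⟩ := mem_AS.1 hv
      obtain ⟨u', rfl⟩ := mem_AS.1 hu'
      obtain ⟨v', rfl⟩ := mem_AS.1 hv'
      rw [rel_Ed] at h1 h2
      rw [rel_Z0] at h3 h5
      rw [rel_Z1] at h4 h6
      obtain ⟨x, y, rfl, rfl⟩ := Z0_cases h3 h1
      obtain ⟨x', y', h9, rfl⟩ := Z1_cases h4 h1
      obtain ⟨x1, y1, rfl, rfl⟩ := Z0_cases h5 h2
      obtain ⟨x2, y2, h10, rfl⟩ := Z1_cases h6 h2
      have e1 : x' = x ∧ y' = y := by
        have := Sum.inr.inj h9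
        simp only [Prod.mk.injEq] at this
        exact ⟨this.1.symm, this.2.symm⟩
      have e2 : x2 = x1 ∧ y2 = y1 := by
        have := Sum.inr.inj h10
        simp only [Prod.mk.injEq] at this
        exact ⟨this.1.symm, this.2.symm⟩
      obtain ⟨rfl, rfl⟩ := e1
      obtain ⟨rfl, rfl⟩ := e2
      obtain ⟨x3, h11, h12⟩ := (im1_iff hμ _ _).1 h7
      obtain ⟨x4, h13, h14⟩ := (im1_iff hμ _ _).1 h8
      have := Sum.inl.inj h11
      subst this
      have := Sum.inl.inj h13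
      subst this
      have := Sum.inl.inj h12
      subst this
      have := Sum.inl.inj h14
      subst this
      rfl
  · rintro rfl
    rcases a with x | ⟨x, y⟩
    · left
      exact (im1_iff hμ _ _).2 ⟨x, rfl, rfl⟩
    · right
      refine ⟨?_, ?_, atom (Sum.inl x), atom_mem_AS _, atom (Sum.inl y), atom_mem_AS _,
        atom (Sum.inl (actX (tblG hμ) x)), atom_mem_AS _, atom (Sum.inl (actX (tblG hμ) y)), atom_mem_AS _,
        ?_, ?_, ?_, ?_, ?_, ?_⟩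
      · rw [rel_Ed]
        exact fun h => h
      · rw [rel_Ed]
        exact fun h => h
      · rw [rel_Z0]
        exact Or.inl ⟨rfl, rfl⟩
      · rw [rel_Z1]
        exact Or.inr ⟨rfl, rfl⟩
      · rw [rel_Z0]
        exact Or.inl ⟨rfl, rfl⟩
      · rw [rel_Z1]
        exact Or.inr ⟨rfl, rfl⟩
      · exact (im1_iff hμ _ _).2 ⟨x, rfl, rfl⟩
      · exact (im1_iff hμ _ _).2 ⟨y, rfl, rfl⟩

theorem fV_tbl (a : AtomT H) : fV (RH κ) (atom (tblA hμ)) (atom a) = atom (extP (tblG hμ) a) := by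
  unfold fV
  apply theOnlyV_of
  rw [members_ofFinset]
  ext w
  simp only [Finset.mem_image, Finset.mem_filter, Finset.mem_singleton]
  constructor
  · rintro ⟨u, ⟨hu, h⟩, rfl⟩
    obtain ⟨a', rfl⟩ := mem_AS.1 hu
    rw [(im_iff hμ a a').1 h]
  · rintro rfl
    exact ⟨_, ⟨atom_mem_AS _, (im_iff hμ _ _).2 rfl⟩, rfl⟩

/-- The moves preserve the relations without defect. -/
theorem moveOf_aut (r0 : H.Rm) (s : F3) (t : H.Rm → F3) (e : H.Lk) (k : F3) (r : Sym) (u v : Base H) :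
    BRel (0 : H.Pt → H.Inc → F3) r (moveOf r0 s t e k u) (moveOf r0 s t e k v) ↔ BRel 0 r u v := by
  have hb : Bal2 (H.Om t (Pi.single r0 s) + k • H.zeta e) (0 : H.Pt → H.Inc → F3) := by
    intro p
    have h1 := H.Om_bal t (Pi.single r0 s) p
    have h2 := H.zeta_bal e p
    simp only [Pi.add_apply, Pi.smul_apply, Pi.zero_apply, smul_eq_mul, add_zero]
    rw [Finset.sum_add_distrib, h1, ← Finset.mul_sum, h2]
    simp
  show BRel 0 r (gAct _ (sAct _ 0 u)) (gAct _ (sAct _ 0 v)) ↔ _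
  rw [BRel_gAct]
  have := BRel_sAct hb 0 r u v
  rwa [sub_zero] at this

theorem moveSet_aut (hμ : μ0 ∈ moveSet H) (r : Sym) (u v : Base H) :
    BRel (0 : H.Pt → H.Inc → F3) r (μ0 u) (μ0 v) ↔ BRel 0 r u v := by
  obtain ⟨⟨r0, s, t, e, k⟩, rfl⟩ := hμ
  exact moveOf_aut r0 s t e k r u v

theorem pres_tbl (r : Fin 8) : PresV (RH 0) r (atom (tblA hμ)) := by
  intro a ha a' ha'
  obtain ⟨a, rfl⟩ := mem_AS.1 ha
  obtain ⟨a', rfl⟩ := mem_AS.1 ha'
  rw [fV_tbl, fV_tbl, rel_iff, rel_iff]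
  exact extRel_extP (tblG hμ) (fun r u v => moveSet_aut hμ r u v) _ _ _

theorem valid_tbl {b : HF (AtomT H)} (hb : ∀ w ∈ members b, ∃ a, w = atom a ∧ extP (tblG hμ) a = a) :
    ValidV (RH 0) (atom (tblA hμ)) b := by
  refine ⟨?_, ?_, pres_tbl hμ 0, pres_tbl hμ 1, pres_tbl hμ 2, pres_tbl hμ 3, pres_tbl hμ 4, pres_tbl hμ 5,
    pres_tbl hμ 6, pres_tbl hμ 7, ?_⟩
  · intro a ha
    obtain ⟨a, rfl⟩ := mem_AS.1 ha
    exact ⟨_, atom_mem_AS _, (fV_tbl hμ a).symm⟩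
  · intro a ha a' ha' h
    obtain ⟨a, rfl⟩ := mem_AS.1 ha
    obtain ⟨a', rfl⟩ := mem_AS.1 ha'
    rw [fV_tbl, fV_tbl] at h
    rw [(extP (tblG hμ)).injective (atom_injective h)]
  · intro w hw
    obtain ⟨a, rfl, h⟩ := hb w hw
    rw [fV_tbl, h]

/-- A pair in the witnessing set, from a move. -/
theorem kp_move {b : HF (AtomT H)} (hb : ∀ w ∈ members b, ∃ a, w = atom a ∧ extP (tblG hμ) a = a) (a : AtomT H) :
    ∃ m ∈ members (mV (RH (0 : H.Pt → H.Inc → F3)) b), ∃ z ∈ members m, z = kpV (atom a) (atom (extP (tblG hμ) a)) := by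
  refine ⟨grV (RH 0) (atom (tblA hμ)), mem_mV.2 (Or.inr ⟨_, atom_mem_AS _, valid_tbl hμ hb, rfl⟩), _, ?_, rfl⟩
  rw [grV_eq (fV_tbl hμ), kpV_eq, kpair_mem_permGraph]

/-- A pair in the witnessing set, from the identity. -/
theorem kp_id {A : Type} [Fintype A] {R : Fin 8 → A → A → Bool} (b : HF A) (a : A) :
    ∃ m ∈ members (mV R b), ∃ z ∈ members m, z = kpV (atom a) (atom a) := by
  refine ⟨idV A, idV_mem_mV b, _, ?_, rfl⟩
  rw [idV_eq, kpV_eq, kpair_mem_permGraph]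
  rfl

/-- The action of a move on the base atoms inside the structure. -/
theorem extP_iota (u : Base H) : extP (tblG hμ) (iota u) = iota (μ0 u) := rfl

/-- The move along a variable. -/
theorem tMove_apply (r : H.Rm) (s : F3) (e0 : H.Lk) (u : Base H) :
    moveOf r s 0 e0 0 u = gAct (Pi.single r s) u := by
  show gAct _ (sAct _ 0 u) = _
  rw [H.Om_zero_left, zero_smul, add_zero, sAct_zero]

/-- The move along a link. -/
theorem lMove_apply (r0 : H.Rm) (e : H.Lk) (k : F3) (u : Base H) :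
    moveOf r0 0 0 e k u = sAct (k • H.zeta e) 0 u := by
  show gAct _ (sAct _ 0 u) = _
  rw [H.Om_zero_left, zero_add, Pi.single_zero, gAct_zero]

end Crest.Agent.CPTL
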