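/-
  The run of the sentence on the structure without defect: every stage is a partial solution, and a
  terminal stage is a full solution.
-/
import Crest.Agent.Lib.CPTL.SemE

set_option autoImplicit false
set_option linter.unusedSectionVars false

noncomputable section
open Classical

namespace Crest.Agent.CPTL

open Crest.LogicCS.HFSet Crest.LogicCS.CPT Crest.LogicCS.LinF3 Base

variable {H : HSys}

/-- The structure without defect. -/
abbrev RZ (H : HSys) := RH (0 : H.Pt → H.Inc → F3)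

/-- The value of a solution at a slot. -/
def valS (t : H.Rm → F3) (z : H.Lk → F3) : H.Rm ⊕ H.Lk → Base H
  | Sum.inl r => tau r (t r)
  | Sum.inr e => bag e (H.aa e t) (H.bb e t) (z e)

/-- The atom of a solution at a slot. -/
abbrev atV (t : H.Rm → F3) (z : H.Lk → F3) (s : H.Rm ⊕ H.Lk) : HF (AtomT H) := atom (iota (valS t z s))

@[simp] theorem slot_val (t : H.Rm → F3) (z : H.Lk → F3) (s : H.Rm ⊕ H.Lk) :
    slotOf (valS t z s) = some s := by
  cases s <;> rfl

/-- The part of a solution on the slots below a given rank. -/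
def St (t : H.Rm → F3) (z : H.Lk → F3) (ρ : ℕ) : HF (AtomT H) :=
  ofFinset ((Finset.univ.filter fun s => H.rk s < ρ).image (atV t z))

variable {t : H.Rm → F3} {z : H.Lk → F3} {ρ : ℕ}

theorem mem_St {w : HF (AtomT H)} : w ∈ members (St t z ρ) ↔ ∃ s, H.rk s < ρ ∧ w = atV t z s := by
  unfold St
  rw [members_ofFinset]
  simp only [Finset.mem_image, Finset.mem_filter, Finset.mem_univ, true_and]
  constructor
  · rintro ⟨s, h, rfl⟩
    exact ⟨s, h, rfl⟩
  · rintro ⟨s, h, rfl⟩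
    exact ⟨s, h, rfl⟩

theorem St_not_atom : ¬ IsAtom (St t z ρ) := not_isAtom_ofFinset _

/-- The relation `I` from a base atom. -/
theorem rel_I_left {κ : H.Pt → H.Inc → F3} {u : Base H} {a : AtomT H}
    (h : RelHolds (RH κ) rI (atom (iota u)) (atom a)) : ∃ v, a = iota v ∧ BRel κ .I u v := by
  rw [rel_iff] at h
  rcases a with (v | ν) | ⟨x', y'⟩
  · exact ⟨v, rfl, h⟩
  · exact h.elim
  · exact h.elim

theorem I_cfg_val {p : H.Pt} {u : Base H}
    (h : BRel (0 : H.Pt → H.Inc → F3) .I (cfg p (fun j => t (H.loc p j)) (fun i => z (H.lkAt p i))) u) :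
    ∃ s, u = valS t z s := by
  cases u with
  | cfg _ _ _ => exact h.elim
  | tau r v =>
    obtain ⟨_, j, rfl, rfl⟩ := h
    exact ⟨Sum.inl (H.loc p j), rfl⟩
  | bag e x y w =>
    obtain ⟨_, i, rfl, rfl, rfl, rfl⟩ := h
    refine ⟨Sum.inr (H.lkAt p i), ?_⟩
    show bag _ _ _ _ = bag _ _ _ _
    rw [H.aL_comp, H.bL_comp]
    simp

/-- Two values of a solution related by `EB` are at the same slot. -/
theorem EB_vals {κ : H.Pt → H.Inc → F3} {u v : Base H} {s s' : H.Rm ⊕ H.Lk} (h1 : slotOf u = some s)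
    (h2 : slotOf v = some s') (h : RelHolds (RH κ) rEB (atom (iota u)) (atom (iota v))) : s = s' := by
  obtain ⟨s0, h3, h4⟩ := (rel_iota.1 h : ∃ s0, slotOf u = some s0 ∧ slotOf v = some s0)
  rw [h1] at h3
  rw [h2] at h4
  cases h3
  cases h4
  rfl

/-- A subset of a solution is good. -/
theorem good_of_vals (hz : H.Bal z) {b : HF (AtomT H)} (hb : ∀ w ∈ members b, ∃ s, w = atV t z s) :
    GoodV (RZ H) b := by
  intro a0 ha0 hc
  obtain ⟨a', rfl⟩ := mem_AS.1 ha0
  obtain ⟨p, τ, z0, rfl, hz0⟩ := rel_Cf_self.1 hc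
  refine ⟨atom (iota (cfg p (fun j => t (H.loc p j)) (fun i => z (H.lkAt p i)))), iota_mem _, ?_, ?_⟩
  · exact rel_VB.2 ⟨p, _, _, _, _, rfl, rfl, hz p, hz0⟩
  · rintro w hw y hy ⟨h1, h2⟩
    obtain ⟨s, rfl⟩ := hb w hw
    obtain ⟨y, rfl⟩ := mem_AS.1 hy
    obtain ⟨v, rfl, h3⟩ := rel_I_left h1
    obtain ⟨s', rfl⟩ := I_cfg_val h3
    have := EB_vals (slot_val _ _ _) (slot_val _ _ _) h2
    subst this
    rfl

/-- Membership in the set of candidates. -/
theorem mem_dV {A : Type} [Fintype A] {R : Fin 8 → A → A → Bool} {b y : HF A} :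
    y ∈ members (dV R b) ↔ y ∈ AS A ∧ NextV R b y ∧ GoodV R (stepV b y) := by
  unfold dV
  rw [members_ofFinset]
  simp only [Finset.mem_image, Finset.mem_filter, members_ofFinset, Finset.mem_insert,
    Finset.mem_singleton, or_self, exists_eq_left, exists_eq_right]

/-- The first slot that is not hit. -/
def First (ρ : ℕ) (s : H.Rm ⊕ H.Lk) : Prop := ρ ≤ H.rk s ∧ ∀ s', H.rk s' < H.rk s → H.rk s' < ρ

/-- A candidate sits in the first slot that is not hit. -/
theorem next_first {y : HF (AtomT H)} (h : NextV (RZ H) (St t z ρ) y) :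
    ∃ u s, y = atom (iota u) ∧ slotOf u = some s ∧ First ρ s := by
  obtain ⟨h1, h2, h3⟩ := h
  obtain ⟨a, b, rfl, hb, h4⟩ := h1
  have hab : a = b := atom_injective hb
  subst hab
  obtain ⟨u, _, s, rfl, _, hs, _⟩ := rel_EB.1 ⟨a, a, rfl, rfl, h4⟩
  refine ⟨u, s, rfl, hs, ?_, ?_⟩
  · by_contra hn
    rw [not_le] at hn
    exact h2 ⟨atV t z s, mem_St.2 ⟨s, hn, rfl⟩, rel_EB_slot hs (slot_val _ _ _)⟩
  · intro s' hs'
    have hne : ¬ atV (0 : H.Rm → F3) (0 : H.Lk → F3) s' = atom (iota u) := by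
      intro e
      have := iota_injective (atom_injective e)
      have h5 := slot_val (0 : H.Rm → F3) (0 : H.Lk → F3) s'
      rw [this, hs] at h5
      cases h5
      exact lt_irrefl _ hs'
    obtain ⟨w, hw, hEB⟩ := h3 _ (iota_mem _) ⟨rel_EB_slot (slot_val _ _ _) (slot_val _ _ _),
      rel_iota.2 (Or.inr ⟨s', s, slot_val _ _ _, hs, hs'⟩), hne⟩
    obtain ⟨s'', h6, rfl⟩ := mem_St.1 hw
    have := EB_vals (slot_val _ _ _) (slot_val _ _ _) hEB
    subst this
    exact h6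

/-- The configurations compatible with a good set. -/
theorem good_at {b : HF (AtomT H)} (hg : GoodV (RZ H) b) (p : H.Pt) :
    ∃ (τ : H.Lc → F3) (zs : H.Inc → F3), ∑ i, zs i = 0 ∧
      (∀ j, ∀ w ∈ members b, RelHolds (RZ H) rEB (atom (iota (tau (H.loc p j) (τ j)))) w →
        atom (iota (tau (H.loc p j) (τ j))) = w) ∧
      (∀ i, ∀ w ∈ members b, RelHolds (RZ H) rEB (atom (iota (valB 0 p τ zs i))) w →
        atom (iota (valB 0 p τ zs i)) = w) := by
  have h0 : ∑ i, (0 : H.Inc → F3) i = 0 := by simp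
  obtain ⟨a, ha, hVB, hall⟩ := hg (atom (iota (cfg p 0 0))) (iota_mem _) (rel_Cf_self.2 ⟨p, 0, 0, rfl, h0⟩)
  obtain ⟨a', rfl⟩ := mem_AS.1 ha
  obtain ⟨p', τ, zs, τ', z', rfl, h3, hzs, _⟩ := rel_VB.1 hVB
  have hp : p' = p := by
    have := iota_injective h3
    cases this
    rfl
  subst hp
  exact ⟨τ, zs, hzs, fun j w hw h => hall w hw _ (iota_mem _) ⟨rel_I_tau hzs j, h⟩,
    fun i w hw h => hall w hw _ (iota_mem _) ⟨rel_I_bag hzs i, h⟩⟩

/-- A good candidate in a link slot, once all the variables are hit. -/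
theorem good_link {e : H.Lk} {x y w : F3} (hτ : ∀ r, H.rk (Sum.inl r) < ρ)
    (hG : GoodV (RZ H) (stepV (St t z ρ) (atom (iota (bag e x y w))))) (p : H.Pt) (i : H.Inc)
    (hpi : H.lkAt p i = e) :
    x = H.aa e t ∧ y = H.bb e t ∧ ∃ zs : H.Inc → F3, ∑ j, zs j = 0 ∧ zs i = w ∧
      ∀ j, H.rk (Sum.inr (H.lkAt p j)) < ρ → zs j = z (H.lkAt p j) := by
  subst hpi
  obtain ⟨τ, zs, hzs, h1, h2⟩ := good_at hG p
  have hτ' : ∀ j, τ j = t (H.loc p j) := by
    intro j
    have hm : atV t z (Sum.inl (H.loc p j)) ∈ members (stepV (St t z ρ) (atom (iota (bag (H.lkAt p i) x y w)))) :=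
      mem_stepV.2 (Or.inl (mem_St.2 ⟨_, hτ _, rfl⟩))
    have h3 := iota_injective (atom_injective (h1 j _ hm (rel_EB_slot rfl rfl)))
    simpa [valS] using h3
  have hτ2 : τ = fun j => t (H.loc p j) := funext hτ'
  subst hτ2
  have hval : ∀ j, valB 0 p (fun j => t (H.loc p j)) zs j =
      bag (H.lkAt p j) (H.aa (H.lkAt p j) t) (H.bb (H.lkAt p j) t) (zs j) := by
    intro j
    simp [valB, H.aL_comp, H.bL_comp]
  have h3 := h2 i _ (mem_stepV.2 (Or.inr ⟨iota_mem _, rfl⟩)) (rel_EB_slot rfl rfl)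
  rw [hval] at h3
  have h4 := iota_injective (atom_injective h3)
  simp only [bag.injEq, true_and] at h4
  obtain ⟨rfl, rfl, rfl⟩ := h4
  refine ⟨rfl, rfl, zs, hzs, rfl, fun j hj => ?_⟩
  have hm : atV t z (Sum.inr (H.lkAt p j)) ∈ members (stepV (St t z ρ) (atom (iota (bag (H.lkAt p i) (H.aa (H.lkAt p i) t) (H.bb (H.lkAt p i) t) (zs i))))) :=
    mem_stepV.2 (Or.inl (mem_St.2 ⟨_, hj, rfl⟩))
  have h5 := h2 j _ hm (rel_EB_slot rfl rfl)
  rw [hval] at h5
  have h6 := iota_injective (atom_injective h5)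
  simp only [valS, bag.injEq, true_and] at h6
  exact h6

/-- The free links. -/
def FreeL (e : H.Lk) : Prop := H.zeta e e = 1 ∧ ∀ e', H.rk (Sum.inr e') < H.rk (Sum.inr e) → H.zeta e e' = 0

/-- The form of the candidates. -/
theorem dV_cases (hz : H.Bal z) {y : HF (AtomT H)} (hy : y ∈ members (dV (RZ H) (St t z ρ))) :
    ∃ s, First ρ s ∧ ((∃ r v, s = Sum.inl r ∧ y = atom (iota (tau r v))) ∨
      (∃ e w, s = Sum.inr e ∧ y = atom (iota (bag e (H.aa e t) (H.bb e t) w)) ∧ (FreeL e ∨ w = z e))) := by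
  obtain ⟨_, hN, hG⟩ := mem_dV.1 hy
  obtain ⟨u, s, rfl, hs, hF⟩ := next_first hN
  refine ⟨s, hF, ?_⟩
  rcases s with r | e
  · left
    obtain ⟨v, rfl⟩ := slot_tau hs
    exact ⟨r, v, rfl, rfl⟩
  · right
    obtain ⟨x, y', w, rfl⟩ := slot_bag hs
    have hτ : ∀ r, H.rk (Sum.inl r) < ρ := fun r => hF.2 _ (H.rk_lt r e)
    rcases H.elim e with hfree | ⟨p, i, hpi, hj⟩
    · obtain ⟨p, i, hpi⟩ := H.lk_has e
      obtain ⟨rfl, rfl, _⟩ := good_link hτ hG p i hpi
      exact ⟨e, w, rfl, rfl, Or.inl hfree⟩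
    · obtain ⟨rfl, rfl, zs, hzs, rfl, h5⟩ := good_link hτ hG p i hpi
      refine ⟨e, _, rfl, rfl, Or.inr ?_⟩
      have h6 : ∑ j, (zs j - z (H.lkAt p j)) = 0 := by
        rw [Finset.sum_sub_distrib, hzs, hz p, sub_zero]
      rw [Finset.sum_eq_single i (fun j _ hji => by
        rw [h5 j (hF.2 _ (hj j hji)), sub_self]) (by simp)] at h6
      rw [← hpi]
      exact sub_eq_zero.1 h6

/-- One step from a partial solution. -/
theorem step_St {t' : H.Rm → F3} {z' : H.Lk → F3} {s : H.Rm ⊕ H.Lk} {y : HF (AtomT H)} (hF : First ρ s)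
    (h3 : ∀ s', H.rk s' < ρ → atV t' z' s' = atV t z s') (h4 : atV t' z' s = y) :
    stepV (St t z ρ) y = St t' z' (H.rk s + 1) := by
  refine hf_ext (stepV_not_atom _ _) St_not_atom ?_
  ext w
  rw [mem_stepV, mem_St, mem_St]
  constructor
  · rintro (⟨s', h1, rfl⟩ | ⟨_, rfl⟩)
    · exact ⟨s', by have := hF.1; omega, (h3 s' h1).symm⟩
    · exact ⟨s, by omega, h4.symm⟩
  · rintro ⟨s', h1, rfl⟩
    rcases Nat.lt_succ_iff_lt_or_eq.1 h1 with h2 | h2
    · have h5 := hF.2 s' h2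
      exact Or.inl ⟨s', h5, h3 s' h5⟩
    · have := H.rk_inj h2
      subst this
      exact Or.inr ⟨iota_mem _, h4⟩

/-- The first slot is a candidate. -/
theorem dV_of_first (hz : H.Bal z) {s : H.Rm ⊕ H.Lk} (hs : First ρ s) :
    atV t z s ∈ members (dV (RZ H) (St t z ρ)) := by
  refine mem_dV.2 ⟨iota_mem _, ⟨rel_EB_slot (slot_val _ _ _) (slot_val _ _ _), ?_, ?_⟩, good_of_vals (t := t) hz ?_⟩
  · rintro ⟨w, hw, hEB⟩
    obtain ⟨s', h1, rfl⟩ := mem_St.1 hw
    have := EB_vals (slot_val _ _ _) (slot_val _ _ _) hEB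
    subst this
    exact absurd hs.1 (not_le.2 h1)
  · rintro y' hy' ⟨h1, h2, h3⟩
    obtain ⟨a, rfl⟩ := mem_AS.1 hy'
    obtain ⟨u', _, s', rfl, _, hs', _⟩ := rel_EB.1 h1
    have h2' : (u' = valS t z s ∧ ValidC u') ∨ Ord u' (valS t z s) := rel_iota.1 h2
    rcases h2' with ⟨e, _⟩ | ⟨s1, s2, h4, h5, h6⟩
    · exact (h3 (by rw [e])).elim
    · rw [hs'] at h4
      cases h4
      rw [slot_val] at h5
      cases h5
      exact ⟨atV t z s', mem_St.2 ⟨_, hs.2 _ h6, rfl⟩, rel_EB_slot hs' (slot_val _ _ _)⟩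
  · intro w hw
    rcases mem_stepV.1 hw with h1 | ⟨_, rfl⟩
    · obtain ⟨s', _, rfl⟩ := mem_St.1 h1
      exact ⟨s', rfl⟩
    · exact ⟨s, rfl⟩

/-- A first slot above any slot that is not hit. -/
theorem exists_first {s : H.Rm ⊕ H.Lk} (hs : ρ ≤ H.rk s) : ∃ s' : H.Rm ⊕ H.Lk, First ρ s' := by
  obtain ⟨s', h1, h2⟩ := (Finset.univ.filter fun s => ρ ≤ H.rk s).exists_min_image H.rk
    ⟨s, Finset.mem_filter.2 ⟨Finset.mem_univ _, hs⟩⟩
  refine ⟨s', (Finset.mem_filter.1 h1).2, fun s'' hs'' => ?_⟩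
  by_contra hn
  rw [not_lt] at hn
  exact absurd (h2 s'' (Finset.mem_filter.2 ⟨Finset.mem_univ _, hn⟩)) (not_le.2 hs'')

theorem first_unique {s s' : H.Rm ⊕ H.Lk} (h : First ρ s) (h' : First ρ s') : s = s' := by
  apply H.rk_inj
  rcases lt_trichotomy (H.rk s) (H.rk s') with h1 | h1 | h1
  · exact absurd h.1 (not_le.2 (h'.2 _ h1))
  · exact h1
  · exact absurd h'.1 (not_le.2 (h.2 _ h1))

/-- A move fixing the partial solution gives a pair in the witnessing set. -/
theorem pair_move {μ0 : Equiv.Perm (Base H)} (hμ : μ0 ∈ moveSet H)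
    (hfix : ∀ s, H.rk s < ρ → μ0 (valS t z s) = valS t z s) (u : Base H) :
    ∃ m ∈ members (mV (RZ H) (St t z ρ)), ∃ zz ∈ members m, zz = kpV (atom (iota u)) (atom (iota (μ0 u))) := by
  refine kp_move hμ (fun w hw => ?_) (iota u)
  obtain ⟨s, hs, rfl⟩ := mem_St.1 hw
  refine ⟨_, rfl, ?_⟩
  rw [extP_iota, hfix s hs]

/-- Two candidates are conjugate. -/
theorem cond_pair (e0 : H.Lk) (r0 : H.Rm) (hz : H.Bal z) {y1 y2 : HF (AtomT H)}
    (h1 : y1 ∈ members (dV (RZ H) (St t z ρ))) (h2 : y2 ∈ members (dV (RZ H) (St t z ρ))) :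
    ∃ m ∈ members (mV (RZ H) (St t z ρ)), ∃ zz ∈ members m, zz = kpV y1 y2 := by
  obtain ⟨s1, hF1, c1⟩ := dV_cases hz h1
  obtain ⟨s2, hF2, c2⟩ := dV_cases hz h2
  obtain rfl := first_unique hF1 hF2
  rcases c1 with ⟨r, v1, rfl, rfl⟩ | ⟨e, w1, rfl, rfl, hc1⟩
  · rcases c2 with ⟨r', v2, he, rfl⟩ | ⟨e, w, he, _⟩
    · cases he
      have hμ := moveOf_mem r (v2 - v1) 0 e0 0
      have := pair_move (t := t) (z := z) (ρ := ρ) hμ (fun s hs => ?_) (tau r v1)
      · rw [tMove_apply] at this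
        have e2 : gAct (Pi.single r (v2 - v1)) (tau r v1 : Base H) = tau r v2 := by
          simp [gAct]
        rwa [e2] at this
      · rw [tMove_apply]
        rcases s with r' | e'
        · have hne : r' ≠ r := by
            rintro rfl
            exact absurd hF1.1 (not_le.2 hs)
          simp [gAct, valS, Pi.single_eq_of_ne hne]
        · exact absurd (hs.trans_le hF1.1) (not_lt.2 (H.rk_lt r e').le)
    · cases he
  · rcases c2 with ⟨r', v2, he, _⟩ | ⟨e', w2, he, rfl, hc2⟩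
    · cases he
    · cases he
      have free_case : FreeL e → ∀ w1 w2 : F3, ∃ m ∈ members (mV (RZ H) (St t z ρ)), ∃ zz ∈ members m,
          zz = kpV (atom (iota (bag e (H.aa e t) (H.bb e t) w1))) (atom (iota (bag e (H.aa e t) (H.bb e t) w2))) := by
        intro hfree w1 w2
        have hμ := moveOf_mem r0 0 0 e (w2 - w1)
        have := pair_move (t := t) (z := z) (ρ := ρ) hμ (fun s hs => ?_) (bag e (H.aa e t) (H.bb e t) w1)
        · rw [lMove_apply] at this
          have e2 : sAct ((w2 - w1) • H.zeta e) 0 (bag e (H.aa e t) (H.bb e t) w1 : Base H) =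
              bag e (H.aa e t) (H.bb e t) w2 := by
            simp [sAct, hfree.1]
          rwa [e2] at this
        · rw [lMove_apply]
          rcases s with r' | e'
          · rfl
          · have h0 := hfree.2 e' (hs.trans_le hF1.1)
            simp [sAct, valS, h0]
      rcases hc1 with hfree | rfl
      · exact free_case hfree w1 w2
      · rcases hc2 with hfree | rfl
        · exact free_case hfree _ _
        · exact kp_id _ _

/-- The partial solutions. -/
def InvS (b : HF (AtomT H)) : Prop := ∃ (t : H.Rm → F3) (z : H.Lk → F3) (ρ : ℕ), H.Bal z ∧ b = St t z ρ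

theorem invS_empty : InvS (empty : HF (AtomT H)) := by
  refine ⟨0, 0, 0, fun p => by simp, ?_⟩
  refine hf_ext not_isAtom_empty St_not_atom ?_
  ext w
  rw [members_empty, mem_St]
  simp

theorem invS_step {b y : HF (AtomT H)} (hb : InvS b) (hy : y ∈ members (chV (RZ H) b)) :
    InvS (stepV b y) := by
  obtain ⟨t, z, ρ, hz, rfl⟩ := hb
  rcases mem_chV.1 hy with ⟨_, h⟩ | ⟨_, rfl⟩
  · obtain ⟨s, hF, c⟩ := dV_cases hz h
    rcases c with ⟨r, v, rfl, rfl⟩ | ⟨e, w, rfl, rfl, hc⟩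
    · refine ⟨Function.update t r v, z, _, hz, step_St hF ?_ ?_⟩
      · intro s' hs'
        rcases s' with r' | e'
        · have hne : r' ≠ r := by
            rintro rfl
            exact absurd hF.1 (not_le.2 hs')
          simp [valS, Function.update_of_ne hne]
        · exact absurd (hs'.trans_le hF.1) (not_lt.2 (H.rk_lt r e').le)
      · simp [valS]
    · rcases hc with hfree | rfl
      · refine ⟨t, z + (w - z e) • H.zeta e, _, ?_, step_St hF ?_ ?_⟩
        · intro p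
          simp only [Pi.add_apply, Pi.smul_apply, smul_eq_mul]
          rw [Finset.sum_add_distrib, hz p, ← Finset.mul_sum, H.zeta_bal]
          simp
        · intro s' hs'
          rcases s' with r' | e'
          · rfl
          · have h0 := hfree.2 e' (hs'.trans_le hF.1)
            simp [valS, h0]
        · simp [valS, hfree.1]
      · exact ⟨t, z, _, hz, step_St hF (fun _ _ => rfl) rfl⟩
  · refine ⟨t, z, ρ, hz, hf_ext (stepV_not_atom _ _) St_not_atom ?_⟩
    ext w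
    rw [mem_stepV]
    constructor
    · rintro (h | ⟨h1, rfl⟩)
      · exact h
      · obtain ⟨a, ha⟩ := mem_AS.1 h1
        exact absurd ⟨a, ha⟩ not_isAtom_empty
    · exact Or.inl

theorem invS_run {b c : ℕ → HF (AtomT H)} {k : ℕ} (h : IsRun (stS (AtomT H)) (chS (RZ H)) b c k) :
    ∀ i, i ≤ k → InvS (b i) := by
  intro i
  induction i with
  | zero =>
    intro _
    rw [h.1]
    exact invS_empty
  | succ i ih =>
    intro hi
    obtain ⟨h1, h2⟩ := run_facts h (i := i) (by omega)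
    rw [h2]
    exact invS_step (ih (by omega)) h1

/-- The sentence holds on the structure without defect. -/
theorem theS_holds_zero (e0 : H.Lk) (r0 : H.Rm) : theS.Holds (AtomT H) (RZ H) := by
  rw [theS_holds_iff]
  rintro b c t' ⟨hrun, _, hterm⟩
  obtain ⟨t, z, ρ, hz, hb⟩ := invS_run hrun t' (by omega)
  have hall : ∀ s, H.rk s < ρ := by
    intro s
    by_contra hn
    rw [not_lt] at hn
    obtain ⟨s', hF⟩ := exists_first hn
    have hc : CondV (RZ H) (b t') := by
      rw [hb]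
      exact ⟨⟨atV t z s', dV_of_first hz hF, rfl⟩, fun u hu v hv => cond_pair e0 r0 hz hu hv⟩
    obtain ⟨h1, h2⟩ := run_facts hrun (i := t') (by omega)
    rcases mem_chV.1 h1 with ⟨_, h3⟩ | ⟨h3, _⟩
    · obtain ⟨h4, ⟨h5, h6, _⟩, _⟩ := mem_dV.1 h3
      have h7 : c t' ∈ members (stepV (b t') (c t')) := mem_stepV.2 (Or.inr ⟨h4, rfl⟩)
      rw [← h2, hterm] at h7
      exact h6 ⟨c t', h7, h5⟩
    · exact h3 hc
  rw [hb]
  refine ⟨?_, good_of_vals (t := t) hz fun w hw => ?_⟩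
  · intro y hy hEB
    obtain ⟨a, rfl⟩ := mem_AS.1 hy
    obtain ⟨u, _, s, rfl, _, hs, _⟩ := rel_EB.1 hEB
    exact ⟨atV t z s, mem_St.2 ⟨s, hall s, rfl⟩, rel_EB_slot hs (slot_val _ _ _)⟩
  · obtain ⟨s, _, rfl⟩ := mem_St.1 hw
    exact ⟨s, rfl⟩

end Crest.Agent.CPTL
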