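/-
  One witnessed choice defines a class that no plain sentence defines.
-/
import Crest.Agent.Lib.CPTL.Final25
import Crest.Agent.Lib.CPTL.SemF

set_option autoImplicit false
set_option linter.unusedSectionVars false

noncomputable section
open Classical

namespace Crest.Agent.CPTL

open Crest.LogicCS.HFSet Crest.LogicCS.CPT Crest.LogicCS.LinF3 Base

theorem wsc_beats_plain : ∃ S : Sentence (Fin 8), S.formula.wscCount = 1 ∧
    (∀ (A : Type) [Fintype A] (R : Fin 8 → A → A → Bool), S.value A R ≠ none) ∧
    ∀ T : Sentence (Fin 8), T.IsPlain →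
      ¬ ∀ (A : Type) [Fintype A] (R : Fin 8 → A → A → Bool), S.Holds A R ↔ T.Holds A R := by
  refine ⟨theS, theF_wsc, fun A _ R => theS_ne_none A R, ?_⟩
  intro T hplain hT
  obtain ⟨L, hL⟩ := plain_agree symF T hplain
  have hk := kap1_total L
  have hne : ∃ p : (latSys L).Pt, ∃ i : (latSys L).Inc, True := by
    by_contra hn
    push Not at hn
    apply hk
    refine Finset.sum_eq_zero fun p _ => ?_
    have : ∑ i, kap1 L p i = 0 := Finset.sum_eq_zero fun i _ => (hn p i).elim
    rw [this, mul_zero]
  obtain ⟨p, i, _⟩ := hne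
  have h0 : theS.Holds (AtL L) (fun s => R0L L (symF s)) :=
    theS_holds_zero (H := latSys L) ((latSys L).lkAt p i) (0 : VT L)
  have h1 := (hT (AtL L) (fun s => R1L L (symF s))).2 (hL.1 ((hT _ _).1 h0))
  rw [theS_holds_iff] at h1
  obtain ⟨b, c, t, hpath⟩ := exists_terminal (fun s => R1L L (symF s))
  exact out_false (H := latSys L) hk _ (h1 b c t hpath)

end Crest.Agent.CPTL
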